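import Vale.Agent.P019.Fld
import Vale.Agent.P019.PlCore

/-!
# Perfect subfields of a perfect field
-/

namespace Vale.Agent.P019P

open Vale.Agent.P019

set_option linter.style.haveILetI false

open Polynomial

section pf

variable {K : Type*} [Field K]

instance expChar_sub (E : Subfield K) : ExpChar E (ringExpChar K) :=
  (algebraMap E K).expChar (algebraMap E K).injective _

/-- perfect closure of a subfield in the ambient field. -/
noncomputable def pf (E : Subfield K) : Subfield K := (perfectClosure E K).toSubfield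

theorem mem_pf {E : Subfield K} {z : K} : z ∈ pf E ↔ ∃ n : ℕ, z ^ ringExpChar K ^ n ∈ E := by
  change z ∈ perfectClosure E K ↔ _
  rw [mem_perfectClosure_iff_pow_mem (ringExpChar K)]
  constructor
  · rintro ⟨n, y, hy⟩
    refine ⟨n, ?_⟩
    rw [← hy]
    exact y.2
  · rintro ⟨n, hn⟩
    exact ⟨n, ⟨_, hn⟩, rfl⟩

theorem le_pf (E : Subfield K) : E ≤ pf E := fun z hz => mem_pf.2 ⟨0, by simpa using hz⟩

theorem pf_mono {E F : Subfield K} (h : E ≤ F) : pf E ≤ pf F := fun z hz => by
  obtain ⟨n, hn⟩ := mem_pf.1 hz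
  exact mem_pf.2 ⟨n, h hn⟩

theorem pf_pf (E : Subfield K) : pf (pf E) = pf E := by
  apply le_antisymm _ (le_pf _)
  intro z hz
  obtain ⟨n, hn⟩ := mem_pf.1 hz
  obtain ⟨m, hm⟩ := mem_pf.1 hn
  refine mem_pf.2 ⟨n + m, ?_⟩
  rw [pow_add, pow_mul]
  exact hm

instance pf_perfect [PerfectField K] (E : Subfield K) : PerfectField (pf E) :=
  inferInstanceAs (PerfectField (perfectClosure E K))

theorem pow_q_injective (n : ℕ) : Function.Injective fun z : K => z ^ ringExpChar K ^ n := by
  have h2 := (iterateFrobenius K (ringExpChar K) n).injective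
  intro x y hxy
  exact h2 (by simpa [iterateFrobenius_def] using hxy)

/-- roots in perfect subfields. -/
theorem exists_root_q (E : Subfield K) [PerfectField E] {z : K} (hz : z ∈ E) (n : ℕ) :
    ∃ y ∈ E, y ^ ringExpChar K ^ n = z := by
  haveI : PerfectRing E (ringExpChar K) := PerfectField.toPerfectRing _
  have h2 := (bijective_iterateFrobenius E (ringExpChar K) (n := n)).2
  obtain ⟨y, hy⟩ := h2 ⟨z, hz⟩
  refine ⟨y, y.2, ?_⟩
  rw [iterateFrobenius_def] at hy
  exact congrArg Subtype.val hy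

theorem pf_le {E F : Subfield K} [PerfectField F] (h : E ≤ F) : pf E ≤ F := by
  intro z hz
  obtain ⟨n, hn⟩ := mem_pf.1 hz
  obtain ⟨y, hy, hyz⟩ := exists_root_q F (h hn) n
  rw [← pow_q_injective n hyz]
  exact hy

theorem pf_eq (E : Subfield K) [PerfectField E] : pf E = E := le_antisymm (pf_le le_rfl) (le_pf E)

theorem mem_of_pow_q {E : Subfield K} [PerfectField E] {z : K} {n : ℕ}
    (h : z ^ ringExpChar K ^ n ∈ E) : z ∈ E := by
  rw [← pf_eq E]
  exact mem_pf.2 ⟨n, h⟩

theorem perfect_of_root {E : Subfield K} (h : ∀ z ∈ E, ∃ y ∈ E, y ^ ringExpChar K = z) :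
    PerfectField E := by
  haveI : PerfectRing E (ringExpChar K) := PerfectRing.ofSurjective _ _ fun z => by
    obtain ⟨y, hy, hyz⟩ := h z z.2
    exact ⟨⟨y, hy⟩, Subtype.ext hyz⟩
  exact PerfectRing.toPerfectField E (ringExpChar K)

theorem perfect_of_pf_le [PerfectField K] {E : Subfield K} (h : pf E ≤ E) : PerfectField E := by
  have h1 : pf E = E := le_antisymm h (le_pf E)
  rw [← h1]
  infer_instance

instance perfect_sup {E F : Subfield K} [PerfectField E] [PerfectField F] :
    PerfectField (E ⊔ F : Subfield K) := by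
  let φ := frobenius K (ringExpChar K)
  have key : ∀ G : Subfield K, PerfectField G → G ≤ G.map φ := by
    intro G hG z hz
    obtain ⟨y, hy, hyz⟩ := exists_root_q G hz 1
    refine ⟨y, hy, ?_⟩
    rw [pow_one] at hyz
    exact hyz
  have h1 : E ⊔ F ≤ (E ⊔ F).map φ := by
    rw [Subfield.map_sup]
    exact sup_le_sup (key E inferInstance) (key F inferInstance)
  refine perfect_of_root ?_
  intro z hz
  obtain ⟨y, hy, hyz⟩ := h1 hz
  exact ⟨y, hy, hyz⟩

instance perfect_inf {E F : Subfield K} [PerfectField E] [PerfectField F] :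
    PerfectField (E ⊓ F : Subfield K) := by
  refine perfect_of_root ?_
  intro z hz
  obtain ⟨y, hy, hyz⟩ := exists_root_q E (Subfield.mem_inf.1 hz).1 1
  obtain ⟨y', hy', hyz'⟩ := exists_root_q F (Subfield.mem_inf.1 hz).2 1
  have h1 : y = y' := pow_q_injective 1 (hyz.trans hyz'.symm)
  rw [pow_one] at hyz
  exact ⟨y, Subfield.mem_inf.2 ⟨hy, by rw [h1]; exact hy'⟩, hyz⟩

instance perfect_top [PerfectField K] : PerfectField (⊤ : Subfield K) :=
  perfect_of_pf_le le_top

theorem perfect_of_RAC [PerfectField K] {E : Subfield K} (h : RAC E) : PerfectField E := by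
  refine perfect_of_pf_le ?_
  intro z hz
  obtain ⟨n, hn⟩ := mem_pf.1 hz
  refine h z (IsAlgebraic.of_pow (n := ringExpChar K ^ n) ?_ (isAlgebraic_of_mem hn))
  exact pow_pos (expChar_pos K _) n

instance perfect_rac [PerfectField K] (E : Subfield K) : PerfectField (rac E) :=
  perfect_of_RAC (RAC_rac E)

theorem isAlgebraic_pf {E : Subfield K} {z : K} : IsAlgebraic (pf E) z ↔ IsAlgebraic E z := by
  constructor
  · intro h
    refine isAlgebraic_trans (le_pf E) ?_ h
    intro y hy
    obtain ⟨n, hn⟩ := mem_pf.1 hy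
    refine IsAlgebraic.of_pow (n := ringExpChar K ^ n) ?_ (isAlgebraic_of_mem hn)
    exact pow_pos (expChar_pos K _) n
  · exact isAlgebraic_mono (le_pf E)

theorem pf_le_rac (E : Subfield K) : pf E ≤ rac E := by
  intro z hz
  rw [mem_rac]
  exact isAlgebraic_pf.1 (isAlgebraic_of_mem hz)

theorem rac_pf (E : Subfield K) : rac (pf E) = rac E := by
  ext z
  rw [mem_rac, mem_rac]
  exact isAlgebraic_pf

end pf

section adj

variable {K : Type*} [Field K]

/-- the perfect closure of the subfield `E(t)`. -/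
noncomputable def adj (E : Subfield K) (t : K) : Subfield K := pf (Vale.Agent.P019.adj E t)

theorem adj0_le_adj (E : Subfield K) (t : K) : Vale.Agent.P019.adj E t ≤ adj E t := le_pf _

theorem le_adj (E : Subfield K) (t : K) : E ≤ adj E t :=
  (Vale.Agent.P019.le_adj E t).trans (le_pf _)

theorem mem_adj (E : Subfield K) (t : K) : t ∈ adj E t :=
  le_pf _ (Vale.Agent.P019.mem_adj E t)

instance perfect_adj [PerfectField K] (E : Subfield K) (t : K) : PerfectField (adj E t) :=
  pf_perfect _

theorem adj_le {E F : Subfield K} [PerfectField F] {t : K} (h : E ≤ F) (ht : t ∈ F) :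
    adj E t ≤ F :=
  pf_le (Vale.Agent.P019.adj_le h ht)

theorem adj_mono {E F : Subfield K} (h : E ≤ F) (t : K) : adj E t ≤ adj F t :=
  pf_mono (Vale.Agent.P019.adj_mono h t)

theorem isAlgebraic_adj {E : Subfield K} {t z : K} :
    IsAlgebraic (adj E t) z ↔ IsAlgebraic (Vale.Agent.P019.adj E t) z := isAlgebraic_pf

theorem rac_adj (E : Subfield K) (t : K) : rac (adj E t) = rac (Vale.Agent.P019.adj E t) :=
  rac_pf _

theorem exchange {E : Subfield K} {a b : K} (ha : ¬ IsAlgebraic E a)
    (h : IsAlgebraic (adj E b) a) : IsAlgebraic (adj E a) b :=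
  isAlgebraic_adj.2 (Vale.Agent.P019.exchange ha (isAlgebraic_adj.1 h))

/-- elements of the perfect closure of `E(t)`. -/
theorem mem_adj_iff {E : Subfield K} {t z : K} :
    z ∈ adj E t ↔ ∃ n : ℕ, z ^ ringExpChar K ^ n ∈ Vale.Agent.P019.adj E t := mem_pf

end adj

section VS

variable {ℓ : ℕ} {K : Type*} [Field K]

/-- the exponential characteristic is invertible modulo `ℓ`. -/
theorem q_ne_zero (ℓ : ℕ) [hl : Fact ℓ.Prime] (K : Type*) [Field K] [NeZero (ℓ : K)] :
    ((ringExpChar K : ℕ) : ZMod ℓ) ≠ 0 := by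
  intro h
  rw [ZMod.natCast_eq_zero_iff] at h
  rcases CharP.exists K with ⟨p, hp⟩
  have h1 : ringExpChar K = max p 1 := by rw [ringExpChar, ringChar.eq K p]
  rcases CharP.char_is_prime_or_zero K p with h2 | h2
  · have h3 : ringExpChar K = p := by
      rw [h1]
      exact max_eq_left h2.one_lt.le
    rw [h3, Nat.prime_dvd_prime_iff_eq hl.out h2] at h
    subst h
    exact NeZero.ne ((ℓ : ℕ) : K) (CharP.cast_eq_zero K ℓ)
  · subst h2
    rw [h1] at h
    exact hl.out.one_lt.ne' (Nat.dvd_one.1 (by simpa using h))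

theorem q_pow_ne_zero (ℓ : ℕ) [Fact ℓ.Prime] (K : Type*) [Field K] [NeZero (ℓ : K)] (n : ℕ) :
    ((ringExpChar K ^ n : ℕ) : ZMod ℓ) ≠ 0 := by
  rw [Nat.cast_pow]
  exact pow_ne_zero _ (q_ne_zero ℓ K)

theorem VS_pf [Fact ℓ.Prime] [NeZero (ℓ : K)] (E : Subfield K) : VS ℓ (pf E) = VS ℓ E := by
  apply le_antisymm _ (VS_mono (le_pf E))
  rintro v ⟨x, hx, hx0, rfl⟩
  obtain ⟨n, hn⟩ := mem_pf.1 hx
  have h1 : cl ℓ (x ^ ringExpChar K ^ n) ∈ VS ℓ E := cl_mem_VS hn
  rw [cl_pow] at h1
  have hu := q_pow_ne_zero ℓ K n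
  have h2 := Submodule.smul_mem (VS ℓ E) ((ringExpChar K ^ n : ℕ) : ZMod ℓ)⁻¹ h1
  rw [← Nat.cast_smul_eq_nsmul (ZMod ℓ), smul_smul, inv_mul_cancel₀ hu, one_smul] at h2
  exact h2

end VS

section FG

variable {K : Type*} [Field K]

/-- `Λ` is the perfect closure of a finitely generated field extension of `E`. -/
def FG (E Λ : Subfield K) : Prop := ∃ S : Finset K, Λ = pf (E ⊔ Subfield.closure (S : Set K))

/-- `t` is a non-constant with `k(t)` relatively algebraically closed, up to perfect closure. -/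
def Good (k : Subfield K) (t : K) : Prop := t ∉ k ∧ RAC (adj k t)

end FG

/-- A model of a function field of transcendence degree at least two over an algebraically closed
field of constants. -/
structure Mdl (K : Type*) [Field K] where
  k : Subfield K
  k0 : Subfield K
  K0 : Subfield K
  le_k : k0 ≤ k
  le_K0 : k0 ≤ K0
  ack : IsAlgClosed k
  ack0 : IsAlgClosed k0
  pfK0 : PerfectField K0
  sup : K0 ⊔ k = ⊤
  ctb : (K0 : Set K).Countable
  fg : FG k0 K0
  free : ∀ N : Subfield K, RAC N → k0 ≤ N → N ≤ k →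
    ∀ a ∈ k, IsAlgebraic (K0 ⊔ N : Subfield K) a → a ∈ N
  x : K
  y : K
  hx : x ∈ K0
  hy : y ∈ K0
  hxk : x ∉ k
  hyx : ¬ IsAlgebraic (adj k x) y

namespace Mdl

variable {K : Type*} [Field K] (M : Mdl K)

instance instPerfectK0 (M : Mdl K) : PerfectField M.K0 := M.pfK0

instance instPerfectk (M : Mdl K) : PerfectField M.k :=
  haveI := M.ack
  inferInstance

instance instPerfectk0 (M : Mdl K) : PerfectField M.k0 :=
  haveI := M.ack0
  inferInstance

/-- the function field over smaller constants. -/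
def F (N : Subfield K) : Subfield K := M.K0 ⊔ N

instance instPerfectF (N : Subfield K) [PerfectField N] : PerfectField (M.F N) :=
  inferInstanceAs (PerfectField (M.K0 ⊔ N : Subfield K))

/-- algebraically closed subfields of the constants. -/
structure Sub (N : Subfield K) : Prop where
  rac : RAC N
  ge : M.k0 ≤ N
  le : N ≤ M.k

variable {M}

theorem Sub.isAlgClosed {N : Subfield K} (h : M.Sub N) : IsAlgClosed N :=
  isAlgClosed_of_RAC M.ack h.rac h.le

theorem Sub.perfect {N : Subfield K} (h : M.Sub N) : PerfectField N :=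
  haveI := h.isAlgClosed
  inferInstance

theorem Sub.perfect_F {N : Subfield K} (h : M.Sub N) : PerfectField (M.F N) :=
  haveI := h.perfect
  inferInstance

theorem Sub.le_F (N : Subfield K) : N ≤ M.F N := le_sup_right

theorem K0_le (N : Subfield K) : M.K0 ≤ M.F N := le_sup_left

theorem F_mono {N N' : Subfield K} (h : N ≤ N') : M.F N ≤ M.F N' := sup_le_sup_left h _

theorem RAC_k (M : Mdl K) : RAC M.k := RAC_of_isAlgClosed _ M.ack

theorem sub_k (M : Mdl K) : M.Sub M.k := ⟨M.RAC_k, M.le_k, le_rfl⟩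

theorem F_k (M : Mdl K) : M.F M.k = ⊤ := M.sup

theorem sub_rac {N : Subfield K} (h0 : M.k0 ≤ N) (h : N ≤ M.k) : M.Sub (rac N) :=
  ⟨RAC_rac N, h0.trans (le_rac N), M.RAC_k.le h⟩

end Mdl

end Vale.Agent.P019P
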