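import Vale.Agent.P019.Line
import Vale.Agent.P019P.Fld

/-!
# Rational function subfields
-/

namespace Vale.Agent.P019P

open Vale.Agent.P019

set_option linter.style.haveILetI false

open Polynomial

section line

variable {K : Type*} [Field K] [PerfectField K] {ℓ : ℕ} [Fact ℓ.Prime] [NeZero (ℓ : K)]

theorem line_VS_le {K : Type*} [Field K] {ℓ : ℕ} [Fact ℓ.Prime] [NeZero (ℓ : K)] {k : Subfield K}
    (hk : IsAlgClosed k) {x : K} (hx : x ∉ k) : VS ℓ (adj k x) ≤
      Submodule.span (ZMod ℓ) (Set.range fun c : k => cl ℓ (x - (c : K))) := by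
  rw [adj, VS_pf]
  exact Vale.Agent.P019.line_VS_le hk hx


/-- S17 linear independence of the classes of `x - c` for good `x`. -/
theorem good_independent {k : Subfield K} (hk : IsAlgClosed k) {x : K} (hx : Good k x)
    (s : Finset K) (hs : ∀ c ∈ s, c ∈ k) (n : K → ZMod ℓ)
    (h : ∑ c ∈ s, n c • cl ℓ (x - c) = 0) : ∀ c ∈ s, n c = 0 := by
  classical
  have hℓ : ℓ.Prime := Fact.out
  have hsub : ∀ c ∈ s, x - c ≠ 0 := by
    intro c hc h
    apply hx.1
    rw [sub_eq_zero] at h
    rw [h]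
    exact hs c hc
  -- product
  have e1 : ∀ t : Finset K, t ⊆ s → (∏ c ∈ t, (x - c) ^ (n c).val) ≠ 0 ∧
      cl ℓ (∏ c ∈ t, (x - c) ^ (n c).val) = ∑ c ∈ t, n c • cl ℓ (x - c) := by
    intro t
    induction t using Finset.induction_on with
    | empty =>
      intro _
      simp [cl_one]
    | insert a t ha ih =>
      intro ht
      have ih' := ih (fun c hc => ht (Finset.mem_insert_of_mem hc))
      have ha' : x - a ≠ 0 := hsub a (ht (Finset.mem_insert_self a t))
      rw [Finset.prod_insert ha, Finset.sum_insert ha]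
      refine ⟨mul_ne_zero (pow_ne_zero _ ha') ih'.1, ?_⟩
      rw [cl_mul ℓ (pow_ne_zero _ ha') ih'.1, ih'.2, cl_pow]
      congr 1
      rw [← Nat.cast_smul_eq_nsmul (ZMod ℓ), ZMod.natCast_zmod_val]
  obtain ⟨hne, hcl⟩ := e1 s (Finset.Subset.refl s)
  rw [h] at hcl
  obtain ⟨w, hw0, hw⟩ := (cl_eq_zero_iff ℓ hne).1 hcl
  -- the product as the value of a polynomial
  set P : k[X] := ∏ c ∈ s.attach, (X - C (⟨c.1, hs c.1 c.2⟩ : k)) ^ (n c.1).val with hP
  have hPx : aeval x P = ∏ c ∈ s, (x - c) ^ (n c).val := by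
    rw [hP, map_prod, ← Finset.prod_attach s]
    refine Finset.prod_congr rfl ?_
    intro c _
    rw [map_pow, map_sub, aeval_X, aeval_C]
    rfl
  have hPmem : aeval x P ∈ adj k x := by
    have : aeval x P = ∏ c ∈ s, (x - c) ^ (n c).val := hPx
    rw [this]
    refine Subfield.prod_mem _ ?_
    intro c hc
    exact Subfield.pow_mem _ (Subfield.sub_mem _ (mem_adj k x) (le_adj k x (hs c hc))) _
  have hwalg : IsAlgebraic (adj k x) w := by
    refine ⟨X ^ ℓ - C ⟨aeval x P, hPmem⟩, ?_, ?_⟩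
    · exact (monic_X_pow_sub_C _ hℓ.ne_zero).ne_zero
    · rw [map_sub, map_pow, aeval_X, aeval_C, hw, ← hPx]
      exact sub_self _
  have hwmem : w ∈ adj k x := hx.2 w hwalg
  obtain ⟨j, hj⟩ := mem_adj_iff.1 hwmem
  set Q := ringExpChar K ^ j with hQ
  have hQ0 : Q ≠ 0 := (pow_pos (expChar_pos K _) j).ne'
  obtain ⟨p, q, hpq⟩ := line_mem hj
  have hp : p ≠ 0 := by
    rintro rfl
    rw [map_zero, zero_div] at hpq
    exact pow_ne_zero _ hw0 hpq
  have hq : q ≠ 0 := by
    rintro rfl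
    rw [map_zero, div_zero] at hpq
    exact pow_ne_zero _ hw0 hpq
  have hqx := line_aeval_ne hk hx.1 hq
  have hpoly : P ^ Q * q ^ ℓ = p ^ ℓ := by
    apply line_transc hk hx.1
    rw [map_mul, map_pow, map_pow, map_pow, hPx, ← hw, ← pow_mul, mul_comm ℓ Q, pow_mul, hpq,
      div_pow, div_mul_cancel₀ _ (pow_ne_zero _ hqx)]
  have hP0 : P ≠ 0 := by
    intro h0
    rw [h0, zero_pow hQ0, zero_mul] at hpoly
    exact pow_ne_zero _ hp hpoly.symm
  intro c hc
  have hm : rootMultiplicity (⟨c, hs c hc⟩ : k) (P ^ Q * q ^ ℓ) =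
      rootMultiplicity (⟨c, hs c hc⟩ : k) (p ^ ℓ) := by rw [hpoly]
  have hcP : ∀ t : Finset s, rootMultiplicity (⟨c, hs c hc⟩ : k)
      (∏ c ∈ t, (X - C (⟨c.1, hs c.1 c.2⟩ : k)) ^ (n c.1).val) =
      if (⟨c, hc⟩ : s) ∈ t then (n c).val else 0 := by
    intro t
    induction t using Finset.induction_on with
    | empty => simp
    | insert a t ha ih =>
      have hne1 : ∀ u : Finset s, (∏ c ∈ u, (X - C (⟨c.1, hs c.1 c.2⟩ : k)) ^ (n c.1).val) ≠ 0 := by
        intro u
        exact Finset.prod_ne_zero_iff.2 (fun b _ => pow_ne_zero _ (X_sub_C_ne_zero _))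
      have hne2 : (∏ c ∈ insert a t, (X - C (⟨c.1, hs c.1 c.2⟩ : k)) ^ (n c.1).val) ≠ 0 := hne1 _
      rw [Finset.prod_insert ha] at hne2 ⊢
      rw [rootMultiplicity_mul hne2, ih]
      by_cases hac : a = ⟨c, hc⟩
      · subst hac
        rw [if_neg ha, if_pos (Finset.mem_insert_self _ _), add_zero, rootMultiplicity_X_sub_C_pow]
      · have h4 : (⟨c, hc⟩ : s) ∈ insert a t ↔ (⟨c, hc⟩ : s) ∈ t := by
          rw [Finset.mem_insert]
          constructor
          · rintro (h5 | h5)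
            · exact absurd h5.symm hac
            · exact h5
          · exact Or.inr
        have h5 : rootMultiplicity (⟨c, hs c hc⟩ : k)
            ((X - C (⟨a.1, hs a.1 a.2⟩ : k)) ^ (n a.1).val) = 0 := by
          apply rootMultiplicity_eq_zero
          rw [IsRoot, eval_pow, eval_sub, eval_X, eval_C]
          apply pow_ne_zero
          rw [Ne, sub_eq_zero]
          intro h6
          apply hac
          have h7 := congrArg (Subtype.val : k → K) h6
          exact Subtype.ext h7.symm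
        rw [h5, zero_add]
        simp only [h4]
  have hpowm : ∀ (r : k[X]) (m : ℕ), rootMultiplicity (⟨c, hs c hc⟩ : k) (r ^ m) =
      m * rootMultiplicity (⟨c, hs c hc⟩ : k) r := by
    intro r m
    rw [← count_roots, ← count_roots, roots_pow, Multiset.count_nsmul]
  rw [rootMultiplicity_mul (mul_ne_zero (pow_ne_zero _ hP0) (pow_ne_zero _ hq)), hpowm q,
    hpowm p, hpowm P, hP, hcP s.attach, if_pos (Finset.mem_attach _ _)] at hm
  have hdvd : ℓ ∣ (n c).val := by
    have h8 : ℓ ∣ Q * (n c).val + ℓ * rootMultiplicity (⟨c, hs c hc⟩ : k) q := by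
      rw [hm]; exact dvd_mul_right _ _
    have h9 : ℓ ∣ Q * (n c).val := (Nat.dvd_add_left (dvd_mul_right _ _)).1 h8
    refine (hℓ.dvd_mul.1 h9).resolve_left ?_
    intro h10
    exact q_pow_ne_zero ℓ K j ((ZMod.natCast_eq_zero_iff _ _).2 h10)
  have hlt : (n c).val < ℓ := ZMod.val_lt _
  have h0 : (n c).val = 0 := Nat.eq_zero_of_dvd_of_lt hdvd hlt
  exact (ZMod.val_eq_zero _).1 h0


/-- S18 factorization in the rational function field. -/
theorem adj_factor {k : Subfield K} (hk : IsAlgClosed k) {x : K} (hx : x ∉ k) {v : V ℓ K}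
    (hv : v ∈ VS ℓ (adj k x)) :
    ∃ (s : Finset K) (n : K → ZMod ℓ), (∀ c ∈ s, c ∈ k) ∧ v = ∑ c ∈ s, n c • cl ℓ (x - c) := by
  classical
  have h1 := line_VS_le hk hx hv
  obtain ⟨f, hf⟩ := (Finsupp.mem_span_range_iff_exists_finsupp).1 h1
  refine ⟨f.support.map ⟨Subtype.val, Subtype.val_injective⟩,
    fun c => if h : c ∈ k then f ⟨c, h⟩ else 0, ?_, ?_⟩
  · intro c hc
    obtain ⟨a, _, rfl⟩ := Finset.mem_map.1 hc
    exact a.2
  · rw [← hf, Finsupp.sum, Finset.sum_map]
    refine Finset.sum_congr rfl ?_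
    intro a _
    have : (a : K) ∈ k := a.2
    simp

/-- S19 the line subspaces are isotropic. -/
theorem adj_isotropic {k : Subfield K} (hk : IsAlgClosed k) {x : K} (hx : x ∉ k) :
    Isotropic (VS ℓ (adj k x)) := by
  have hsub : ∀ c : k, x - (c : K) ≠ 0 := by
    intro c h
    apply hx
    rw [sub_eq_zero] at h
    rw [h]
    exact c.2
  have hneg1 : ∃ i : K, i ^ ℓ = -1 := by
    obtain ⟨w, hw⟩ := IsAlgClosed.exists_pow_nat_eq (-1 : k) (Fact.out : ℓ.Prime).pos
    refine ⟨(w : K), ?_⟩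
    have h2 := congrArg (Subtype.val : k → K) hw
    simpa using h2
  have hself : ∀ a : K, Orth (cl ℓ a) (cl ℓ a) := by
    intro a
    by_cases ha0 : a = 0
    · rw [ha0, cl_zero]; exact orth_zero_left _
    by_cases ha1 : a = 1
    · rw [ha1, cl_one]; exact orth_zero_left _
    have h1 : (1 - a) ≠ 0 := sub_ne_zero.2 (Ne.symm ha1)
    have h2 : (1 - a⁻¹) ≠ 0 := by
      rw [sub_ne_zero]
      intro h
      exact ha1 (by rw [eq_comm, inv_eq_one] at h; exact h)
    have h3 : -a = (1 - a) / (1 - a⁻¹) := by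
      rw [eq_div_iff h2]
      field_simp
      ring
    have h4 : cl ℓ a = cl ℓ (1 - a) - cl ℓ (1 - a⁻¹) := by
      rw [← cl_neg ℓ hneg1 a, h3, cl_div ℓ h1 h2]
    have h5 : Orth (cl ℓ a) (cl ℓ (1 - a)) := orth_one_sub a
    have h6 : Orth (cl ℓ a) (cl ℓ (1 - a⁻¹)) := by
      have h7 : Orth (cl ℓ a⁻¹) (cl ℓ (1 - a⁻¹)) := orth_one_sub a⁻¹
      have h8 := h7.neg_left
      rw [cl_inv, neg_neg] at h8
      exact h8
    have h9 := h5.sub_right h6
    rw [← h4] at h9
    exact h9
  have hpair : ∀ c d : k, Orth (cl ℓ (x - (c : K))) (cl ℓ (x - (d : K))) := by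
    intro c d
    by_cases hcd : c = d
    · subst hcd
      exact hself _
    have hdc : (d : K) - c ≠ 0 := by
      rw [sub_ne_zero]
      intro h
      exact hcd (Subtype.ext h.symm)
    have hcd' : (c : K) - d ≠ 0 := by
      rw [sub_ne_zero]
      intro h
      exact hcd (Subtype.ext h)
    have h1 : Orth (cl ℓ ((x - c) / ((d : K) - c))) (cl ℓ (1 - (x - c) / ((d : K) - c))) :=
      orth_one_sub _
    have h2 : 1 - (x - c) / ((d : K) - c) = (x - d) / ((c : K) - d) := by
      rw [eq_div_iff hcd', sub_mul, div_mul_eq_mul_div, sub_eq_iff_eq_add]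
      field_simp
      ring
    rw [h2, cl_div ℓ (hsub c) hdc, cl_div ℓ (hsub d) hcd',
      line_cl_const hk (Subfield.sub_mem _ d.2 c.2), line_cl_const hk (Subfield.sub_mem _ c.2 d.2),
      sub_zero, sub_zero] at h1
    exact h1
  have key1 : ∀ c : k, ∀ w ∈ Submodule.span (ZMod ℓ) (Set.range fun c : k => cl ℓ (x - (c : K))),
      Orth (cl ℓ (x - (c : K))) w := by
    intro c w hw
    refine Submodule.span_induction (p := fun w _ => Orth (cl ℓ (x - (c : K))) w) ?_ ?_ ?_ ?_ hw
    · rintro _ ⟨d, rfl⟩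
      exact hpair c d
    · exact orth_zero_right _
    · intro a b _ _ ha hb
      exact ha.add_right hb
    · intro r a _ ha
      exact ha.smul_right r
  have key2 : ∀ u ∈ Submodule.span (ZMod ℓ) (Set.range fun c : k => cl ℓ (x - (c : K))),
      ∀ w ∈ Submodule.span (ZMod ℓ) (Set.range fun c : k => cl ℓ (x - (c : K))), Orth u w := by
    intro u hu w hw
    refine Submodule.span_induction (p := fun u _ => Orth u w) ?_ ?_ ?_ ?_ hu
    · rintro _ ⟨c, rfl⟩
      exact key1 c w hw
    · exact orth_zero_left _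
    · intro a b _ _ ha hb
      exact ha.add_left hb
    · intro r a _ ha
      exact ha.smul_left r
  intro u hu w hw
  exact key2 u (line_VS_le hk hx hu) w (line_VS_le hk hx hw)

end line

end Vale.Agent.P019P

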