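import Vale.Agent.P019.PlCore
import Vale.Agent.P019P.Fld

/-!
# Places: basic facts
-/

namespace Vale.Agent.P019P

open Vale.Agent.P019

set_option linter.style.haveILetI false

open Polynomial

section places

variable {K Ω : Type*} [Field K] [Field Ω]

/-- S03 one variable places. -/
theorem exists_one [Algebra K Ω] [IsAlgClosed Ω] {l A : Subfield K} (hl : IsAlgClosed l)
    (hlA : l ≤ A) {y : K} (hy : ¬ IsAlgebraic A y) {c : K} (hc : c ∈ l) :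
    ∃ P : Pl K Ω, (∀ a ∈ A, a ∈ P.O ∧ P.ev a = algebraMap K Ω a) ∧ y ∈ P.O ∧
      P.ev y = algebraMap K Ω c ∧
      (∀ b ∈ P.O, IsAlgebraic (adj l y) b → ∃ d ∈ l, P.ev b = algebraMap K Ω d) := by
  obtain ⟨P, h1, h2, h3, h4⟩ := Vale.Agent.P019.exists_one (Ω := Ω) hl hlA hy hc
  exact ⟨P, h1, h2, h3, fun b hb h => h4 b hb (isAlgebraic_adj.1 h)⟩


/-- S05 -/
theorem rac_sup {l A B : Subfield K} (hl : IsAlgClosed l) (hlA : l ≤ A) (hlB : l ≤ B) {y : K}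
    (hyB : y ∈ B) (hyA : ¬ IsAlgebraic A y) (hB : ∀ b ∈ B, IsAlgebraic (adj l y) b) {h : K}
    (hh : h ∈ A ⊔ B) (hha : IsAlgebraic A h) : h ∈ A := by
  by_cases hh0 : h = 0
  · rw [hh0]; exact A.zero_mem
  obtain ⟨P, hPA, -, -, hPB⟩ := exists_one (Ω := AlgebraicClosure K) hl hlA hyA l.zero_mem
  have hAO : ∀ a ∈ A, a ∈ P.O := fun a ha => (hPA a ha).1
  have hBd : ∀ b ∈ B, b ∈ P.O → ∃ d ∈ l, P.ev b = P.ev d := by
    intro b hb hbO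
    obtain ⟨d, hd, he⟩ := hPB b hbO (hB b hb)
    exact ⟨d, hd, by rw [he, (hPA d (hlA hd)).2]⟩
  obtain ⟨b, hb, hb0, hU, a, ha, hev⟩ := P.gauss hlA hlB hAO hBd hh hh0
  have hUh : P.U h := P.U_of_isAlgebraic A hAO hha hh0
  have hUb : P.U b := by
    have h1 : b = (b * h) / h := by field_simp
    rw [h1]; exact hU.div hUh
  obtain ⟨d, hd, hbd⟩ := hBd b hb hUb.1
  have hUd : P.U d := ⟨hAO _ (hlA hd), by rw [← hbd]; exact hUb.2⟩
  have hdA : a / d ∈ A := A.div_mem ha (hlA hd)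
  have hevh : P.ev h = P.ev (a / d) := by
    have h1 : h = (b * h) / b := by field_simp
    rw [P.ev_div (hAO _ ha) hUd, ← hev, ← hbd, ← P.ev_div hU.1 hUb, ← h1]
  by_contra hcon
  have hne : h - a / d ≠ 0 := by
    intro h0
    rw [sub_eq_zero] at h0
    exact hcon (h0 ▸ hdA)
  have hsub : IsAlgebraic A (h - a / d) := hha.sub (isAlgebraic_of_mem hdA)
  have hU' := P.U_of_isAlgebraic A hAO hsub hne
  apply hU'.2
  rw [P.ev_sub hUh.1 (hAO _ hdA), hevh, sub_self]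

/-- S06 -/
theorem pow_descent {l A B : Subfield K} (hl : IsAlgClosed l) (hlA : l ≤ A) (hlB : l ≤ B) {y : K}
    (hyB : y ∈ B) (hyA : ¬ IsAlgebraic A y) (hB : ∀ b ∈ B, IsAlgebraic (adj l y) b) {ℓ : ℕ}
    (hℓ : 0 < ℓ) {a b g : K} (ha : a ∈ A) (hb : b ∈ B) (hg : g ∈ A ⊔ B) (h : a = b * g ^ ℓ) :
    ∃ w ∈ A, a = w ^ ℓ := by
  by_cases ha0 : a = 0
  · exact ⟨0, A.zero_mem, by rw [ha0, zero_pow hℓ.ne']⟩
  have hg0 : g ≠ 0 := by
    rintro rfl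
    rw [zero_pow hℓ.ne', mul_zero] at h
    exact ha0 h
  obtain ⟨P, hPA, -, -, hPB⟩ := exists_one (Ω := AlgebraicClosure K) hl hlA hyA l.zero_mem
  have hAO : ∀ a ∈ A, a ∈ P.O := fun a ha => (hPA a ha).1
  have hBd : ∀ b ∈ B, b ∈ P.O → ∃ d ∈ l, P.ev b = P.ev d := by
    intro b hb hbO
    obtain ⟨d, hd, he⟩ := hPB b hbO (hB b hb)
    exact ⟨d, hd, by rw [he, (hPA d (hlA hd)).2]⟩
  obtain ⟨b', hb', hb'0, hU, a', ha', hev⟩ := P.gauss hlA hlB hAO hBd hg hg0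
  have hUa : P.U a := P.U_of_isAlgebraic A hAO (isAlgebraic_of_mem ha) ha0
  have hb''B : b / b' ^ ℓ ∈ B := B.div_mem hb (pow_mem hb' ℓ)
  have he1 : b / b' ^ ℓ = a / (b' * g) ^ ℓ := by
    rw [h, mul_pow]
    field_simp
  have hUb'' : P.U (b / b' ^ ℓ) := by
    rw [he1]; exact hUa.div (hU.pow ℓ)
  obtain ⟨d, hd, hbd⟩ := hBd _ hb''B hUb''.1
  obtain ⟨d', hd'⟩ := IsAlgClosed.exists_pow_nat_eq (⟨d, hd⟩ : l) hℓ
  have hd'' : (d' : K) ^ ℓ = d := congrArg Subtype.val hd'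
  have hwA : (d' : K) * a' ∈ A := A.mul_mem (hlA d'.2) ha'
  refine ⟨(d' : K) * a', hwA, ?_⟩
  apply (algebraMap K (AlgebraicClosure K)).injective
  rw [← (hPA a ha).2, ← (hPA _ (pow_mem hwA ℓ)).2]
  have he2 : a = (b / b' ^ ℓ) * (b' * g) ^ ℓ := by
    rw [he1]
    have := (hU.pow ℓ).ne_zero
    field_simp
  rw [mul_pow, hd'', P.ev_mul (hAO _ (hlA hd)) (pow_mem (hAO _ ha') ℓ), P.ev_pow (hAO _ ha'),
    ← hbd, ← hev]
  conv_lhs => rw [he2]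
  rw [P.ev_mul hUb''.1 (pow_mem hU.1 ℓ), P.ev_pow hU.1]

end places

end Vale.Agent.P019P

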