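import Vale.Agent.P019.Prime
import Vale.Agent.P019.Val
import Vale.Agent.P019P.Fld

/-!
# Valuations of rank one of perfect fields: uniformizers up to roots
-/

namespace Vale.Agent.P019P

open Vale.Agent.P019

variable {K : Type*} [Field K]

/-- `π` is a uniformizer of `O` up to `q`-power roots, `q` the exponential characteristic. -/
structure IsUnif (O : ValuationSubring K) (π : K) : Prop where
  ne : π ≠ 0
  lt : O.valuation π < 1
  rep : ∀ z : K, z ≠ 0 → ∃ (m : ℕ) (n : ℤ), O.valuation (z ^ ringExpChar K ^ m * π ^ n) = 1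

theorem qpos (K : Type*) [Field K] : 0 < ringExpChar K := expChar_pos K _

theorem qpow_pos (K : Type*) [Field K] (n : ℕ) : 0 < ringExpChar K ^ n := pow_pos (qpos K) n

theorem IsUnif.zpow_eq_one {O : ValuationSubring K} {π : K} (h : IsUnif O π) {n : ℤ}
    (hn : O.valuation (π ^ n) = 1) : n = 0 := by
  rw [map_zpow₀] at hn
  have h0 : O.valuation π ≠ 0 := by rw [Valuation.ne_zero_iff]; exact h.ne
  rcases lt_trichotomy n 0 with h1 | h1 | h1
  · exfalso
    have : O.valuation π ^ (-n) = 1 := by rw [zpow_neg, hn, inv_one]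
    have h2 : O.valuation π ^ (-n) < 1 := by
      obtain ⟨m, hm⟩ := Int.eq_ofNat_of_zero_le (a := -n) (by omega)
      rw [hm, zpow_natCast]
      exact pow_lt_one₀ zero_le h.lt (by omega)
    exact h2.ne this
  · exact h1
  · exfalso
    have h2 : O.valuation π ^ n < 1 := by
      obtain ⟨m, hm⟩ := Int.eq_ofNat_of_zero_le (a := n) (by omega)
      rw [hm, zpow_natCast]
      exact pow_lt_one₀ zero_le h.lt (by omega)
    exact h2.ne hn

/-- two representations of the same element are proportional. -/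
theorem IsUnif.rep_unique {O : ValuationSubring K} {π : K} (h : IsUnif O π) {z : K}
    {m m' : ℕ} {n n' : ℤ} (h1 : O.valuation (z ^ ringExpChar K ^ m * π ^ n) = 1)
    (h2 : O.valuation (z ^ ringExpChar K ^ m' * π ^ n') = 1) :
    n * (ringExpChar K ^ m' : ℕ) = n' * (ringExpChar K ^ m : ℕ) := by
  have hz : z ≠ 0 := by
    rintro rfl
    rw [zero_pow (qpow_pos K m).ne', zero_mul, map_zero] at h1
    exact zero_ne_one h1
  have h3 : O.valuation ((z ^ ringExpChar K ^ m * π ^ n) ^ (ringExpChar K ^ m')) = 1 := by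
    rw [map_pow, h1, one_pow]
  have h4 : O.valuation ((z ^ ringExpChar K ^ m' * π ^ n') ^ (ringExpChar K ^ m)) = 1 := by
    rw [map_pow, h2, one_pow]
  have hπ := h.ne
  have h5 : O.valuation (π ^ (n * (ringExpChar K ^ m' : ℕ) - n' * (ringExpChar K ^ m : ℕ))) = 1 := by
    have e : π ^ (n * (ringExpChar K ^ m' : ℕ) - n' * (ringExpChar K ^ m : ℕ)) =
        (z ^ ringExpChar K ^ m * π ^ n) ^ (ringExpChar K ^ m') /
        (z ^ ringExpChar K ^ m' * π ^ n') ^ (ringExpChar K ^ m) := by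
      rw [mul_pow, mul_pow, ← pow_mul, ← pow_mul, mul_comm (ringExpChar K ^ m'),
        mul_div_mul_left _ _ (pow_ne_zero _ hz), zpow_sub₀ hπ, zpow_mul, zpow_mul, zpow_natCast,
        zpow_natCast]
    rw [e, map_div₀, h3, h4, div_one]
  have := h.zpow_eq_one h5
  omega

section fn

variable (ℓ : ℕ) [Fact ℓ.Prime] [NeZero (ℓ : K)]

/-- the order of `z` modulo `ℓ`. -/
noncomputable def IsUnif.val {O : ValuationSubring K} {π : K} (h : IsUnif O π) (z : K) :
    ZMod ℓ := by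
  classical exact if hz : z = 0 then 0 else
    -(((h.rep z hz).choose_spec.choose : ℤ) : ZMod ℓ) *
      ((ringExpChar K ^ (h.rep z hz).choose : ℕ) : ZMod ℓ)⁻¹

theorem IsUnif.val_eq {O : ValuationSubring K} {π : K} (h : IsUnif O π) {z : K} {m : ℕ} {n : ℤ}
    (hmn : O.valuation (z ^ ringExpChar K ^ m * π ^ n) = 1) :
    h.val ℓ z = -(n : ZMod ℓ) * ((ringExpChar K ^ m : ℕ) : ZMod ℓ)⁻¹ := by
  have hz : z ≠ 0 := by
    rintro rfl
    rw [zero_pow (qpow_pos K m).ne', zero_mul, map_zero] at hmn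
    exact zero_ne_one hmn
  have h1 := h.rep_unique (h.rep z hz).choose_spec.choose_spec hmn
  unfold IsUnif.val
  rw [dif_neg hz]
  have h2 := q_pow_ne_zero ℓ K m
  have h3 := q_pow_ne_zero ℓ K (h.rep z hz).choose
  have h4 := congrArg (Int.cast : ℤ → ZMod ℓ) h1
  rw [Int.cast_mul, Int.cast_mul, Int.cast_natCast, Int.cast_natCast] at h4
  field_simp
  rw [h4, mul_comm]

/-- the functional `V → ZMod ℓ` given by the order modulo `ℓ`. -/
noncomputable def IsUnif.fn {O : ValuationSubring K} {π : K} (h : IsUnif O π) :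
    V ℓ K →ₗ[ZMod ℓ] ZMod ℓ :=
  V.lift
    { toFun := fun x => Multiplicative.ofAdd (h.val ℓ (x : K))
      map_one' := by
        have : h.val ℓ (1 : K) = 0 := by
          rw [h.val_eq ℓ (m := 0) (n := 0) (by simp)]
          simp
        simp [this]
      map_mul' := by
        intro x y
        obtain ⟨m, n, h1⟩ := h.rep x x.ne_zero
        obtain ⟨m', n', h2⟩ := h.rep y y.ne_zero
        have h3 : O.valuation (((x : K) * y) ^ ringExpChar K ^ (m + m') *
            π ^ (n * (ringExpChar K ^ m' : ℕ) + n' * (ringExpChar K ^ m : ℕ))) = 1 := by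
          have e : ((x : K) * y) ^ ringExpChar K ^ (m + m') *
              π ^ (n * (ringExpChar K ^ m' : ℕ) + n' * (ringExpChar K ^ m : ℕ)) =
              ((x : K) ^ ringExpChar K ^ m * π ^ n) ^ ringExpChar K ^ m' *
              ((y : K) ^ ringExpChar K ^ m' * π ^ n') ^ ringExpChar K ^ m := by
            rw [zpow_add₀ h.ne, zpow_mul, zpow_mul, zpow_natCast, zpow_natCast, mul_pow, mul_pow,
              mul_pow, pow_add, pow_mul, ← pow_mul (y : K) (ringExpChar K ^ m'),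
              mul_comm (ringExpChar K ^ m'), pow_mul (y : K)]
            ring
          rw [e, map_mul, map_pow, map_pow, h1, h2, one_pow, one_pow, one_mul]
        have h4 := q_pow_ne_zero ℓ K m
        have h5 := q_pow_ne_zero ℓ K m'
        rw [Units.val_mul, h.val_eq ℓ h3, h.val_eq ℓ h1, h.val_eq ℓ h2, ← ofAdd_add]
        congr 1
        rw [pow_add]
        push_cast
        push_cast at h4 h5
        field_simp
        ring }

theorem IsUnif.fn_cl' {O : ValuationSubring K} {π : K} (h : IsUnif O π) {z : K}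
    (hz : z ≠ 0) : h.fn ℓ (cl ℓ z) = h.val ℓ z := by
  rw [cl_of_ne ℓ hz]
  rfl

theorem IsUnif.fn_eq {O : ValuationSubring K} {π : K} (h : IsUnif O π) {z : K} {m : ℕ} {n : ℤ}
    (hmn : O.valuation (z ^ ringExpChar K ^ m * π ^ n) = 1) :
    h.fn ℓ (cl ℓ z) = -(n : ZMod ℓ) * ((ringExpChar K ^ m : ℕ) : ZMod ℓ)⁻¹ := by
  have hz : z ≠ 0 := by
    rintro rfl
    rw [zero_pow (qpow_pos K m).ne', zero_mul, map_zero] at hmn
    exact zero_ne_one hmn
  rw [h.fn_cl' ℓ hz, h.val_eq ℓ hmn]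

theorem IsUnif.fn_unit {O : ValuationSubring K} {π : K} (h : IsUnif O π) (z : K)
    (hz : O.valuation z = 1) : h.fn ℓ (cl ℓ z) = 0 := by
  rw [h.fn_eq ℓ (m := 0) (n := 0) (by simpa using hz)]
  simp

theorem IsUnif.fn_self {O : ValuationSubring K} {π : K} (h : IsUnif O π) :
    h.fn ℓ (cl ℓ π) = 1 := by
  rw [h.fn_eq ℓ (m := 0) (n := -1) (by
    rw [pow_zero, pow_one, zpow_neg, zpow_one, mul_inv_cancel₀ h.ne, map_one])]
  simp

/-- the class of an element with trivial functional is the class of a unit. -/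
theorem IsUnif.exists_unit_of_fn {O : ValuationSubring K} {π : K} (h : IsUnif O π) (v : V ℓ K)
    (hv : h.fn ℓ v = 0) : ∃ u : K, O.valuation u = 1 ∧ v = cl ℓ u := by
  obtain ⟨z, hz, rfl⟩ := cl_surj ℓ v
  obtain ⟨m, n, hmn⟩ := h.rep z hz
  have h1 := h.fn_eq ℓ hmn
  rw [hv] at h1
  have h2 := q_pow_ne_zero ℓ K m
  have h3 : (n : ZMod ℓ) = 0 := by
    by_contra hn
    exact mul_ne_zero (neg_ne_zero.2 hn) (inv_ne_zero h2) h1.symm
  rw [ZMod.intCast_zmod_eq_zero_iff_dvd] at h3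
  obtain ⟨j, hj⟩ := h3
  have hu : cl ℓ (z ^ ringExpChar K ^ m * π ^ n) = ((ringExpChar K ^ m : ℕ) : ZMod ℓ) • cl ℓ z := by
    rw [cl_mul ℓ (pow_ne_zero _ hz) (zpow_ne_zero _ h.ne), cl_pow, hj, zpow_mul, zpow_natCast,
      ← zpow_natCast, zpow_natCast, Nat.cast_smul_eq_nsmul]
    rw [← zpow_natCast, ← zpow_mul, mul_comm, zpow_mul, zpow_natCast, cl_pow_self, add_zero]
  have hcop : ∃ a b : ℤ, a * (ringExpChar K ^ m : ℕ) + b * ℓ = 1 := by
    have h4 : IsCoprime ((ringExpChar K ^ m : ℕ) : ℤ) (ℓ : ℤ) := by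
      rw [Nat.isCoprime_iff_coprime, Nat.coprime_comm, Nat.Prime.coprime_iff_not_dvd Fact.out]
      intro h5
      exact h2 ((ZMod.natCast_eq_zero_iff _ _).2 h5)
    obtain ⟨a, b, hab⟩ := h4
    exact ⟨a, b, hab⟩
  obtain ⟨a, b, hab⟩ := hcop
  refine ⟨(z ^ ringExpChar K ^ m * π ^ n) ^ a, by rw [map_zpow₀, hmn, one_zpow], ?_⟩
  rw [cl_zpow, hu, ← Int.cast_smul_eq_zsmul (ZMod ℓ), smul_smul]
  have h5 := congrArg (Int.cast : ℤ → ZMod ℓ) hab
  push_cast at h5
  rw [ZMod.natCast_self, mul_zero, add_zero] at h5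
  push_cast
  rw [h5, one_smul]

/-- every functional trivial on units is a multiple of `fn`. -/
theorem IsUnif.eq_smul_fn {O : ValuationSubring K} {π : K} (h : IsUnif O π)
    (f : V ℓ K →ₗ[ZMod ℓ] ZMod ℓ) (hf : ∀ z, O.valuation z = 1 → f (cl ℓ z) = 0) (v : V ℓ K) :
    f v = f (cl ℓ π) * h.fn ℓ v := by
  have h1 : h.fn ℓ (v - h.fn ℓ v • cl ℓ π) = 0 := by
    rw [map_sub, map_smul, h.fn_self ℓ, smul_eq_mul, mul_one, sub_self]
  obtain ⟨u, hu, hv⟩ := h.exists_unit_of_fn ℓ _ h1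
  have h2 := hf u hu
  rw [← hv, map_sub, map_smul, smul_eq_mul, sub_eq_zero] at h2
  rw [h2, mul_comm]

end fn

end Vale.Agent.P019P
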