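import Vale.Agent.P019.FinK
import Vale.Agent.P019P.PlCore
import Vale.Agent.P019P.FK
import Vale.Agent.P019P.Line
import Vale.Agent.P019P.Prime

/-!
# Finiteness of intersections
-/

namespace Vale.Agent.P019P

open Vale.Agent.P019

set_option linter.style.haveILetI false

open Polynomial

section aux

variable {Ω : Type*} [Field Ω]

/-- a primitive root of unity in an algebraically closed subfield. -/
theorem finK_prim {l : Subfield Ω} (hl : IsAlgClosed l) (ℓ : ℕ) [Fact ℓ.Prime]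
    [hℓ : NeZero (ℓ : Ω)] :
    ∃ ζ ∈ l, IsPrimitiveRoot ζ ℓ := by
  haveI : NeZero ℓ := ⟨(Fact.out : ℓ.Prime).ne_zero⟩
  haveI : NeZero (ℓ : l) := ⟨by
    intro h
    apply hℓ.out
    have h2 := congrArg (Subtype.val : l → Ω) h
    simpa using h2⟩
  obtain ⟨ζ, hζ⟩ := HasEnoughRootsOfUnity.exists_primitiveRoot l ℓ
  exact ⟨ζ, ζ.2, hζ.map_of_injective (f := algebraMap l Ω) (algebraMap l Ω).injective⟩

theorem FG.perfect [PerfectField Ω] {E Λ : Subfield Ω} (h : FG E Λ) : PerfectField Λ := by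
  obtain ⟨S, hS⟩ := h
  rw [hS]
  infer_instance

theorem FG.le {E Λ : Subfield Ω} (h : FG E Λ) : E ≤ Λ := by
  obtain ⟨S, hS⟩ := h
  rw [hS]
  exact le_sup_left.trans (le_pf _)

theorem FG.mono {E F Λ : Subfield Ω} (h : FG E Λ) (hEF : E ≤ F) (hF : F ≤ Λ) : FG F Λ := by
  obtain ⟨S, hS⟩ := h
  refine ⟨S, le_antisymm ?_ ?_⟩
  · rw [hS]
    exact pf_mono (sup_le_sup_right hEF _)
  · rw [hS, ← pf_pf (E ⊔ Subfield.closure (S : Set Ω))]
    apply pf_mono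
    rw [← hS]
    refine sup_le hF ?_
    rw [hS]
    exact le_sup_right.trans (le_pf _)

theorem FG.trans {E F Λ : Subfield Ω} (h : FG E F) (h' : FG F Λ) : FG E Λ := by
  classical
  obtain ⟨S, hS⟩ := h
  obtain ⟨T, hT⟩ := h'
  refine ⟨S ∪ T, ?_⟩
  rw [hT, hS]
  apply le_antisymm
  · rw [← pf_pf (E ⊔ Subfield.closure ((S ∪ T : Finset Ω) : Set Ω))]
    apply pf_mono
    refine sup_le ?_ ?_
    · apply pf_mono
      refine sup_le_sup_left (Subfield.closure_mono ?_) _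
      rw [Finset.coe_union]
      exact Set.subset_union_left
    · refine le_trans ?_ (le_pf _)
      refine le_trans (Subfield.closure_mono ?_) le_sup_right
      rw [Finset.coe_union]
      exact Set.subset_union_right
  · apply pf_mono
    rw [Finset.coe_union, Subfield.closure_union, ← sup_assoc]
    exact sup_le_sup_right (le_pf _) _

theorem FG.self_adjoin {F : Subfield Ω} (T : Finset Ω) :
    FG F (pf (F ⊔ Subfield.closure (T : Set Ω))) := ⟨T, rfl⟩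

/-- `ℓ`-th roots in the perfect closure. -/
theorem pf_root (ℓ : ℕ) [Fact ℓ.Prime] [NeZero (ℓ : Ω)] {E : Subfield Ω} {z y : Ω} (hz : z ∈ E)
    (hz0 : z ≠ 0) (hy : y ∈ pf E) (h : y ^ ℓ = z) : ∃ y' ∈ E, y' ^ ℓ = z := by
  obtain ⟨n, hn⟩ := mem_pf.1 hy
  have h2 := q_pow_ne_zero ℓ Ω n
  have h4 : IsCoprime ((ringExpChar Ω ^ n : ℕ) : ℤ) (ℓ : ℤ) := by
    rw [Nat.isCoprime_iff_coprime, Nat.coprime_comm, Nat.Prime.coprime_iff_not_dvd Fact.out]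
    intro h5
    exact h2 ((ZMod.natCast_eq_zero_iff _ _).2 h5)
  obtain ⟨a, b, hab⟩ := h4
  refine ⟨(y ^ ringExpChar Ω ^ n) ^ a * z ^ b, E.mul_mem (zpow_mem hn a) (zpow_mem hz b), ?_⟩
  have e1 : ((y ^ ringExpChar Ω ^ n) ^ a) ^ ℓ = z ^ (a * (ringExpChar Ω ^ n : ℕ)) := by
    have e2 : (y ^ ringExpChar Ω ^ n) ^ ℓ = z ^ ringExpChar Ω ^ n := by
      rw [← h, ← pow_mul, ← pow_mul, mul_comm]
    rw [← zpow_natCast, ← zpow_mul, mul_comm a, zpow_mul, zpow_natCast, e2, mul_comm a,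
      zpow_mul, zpow_natCast]
  rw [mul_pow, e1, ← zpow_natCast (z ^ b), ← zpow_mul, ← zpow_add₀ hz0, hab, zpow_one]

end aux

section finite

variable {Ω : Type*} [Field Ω] [PerfectField Ω] (ℓ : ℕ) [Fact ℓ.Prime] [NeZero (ℓ : Ω)]

/-- S11 finite kernel, ambient version. -/
theorem fk {F Λ : Subfield Ω} (h : FG F Λ) {ζ : Ω} (hζF : ζ ∈ F) (hζ : IsPrimitiveRoot ζ ℓ) :
    ∃ N : ℕ, ∀ x : Fin (N + 1) → Ω, (∀ i, x i ∈ F ∧ x i ≠ 0 ∧ ∃ w ∈ Λ, w ^ ℓ = x i) →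
      ∃ i j, i ≠ j ∧ ∃ y ∈ F, y ≠ 0 ∧ x i = x j * y ^ ℓ := by
  classical
  have hℓ : ℓ ≠ 0 := (Fact.out : ℓ.Prime).ne_zero
  haveI : PerfectField Λ := h.perfect
  obtain ⟨S, hS⟩ := h.mono (le_pf F) (pf_le h.le)
  set F' := pf F with hF'
  haveI : Algebra.EssFiniteType F' (IntermediateField.adjoin F' (S : Set Ω)) :=
    IntermediateField.essFiniteType_iff.2 ⟨S, rfl⟩
  have hζ' : IsPrimitiveRoot (⟨ζ, le_pf F hζF⟩ : F') ℓ :=
    IsPrimitiveRoot.of_map_of_injective (f := algebraMap F' Ω) hζ (algebraMap F' Ω).injective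
  obtain ⟨N, hN⟩ := finite_kernel (F := F') (L := IntermediateField.adjoin F' (S : Set Ω)) ℓ
    ⟨ζ, le_pf F hζF⟩ hζ'
  refine ⟨N, fun x hx => ?_⟩
  choose hxF hx0 w hw hwx using hx
  have h1 : ∀ i, ∃ n : ℕ, w i ^ ringExpChar Ω ^ n ∈ F' ⊔ Subfield.closure (S : Set Ω) := by
    intro i
    have h2 := hw i
    rw [hS] at h2
    exact mem_pf.1 h2
  choose n hn using h1
  obtain ⟨m, hm⟩ : ∃ m, ∀ i, n i ≤ m := ⟨Finset.univ.sup n, fun i => Finset.le_sup (Finset.mem_univ i)⟩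
  set Q := ringExpChar Ω ^ m with hQ
  have hQ0 : Q ≠ 0 := (qpow_pos Ω m).ne'
  have hn' : ∀ i, w i ^ Q ∈ F' ⊔ Subfield.closure (S : Set Ω) := by
    intro i
    obtain ⟨j, hj⟩ := Nat.exists_eq_add_of_le (hm i)
    rw [hQ, hj, pow_add, pow_mul]
    exact pow_mem (hn i) _
  obtain ⟨i, j, hij, y, hy0, hy⟩ := hN (fun i => ⟨x i ^ Q, pow_mem (le_pf F (hxF i)) _⟩) (by
    intro i
    refine ⟨fun h => pow_ne_zero Q (hx0 i) (congrArg Subtype.val h), ?_⟩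
    have hw' : w i ^ Q ∈ IntermediateField.adjoin F' (S : Set Ω) := by
      have h3 : w i ^ Q ∈ (IntermediateField.adjoin F' (S : Set Ω)).toSubfield := by
        rw [finK_sup_eq]; exact hn' i
      exact h3
    refine ⟨⟨w i ^ Q, hw'⟩, Subtype.ext ?_⟩
    change (w i ^ Q) ^ ℓ = x i ^ Q
    rw [← hwx i, ← pow_mul, ← pow_mul, mul_comm])
  have hy' : x i ^ Q = x j ^ Q * (y : Ω) ^ ℓ := congrArg Subtype.val hy
  obtain ⟨y', hy', hyy⟩ := exists_root_q F' y.2 m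
  have h4 : x i = x j * y' ^ ℓ := by
    apply pow_q_injective m
    change x i ^ Q = (x j * y' ^ ℓ) ^ Q
    rw [mul_pow, ← pow_mul, mul_comm ℓ, pow_mul, hyy]
    assumption
  have h5 : y' ^ ℓ = x i / x j := by
    rw [h4, mul_div_cancel_left₀ _ (hx0 j)]
  obtain ⟨y'', hy'', hyy'⟩ := pf_root ℓ (Subfield.div_mem _ (hxF i) (hxF j))
    (div_ne_zero (hx0 i) (hx0 j)) hy' h5
  refine ⟨i, j, hij, y'', hy'', ?_, ?_⟩
  · rintro rfl
    rw [zero_pow hℓ] at hyy'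
    exact div_ne_zero (hx0 i) (hx0 j) hyy'.symm
  · rw [hyy', mul_div_cancel₀ _ (hx0 j)]

/-- S12 -/
theorem int_fin {l E₁ E₂ Λ : Subfield Ω} (hl : IsAlgClosed l) (hfg : FG l Λ) (h1 : l ≤ E₁)
    (h2 : l ≤ E₂) (h1' : E₁ ≤ Λ) (h2' : E₂ ≤ Λ) {y : Ω} (hy : y ∈ E₂) (hy1 : ¬ IsAlgebraic E₁ y)
    (halg : ∀ z ∈ E₂, IsAlgebraic (adj l y) z) :
    ∃ N : ℕ, ∀ x : Fin (N + 1) → Ω,
      (∀ i, x i ∈ E₁ ∧ x i ≠ 0 ∧ ∃ e ∈ E₂, ∃ w ∈ Λ, x i = e * w ^ ℓ) →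
      ∃ i j, i ≠ j ∧ ∃ w ∈ E₁, w ≠ 0 ∧ x i = x j * w ^ ℓ := by
  have hℓ : ℓ ≠ 0 := (Fact.out : ℓ.Prime).ne_zero
  obtain ⟨ζ, hζl, hζ⟩ := finK_prim hl ℓ
  have hlF : l ≤ E₁ ⊔ E₂ := h1.trans le_sup_left
  have hFG : FG (E₁ ⊔ E₂) Λ := hfg.mono hlF (sup_le h1' h2')
  obtain ⟨N, hN⟩ := fk ℓ hFG (hlF hζl) hζ
  refine ⟨N, fun x hx => ?_⟩
  choose hxE hx0 e he w hw hxe using hx
  have he0 : ∀ i, e i ≠ 0 := by
    intro i h
    apply hx0 i
    rw [hxe i, h, zero_mul]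
  obtain ⟨i, j, hij, y', hy', hy0, hyy⟩ := hN (fun i => x i / e i) (by
    intro i
    refine ⟨Subfield.div_mem _ ((le_sup_left : E₁ ≤ E₁ ⊔ E₂) (hxE i))
      ((le_sup_right : E₂ ≤ E₁ ⊔ E₂) (he i)), div_ne_zero (hx0 i) (he0 i), w i, hw i, ?_⟩
    rw [eq_div_iff (he0 i), hxe i, mul_comm])
  change x i / e i = x j / e j * y' ^ ℓ at hyy
  have hd : x i / x j = (e i / e j) * y' ^ ℓ := by
    have h3 := he0 i
    have h4 := he0 j
    have h5 := hx0 j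
    rw [div_eq_iff h3] at hyy
    rw [hyy]
    field_simp
  obtain ⟨v, hv, hvx⟩ := pow_descent hl h1 h2 hy hy1 halg (Nat.pos_of_ne_zero hℓ)
    (Subfield.div_mem _ (hxE i) (hxE j)) (Subfield.div_mem _ (he i) (he j)) hy' hd
  refine ⟨i, j, hij, v, hv, ?_, ?_⟩
  · rintro rfl
    rw [zero_pow hℓ] at hvx
    exact div_ne_zero (hx0 i) (hx0 j) hvx
  · rw [← hvx, mul_div_cancel₀ _ (hx0 j)]

/-- no two of the `x - c` are equivalent in `l(x)`. -/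
theorem finK_line0 {Ω : Type*} [Field Ω] (ℓ : ℕ) [Fact ℓ.Prime] {l : Subfield Ω}
    (hl : IsAlgClosed l) {x : Ω} (hxl : x ∉ l) {c c' : Ω}
    (hc : c ∈ l) (hc' : c' ∈ l) (hcc : c ≠ c') {y : Ω} (hy : y ∈ Vale.Agent.P019.adj l x)
    (h : x - c = (x - c') * y ^ ℓ) : False := by
  have hℓ : ℓ ≠ 0 := (Fact.out : ℓ.Prime).ne_zero
  have hℓ1 : ℓ ≠ 1 := (Fact.out : ℓ.Prime).one_lt.ne'
  have htr : ¬ IsAlgebraic l x := fun h' => hxl (RAC_of_isAlgClosed l hl x h')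
  have hinj : ∀ p : l[X], aeval x p = 0 → p = 0 := by
    intro p hp
    by_contra hp0
    exact htr ⟨p, hp0, hp⟩
  obtain ⟨p, q, hpq⟩ := finK_mem_adj.1 hy
  have hx0 : ∀ d ∈ l, x - d ≠ 0 := by
    intro d hd h0
    apply hxl
    rw [sub_eq_zero.1 h0]
    exact hd
  have hy0 : y ≠ 0 := by
    rintro rfl
    rw [zero_pow hℓ, mul_zero] at h
    exact hx0 c hc h
  have hq0 : aeval x q ≠ 0 := by
    intro h0
    rw [h0, div_zero] at hpq
    exact hy0 hpq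
  have hp0 : aeval x p ≠ 0 := by
    intro h0
    rw [h0, zero_div] at hpq
    exact hy0 hpq
  have hq : q ≠ 0 := fun h0 => hq0 (by rw [h0, map_zero])
  have hp : p ≠ 0 := fun h0 => hp0 (by rw [h0, map_zero])
  have hpoly : (X - C (⟨c, hc⟩ : l)) * q ^ ℓ = (X - C (⟨c', hc'⟩ : l)) * p ^ ℓ := by
    rw [← sub_eq_zero]
    apply hinj
    rw [map_sub, map_mul, map_mul, map_pow, map_pow, map_sub, map_sub, aeval_X, aeval_C, aeval_C]
    change (x - c) * _ - (x - c') * _ = 0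
    rw [h, hpq, div_pow, mul_assoc, div_mul_cancel₀ _ (pow_ne_zero _ hq0), sub_self]
  have hm := congrArg (rootMultiplicity (⟨c, hc⟩ : l)) hpoly
  rw [rootMultiplicity_mul (mul_ne_zero (X_sub_C_ne_zero _) (pow_ne_zero _ hq)),
    rootMultiplicity_mul (mul_ne_zero (X_sub_C_ne_zero _) (pow_ne_zero _ hp)),
    rootMultiplicity_X_sub_C_self] at hm
  have h3 : rootMultiplicity (⟨c, hc⟩ : l) (X - C (⟨c', hc'⟩ : l)) = 0 := by
    apply rootMultiplicity_eq_zero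
    rw [IsRoot.def, eval_sub, eval_X, eval_C, sub_eq_zero]
    intro h4
    exact hcc (congrArg Subtype.val h4)
  rw [h3, zero_add] at hm
  have h5 : ∀ r : l[X], r ≠ 0 → ∀ n : ℕ, rootMultiplicity (⟨c, hc⟩ : l) (r ^ n) =
      n * rootMultiplicity (⟨c, hc⟩ : l) r := by
    intro r hr n
    induction n with
    | zero => simp
    | succ n ih =>
      rw [pow_succ, rootMultiplicity_mul (mul_ne_zero (pow_ne_zero _ hr) hr), ih]
      ring
  rw [h5 q hq, h5 p hp] at hm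
  have h6 : ℓ ∣ 1 := by
    have h7 : ℓ ∣ 1 + ℓ * rootMultiplicity (⟨c, hc⟩ : l) q := by
      rw [hm]; exact dvd_mul_right _ _
    exact (Nat.dvd_add_left (dvd_mul_right _ _)).1 h7
  exact hℓ1 (Nat.dvd_one.1 h6)

/-- no two of the `x - c` are equivalent in `l(x)`. -/
theorem finK_line {l : Subfield Ω} (hl : IsAlgClosed l) {x : Ω} (hxl : x ∉ l) {c c' : Ω}
    (hc : c ∈ l) (hc' : c' ∈ l) (hcc : c ≠ c') {y : Ω} (hy : y ∈ adj l x)
    (h : x - c = (x - c') * y ^ ℓ) : False := by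
  have hx0 : ∀ d ∈ l, x - d ≠ 0 := by
    intro d hd h0
    apply hxl
    rw [sub_eq_zero.1 h0]
    exact hd
  have h1 : y ^ ℓ = (x - c) / (x - c') := by
    rw [h, mul_div_cancel_left₀ _ (hx0 c' hc')]
  have hmem : ∀ d ∈ l, x - d ∈ Vale.Agent.P019.adj l x := fun d hd =>
    Subfield.sub_mem _ (Vale.Agent.P019.mem_adj l x) (Vale.Agent.P019.le_adj l x hd)
  obtain ⟨y', hy', hyy⟩ := pf_root ℓ (Subfield.div_mem _ (hmem c hc) (hmem c' hc'))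
    (div_ne_zero (hx0 c hc) (hx0 c' hc')) hy h1
  refine finK_line0 ℓ hl hxl hc hc' hcc hy' ?_
  rw [hyy, mul_div_cancel₀ _ (hx0 c' hc')]

/-- S13 classes of `x - c` for distinct constants are distinct up to finitely many. -/
theorem dist_fin {l Λ : Subfield Ω} (hl : IsAlgClosed l) (hfg : FG l Λ) {x : Ω} (hx : x ∈ Λ)
    (hxl : x ∉ l) :
    ∃ N : ℕ, ∀ c : Fin (N + 1) → Ω, Function.Injective c → (∀ i, c i ∈ l) →
      ∃ i j, i ≠ j ∧ ¬ ∃ w ∈ Λ, x - c i = (x - c j) * w ^ ℓ := by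
  have hℓ : ℓ ≠ 0 := (Fact.out : ℓ.Prime).ne_zero
  have hlΛ : l ≤ Λ := hfg.le
  haveI : PerfectField Λ := hfg.perfect
  obtain ⟨ζ, hζl, hζ⟩ := finK_prim hl ℓ
  obtain ⟨N, hN⟩ := fk ℓ (hfg.mono (le_adj l x) (adj_le hlΛ hx)) ((le_adj l x) hζl) hζ
  refine ⟨N + 1, fun c hc hcl => ?_⟩
  by_contra hcon
  push Not at hcon
  have hx0 : ∀ d ∈ l, x - d ≠ 0 := by
    intro d hd h0
    apply hxl
    rw [sub_eq_zero.1 h0]
    exact hd
  have hmem : ∀ d ∈ l, x - d ∈ adj l x := fun d hd =>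
    Subfield.sub_mem _ (mem_adj l x) (le_adj l x hd)
  obtain ⟨i, j, hij, y, hy, -, hyy⟩ := hN (fun i => (x - c i.succ) / (x - c 0)) (by
    intro i
    refine ⟨Subfield.div_mem _ (hmem _ (hcl _)) (hmem _ (hcl _)),
      div_ne_zero (hx0 _ (hcl _)) (hx0 _ (hcl _)), ?_⟩
    obtain ⟨w, hw, hww⟩ := hcon i.succ 0 (Fin.succ_ne_zero i)
    refine ⟨w, hw, ?_⟩
    rw [hww, mul_div_cancel_left₀ _ (hx0 _ (hcl _))])
  change (x - c i.succ) / (x - c 0) = (x - c j.succ) / (x - c 0) * y ^ ℓ at hyy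
  refine finK_line ℓ hl hxl (hcl i.succ) (hcl j.succ) ?_ hy ?_
  · intro h
    exact hij (Fin.succ_injective _ (hc h))
  · have h0 := hx0 _ (hcl 0)
    rw [div_mul_eq_mul_div, div_left_inj' h0] at hyy
    exact hyy

/-- S14 -/
theorem int_line {l E Λ : Subfield Ω} (hl : IsAlgClosed l) (hfg : FG l Λ) (hE : l ≤ E)
    (hEΛ : E ≤ Λ) {y : Ω} (hy : y ∈ Λ) (hyE : ¬ IsAlgebraic E y) (C : Set Ω) (hC : C.Infinite)
    (hCl : ∀ c ∈ C, c ∈ l) : ∃ c ∈ C, ¬ ∃ e ∈ E, ∃ w ∈ Λ, y - c = e * w ^ ℓ := by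
  have hℓ : ℓ ≠ 0 := (Fact.out : ℓ.Prime).ne_zero
  by_contra hcon
  push Not at hcon
  have hyl : y ∉ l := fun h => hyE (isAlgebraic_of_mem (hE h))
  have hlΛ : l ≤ Λ := hE.trans hEΛ
  haveI : PerfectField Λ := hfg.perfect
  have hx0 : ∀ d ∈ l, y - d ≠ 0 := by
    intro d hd h0
    apply hyl
    rw [sub_eq_zero.1 h0]
    exact hd
  obtain ⟨N, hN⟩ := int_fin ℓ hl hfg hE (le_adj l y) hEΛ (adj_le hlΛ hy) (mem_adj l y) hyE
    (fun z hz => isAlgebraic_of_mem hz)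
  obtain ⟨N', hN'⟩ := dist_fin ℓ hl hfg hy hyl
  have h' : ∀ c : C, ∃ e ∈ E, ∃ w ∈ Λ, y - c = e * w ^ ℓ := fun c => hcon c.1 c.2
  choose e he w hw hew using h'
  have he0 : ∀ c, e c ≠ 0 := by
    intro c h
    apply hx0 _ (hCl _ c.2)
    rw [hew c, h, zero_mul]
  have hw0 : ∀ c, w c ≠ 0 := by
    intro c h
    apply hx0 _ (hCl _ c.2)
    rw [hew c, h, zero_pow hℓ, mul_zero]
  let s : Setoid C :=
    { r := fun c c' => ∃ v ∈ Λ, v ≠ 0 ∧ y - c = (y - c') * v ^ ℓ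
      iseqv :=
        { refl := fun c => ⟨1, Λ.one_mem, one_ne_zero, by rw [one_pow, mul_one]⟩
          symm := by
            rintro c c' ⟨v, hv, hv0, h⟩
            refine ⟨v⁻¹, Λ.inv_mem hv, inv_ne_zero hv0, ?_⟩
            rw [h, inv_pow, mul_assoc, mul_inv_cancel₀ (pow_ne_zero _ hv0), mul_one]
          trans := by
            rintro c c' c'' ⟨v, hv, hv0, h⟩ ⟨v', hv', hv0', h'⟩
            refine ⟨v' * v, Λ.mul_mem hv' hv, mul_ne_zero hv0' hv0, ?_⟩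
            rw [h, h', mul_pow, mul_assoc] } }
  haveI : Finite (Quotient s) := by
    refine finK_finite s N (fun x => ?_)
    obtain ⟨i, j, hij, v, hv, hv0, hvv⟩ := hN (fun i => e (x i)) (by
      intro i
      refine ⟨he _, he0 _, y - x i, ?_, (w (x i))⁻¹, Λ.inv_mem (hw _), ?_⟩
      · exact Subfield.sub_mem _ (mem_adj l y) (le_adj l y (hCl _ (x i).2))
      · rw [hew (x i), inv_pow, mul_assoc, mul_inv_cancel₀ (pow_ne_zero _ (hw0 _)), mul_one])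
    change e (x i) = e (x j) * v ^ ℓ at hvv
    refine ⟨i, j, hij, v * w (x i) / w (x j), Λ.div_mem (Λ.mul_mem (hEΛ hv) (hw _)) (hw _),
      div_ne_zero (mul_ne_zero hv0 (hw0 _)) (hw0 _), ?_⟩
    have h3 := hw0 (x j)
    rw [hew (x i), hew (x j), hvv, div_pow, mul_pow]
    field_simp
  haveI : Infinite C := hC.to_subtype
  obtain ⟨Q, hQ⟩ := Finite.exists_infinite_fiber (Quotient.mk s)
  let f := Infinite.natEmbedding (Quotient.mk s ⁻¹' {Q})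
  obtain ⟨i, j, hij, hne⟩ := hN' (fun i => ((f i.1).1 : Ω)) (by
    intro i j h
    have h1 : (f i.1).1 = (f j.1).1 := Subtype.ext h
    exact Fin.ext (f.injective (Subtype.ext h1))) (fun i => hCl _ (f i.1).1.2)
  apply hne
  have h1 : Quotient.mk s (f i.1).1 = Q := (f i.1).2
  have h2 : Quotient.mk s (f j.1).1 = Q := (f j.1).2
  obtain ⟨v, hv, -, h⟩ := Quotient.exact (h1.trans h2.symm)
  exact ⟨v, hv, h⟩

end finite

section finiteK

variable {K : Type*} [Field K] [PerfectField K] (ℓ : ℕ) [Fact ℓ.Prime] [NeZero (ℓ : K)]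

/-- S15 -/
theorem int_top {l E₁ E₂ : Subfield K} (hl : IsAlgClosed l) (hfg : FG l (⊤ : Subfield K))
    (h1 : l ≤ E₁) (h2 : l ≤ E₂) {y : K} (hy : y ∈ E₂) (hy1 : ¬ IsAlgebraic E₁ y)
    (halg : ∀ z ∈ E₂, IsAlgebraic (adj l y) z) :
    ((VS ℓ E₁ ⊓ VS ℓ E₂ : Submodule (ZMod ℓ) (V ℓ K)) : Set (V ℓ K)).Finite := by
  by_contra hinf
  have hinf' : ((VS ℓ E₁ ⊓ VS ℓ E₂ : Submodule (ZMod ℓ) (V ℓ K)) : Set (V ℓ K)).Infinite := hinf
  obtain ⟨N, hN⟩ := int_fin ℓ hl hfg h1 h2 le_top le_top hy hy1 halg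
  let f := hinf'.natEmbedding
  have hf : ∀ i, ((f i : V ℓ K) ∈ VS ℓ E₁) ∧ ((f i : V ℓ K) ∈ VS ℓ E₂) := fun i =>
    Submodule.mem_inf.1 (f i).2
  have h3 : ∀ i : ℕ, ∃ x ∈ E₁, x ≠ 0 ∧ (f i : V ℓ K) = cl ℓ x := fun i => mem_VS.1 (hf i).1
  have h4 : ∀ i : ℕ, ∃ x ∈ E₂, x ≠ 0 ∧ (f i : V ℓ K) = cl ℓ x := fun i => mem_VS.1 (hf i).2
  choose x hx hx0 hxf using h3
  choose e he he0 hef using h4
  obtain ⟨i, j, hij, w, hw, hw0, hww⟩ := hN (fun i => x i.1) (by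
    intro i
    have h5 : cl ℓ (x i.1) = cl ℓ (e i.1) := by rw [← hxf, ← hef]
    obtain ⟨w, hw, hww⟩ := (cl_eq_iff ℓ (hx0 _) (he0 _)).1 h5
    exact ⟨hx _, hx0 _, e i.1, he _, w, Subfield.mem_top _, hww⟩)
  apply hij
  have h6 : (f i.1 : V ℓ K) = f j.1 := by
    rw [hxf, hxf]
    exact (cl_eq_iff ℓ (hx0 _) (hx0 _)).2 ⟨w, hw0, hww⟩
  exact Fin.ext (f.injective (Subtype.ext h6))

/-- S16 -/
theorem dist_top {l : Subfield K} (hl : IsAlgClosed l) (hfg : FG l (⊤ : Subfield K)) {x : K}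
    (hxl : x ∉ l) (v : V ℓ K) : {c : K | c ∈ l ∧ cl ℓ (x - c) = v}.Finite := by
  by_contra hinf
  have hinf' : {c : K | c ∈ l ∧ cl ℓ (x - c) = v}.Infinite := hinf
  obtain ⟨N, hN⟩ := dist_fin ℓ hl hfg (Subfield.mem_top x) hxl
  let f := hinf'.natEmbedding
  obtain ⟨i, j, hij, hne⟩ := hN (fun i => (f i.1 : K)) (by
    intro i j h
    exact Fin.ext (f.injective (Subtype.ext h))) (fun i => (f i.1).2.1)
  apply hne
  have hx0 : ∀ d ∈ l, x - d ≠ 0 := by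
    intro d hd h0
    apply hxl
    rw [sub_eq_zero.1 h0]
    exact hd
  have h1 := (f i.1).2.2
  have h2 := (f j.1).2.2
  obtain ⟨w, -, hw⟩ := (cl_eq_iff ℓ (hx0 _ (f i.1).2.1) (hx0 _ (f j.1).2.1)).1 (h1.trans h2.symm)
  exact ⟨w, Subfield.mem_top _, hw⟩

end finiteK

end Vale.Agent.P019P
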