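import Vale.Agent.P019P.Unif
import Vale.Agent.P019P.FinK

/-!
# Adjoining an element and all its roots of order `q^n`
-/

namespace Vale.Agent.P019P

open Vale.Agent.P019

set_option linter.style.haveILetI false

variable {K : Type*} [Field K]

theorem pow_q_inj {x y : K} {n : ℕ} (h : x ^ (ringExpChar K) ^ n = y ^ (ringExpChar K) ^ n) :
    x = y := pow_q_injective n h

theorem add_pow_q (x y : K) (n : ℕ) :
    (x + y) ^ (ringExpChar K) ^ n = x ^ (ringExpChar K) ^ n + y ^ (ringExpChar K) ^ n :=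
  add_pow_expChar_pow x y (ringExpChar K) n

theorem sub_pow_q (x y : K) (n : ℕ) :
    (x - y) ^ (ringExpChar K) ^ n = x ^ (ringExpChar K) ^ n - y ^ (ringExpChar K) ^ n :=
  sub_pow_expChar_pow x y n

theorem adj_eq_pf (E : Subfield K) (t : K) : adj E t = pf (Vale.Agent.P019.adj E t) := rfl

theorem adj_pow [PerfectField K] (E : Subfield K) (t : K) (n : ℕ) :
    adj E (t ^ (ringExpChar K) ^ n) = adj E t := by
  apply le_antisymm
  · exact adj_le (le_adj E t) ((adj E t).pow_mem (mem_adj E t) _)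
  · exact adj_le (le_adj E _) (mem_of_pow_q (n := n) (mem_adj E _))

/-- the main device: `adj E t` is the union of the plain fields `E(t ^ (1/q^n))`. -/
theorem mem_adj_root [PerfectField K] {E : Subfield K} [PerfectField E] {t z : K} :
    z ∈ adj E t ↔ ∃ (n : ℕ) (y : K), y ^ (ringExpChar K) ^ n = t ∧
      z ∈ Vale.Agent.P019.adj E y := by
  constructor
  · intro hz
    obtain ⟨n, hn⟩ := mem_adj_iff.1 hz
    obtain ⟨y, hy⟩ := exists_root t n
    refine ⟨n, y, hy, ?_⟩
    -- Frobenius^n maps `E(y)` onto a field containing `E(t)`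
    have h1 : Vale.Agent.P019.adj E t ≤
        (Vale.Agent.P019.adj E y).map (iterateFrobenius K (ringExpChar K) n) := by
      refine Vale.Agent.P019.adj_le ?_ ?_
      · intro x hx
        obtain ⟨w, hw, h⟩ := exists_root_q E hx n
        exact ⟨w, Vale.Agent.P019.le_adj _ _ hw, by rw [iterateFrobenius_def, h]⟩
      · exact ⟨y, Vale.Agent.P019.mem_adj _ _, by rw [iterateFrobenius_def, hy]⟩
    obtain ⟨w, hw, h⟩ := h1 hn
    have h2 : w = z := by
      apply pow_q_inj (n := n)
      rw [← h, iterateFrobenius_def]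
    rwa [← h2]
  · rintro ⟨n, y, rfl, hz⟩
    rw [adj_pow]
    exact adj0_le_adj E y hz

/-- a common level for two roots. -/
theorem adj0_root_mono {E : Subfield K} {y w : K} {n : ℕ} (h : w ^ (ringExpChar K) ^ n = y) :
    Vale.Agent.P019.adj E y ≤ Vale.Agent.P019.adj E w :=
  Vale.Agent.P019.adj_le (Vale.Agent.P019.le_adj _ _)
    (by rw [← h]; exact Subfield.pow_mem _ (Vale.Agent.P019.mem_adj _ _) _)

/-- finitely many elements of `adj E t` lie in one plain field `E(y)`, `y ^ (q^n) = t`. -/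
theorem exists_common_root [PerfectField K] {E : Subfield K} [PerfectField E] {t : K}
    (s : Finset K) (hs : ∀ z ∈ s, z ∈ adj E t) :
    ∃ (n : ℕ) (y : K), y ^ (ringExpChar K) ^ n = t ∧
      ∀ z ∈ s, z ∈ Vale.Agent.P019.adj E y := by
  classical
  induction s using Finset.induction_on with
  | empty => exact ⟨0, t, by simp, fun z hz => absurd hz (Finset.notMem_empty _)⟩
  | insert a s _ ih =>
    obtain ⟨n, y, hy, h⟩ := ih (fun z hz => hs z (Finset.mem_insert_of_mem hz))
    obtain ⟨m, w, hw, h'⟩ := mem_adj_root.1 (hs a (Finset.mem_insert_self _ _))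
    obtain ⟨u, hu⟩ := exists_root y m
    have hu' : u ^ (ringExpChar K) ^ n = w := by
      apply pow_q_inj (n := m)
      rw [hw, ← hy, ← hu, ← pow_mul, ← pow_mul, mul_comm]
    refine ⟨m + n, u, ?_, ?_⟩
    · rw [pow_add, pow_mul, hu, hy]
    · intro z hz
      rcases Finset.mem_insert.1 hz with rfl | hz
      · exact adj0_root_mono hu' h'
      · exact adj0_root_mono hu (h z hz)

theorem adj_comm [PerfectField K] (E : Subfield K) (x y : K) :
    adj (adj E x) y = adj (adj E y) x := by
  apply le_antisymm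
  · refine adj_le (adj_le ((le_adj E y).trans (le_adj _ x)) (mem_adj _ _)) ?_
    exact le_adj _ _ (mem_adj _ _)
  · refine adj_le (adj_le ((le_adj E x).trans (le_adj _ y)) (mem_adj _ _)) ?_
    exact le_adj _ _ (mem_adj _ _)

theorem VS_adj {ℓ : ℕ} [Fact ℓ.Prime] [NeZero (ℓ : K)] (E : Subfield K) (t : K) :
    VS ℓ (adj E t) = VS ℓ (Vale.Agent.P019.adj E t) := VS_pf _

/-- an element is not in a perfect subfield if its power is not. -/
theorem pow_mem_iff {E : Subfield K} [PerfectField E] {z : K} {n : ℕ} :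
    z ^ (ringExpChar K) ^ n ∈ E ↔ z ∈ E :=
  ⟨mem_of_pow_q, fun h => E.pow_mem h _⟩

theorem isAlgebraic_pow_iff {E : Subfield K} {z : K} {n : ℕ} :
    IsAlgebraic E (z ^ (ringExpChar K) ^ n) ↔ IsAlgebraic E z :=
  ⟨fun h => h.of_pow (Nat.pos_of_ne_zero (qn_ne_zero K n)), fun h => h.pow _⟩

theorem good_pow [PerfectField K] {k : Subfield K} [PerfectField k] {t : K} {n : ℕ} :
    Good k (t ^ (ringExpChar K) ^ n) ↔ Good k t := by
  unfold Good
  rw [adj_pow, pow_mem_iff]

end Vale.Agent.P019P
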