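import Vale.Agent.P019.DefB
import Vale.Agent.P019P.Roots

/-!
# Definitions for the reconstruction of the field (perfect version)

The filter `ae k`, the predicate `Rk2` and the structure `Over` are those of the old files.
-/

namespace Vale.Agent.P019P

open Vale.Agent.P019

set_option linter.style.haveILetI false
set_option linter.unusedSectionVars false

open Polynomial Filter

section ae

variable {K : Type*} [Field K]

theorem ae_neBot {k : Subfield K} (hk : (k : Set K).Infinite) : (ae k).NeBot := by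
  rw [neBot_iff]
  intro h
  have h1 : ∀ᶠ a in ae k, False := by rw [h]; exact eventually_bot
  rw [ae_iff] at h1
  apply hk
  convert h1 using 1
  ext x
  simp

theorem infinite_of_isAlgClosed {k : Subfield K} (hk : IsAlgClosed k) :
    (k : Set K).Infinite := by
  have h1 : Infinite k := inferInstance
  exact Set.infinite_coe_iff.1 h1

theorem ae_neBot_of_isAlgClosed {k : Subfield K} (hk : IsAlgClosed k) : (ae k).NeBot :=
  ae_neBot (infinite_of_isAlgClosed hk)

end ae

section crv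

variable {K : Type*} [Field K]

/-- relatively algebraically closed subfields of transcendence degree one. -/
structure Crv (k E : Subfield K) : Prop where
  le : k ≤ E
  rac : RAC E
  ex : ∃ y ∈ E, y ∉ k ∧ ∀ z ∈ E, IsAlgebraic (adj k y) z

/-- `G` is a field of transcendence degree two below the whole field, with transcendence basis
`t, s` of the whole field over `G`. -/
structure Frame (k G : Subfield K) (t s : K) : Prop where
  le : k ≤ G
  fg : FG k G
  tt : ¬ IsAlgebraic (adj G s) t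
  ss : ¬ IsAlgebraic G s
  alg : ∀ z : K, IsAlgebraic (adj (adj G s) t) z

/-- a discrete valuation (up to `q`-powers), trivial on `F`, with residue field finite over `F`,
generated by `θ`. -/
structure Nice (W : ValuationSubring K) (F : Subfield K) (π θ : K) : Prop where
  pf : PerfectField F
  unif : IsUnif W π
  triv : TrivOn W F
  mem : θ ∈ W
  res : ∀ z : K, W.valuation z ≤ 1 → ∃ P Q : F[X], W.valuation (aeval θ Q) = 1 ∧
    W.valuation (z * aeval θ Q - aeval θ P) < 1
  alg : ∃ P : F[X], P.Monic ∧ W.valuation (aeval θ P) < 1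

end crv

section rk

variable {ℓ : ℕ} {K L : Type*} [Field K] [Field L]

/-- the valuation subring `O` corresponds to the discrete valuation subring `W`. -/
structure Tr [Fact ℓ.Prime] [NeZero (ℓ : K)] (Θ : V ℓ K ≃ₗ[ZMod ℓ] V ℓ L) (W : ValuationSubring K) (π : K)
    (O : ValuationSubring L) : Prop where
  unit : ∀ (hW : IsUnif W π) (z : L), O.valuation z = 1 → hW.fn ℓ (Θ.symm (cl ℓ z)) = 0
  iff : ∀ v, Θ v ∈ U1 ℓ O ↔ v ∈ U1 ℓ W

/-- the hypotheses provided by the local theory and the theory of good elements. -/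
structure Hyp (ℓ : ℕ) {K L : Type*} [Field K] [Field L] (k : Subfield K) (l : Subfield L)
    (Θ : V ℓ K ≃ₗ[ZMod ℓ] V ℓ L) : Prop where
  ack : IsAlgClosed k
  acl : IsAlgClosed l
  fgk : FG k (⊤ : Subfield K)
  fgl : FG l (⊤ : Subfield L)
  trk : ∃ x y : K, x ∉ k ∧ ¬ IsAlgebraic (adj k x) y
  trl : ∃ x y : L, x ∉ l ∧ ¬ IsAlgebraic (adj l x) y
  comp : Compatible Θ
  stepA : ∀ t, Good k t → ∃ E : Subfield L, Crv l E ∧
    ∀ v, Θ v ∈ VS ℓ E ↔ v ∈ VS ℓ (adj k t)
  stepA' : ∀ t, Good l t → ∃ E : Subfield K, Crv k E ∧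
    ∀ v, Θ.symm v ∈ VS ℓ E ↔ v ∈ VS ℓ (adj l t)
  ltr : ∀ (U : Submodule (ZMod ℓ) (V ℓ K)) (x : K), Good k x →
    ((U ⊓ VS ℓ (adj k x) : Submodule (ZMod ℓ) (V ℓ K)) : Set (V ℓ K)).Finite →
    ∀ O : ValuationSubring L, (∀ z, O.valuation z < 1 → Θ.symm (cl ℓ (1 + z)) ∈ U) → TrivOn O l
  ltr' : ∀ (U : Submodule (ZMod ℓ) (V ℓ L)) (x : L), Good l x →
    ((U ⊓ VS ℓ (adj l x) : Submodule (ZMod ℓ) (V ℓ L)) : Set (V ℓ L)).Finite →
    ∀ O : ValuationSubring K, (∀ z, O.valuation z < 1 → Θ (cl ℓ (1 + z)) ∈ U) → TrivOn O k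
  bert : ∀ x y : K, x ∉ k → ¬ IsAlgebraic (adj k x) y → ∀ᶠ c in ae k, Good k (x + c * y)
  bert' : ∀ x y : L, x ∉ l → ¬ IsAlgebraic (adj l x) y → ∀ᶠ c in ae l, Good l (x + c * y)

theorem Hyp.symm {k : Subfield K} {l : Subfield L} {Θ : V ℓ K ≃ₗ[ZMod ℓ] V ℓ L}
    [Fact ℓ.Prime] (h : Hyp ℓ k l Θ) : Hyp ℓ l k Θ.symm where
  ack := h.acl
  acl := h.ack
  fgk := h.fgl
  fgl := h.fgk
  trk := h.trl
  trl := h.trk
  comp := h.comp.symm
  stepA := h.stepA'
  stepA' := h.stepA
  ltr := h.ltr'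
  ltr' := h.ltr
  bert := h.bert'
  bert' := h.bert

end rk

section div

variable {ℓ : ℕ} {K L : Type*} [Field K] [Field L]

variable (ℓ) in
open Classical in
/-- the order functional at `s = b` on the classes of `k(s)`. -/
noncomputable def del (k : Subfield K) (s b : K) : V ℓ K →ₗ[ZMod ℓ] ZMod ℓ :=
  if h : ∃ f : V ℓ K →ₗ[ZMod ℓ] ZMod ℓ, f (cl ℓ (s - b)) = 1 ∧
      ∀ c ∈ k, c ≠ b → f (cl ℓ (s - c)) = 0 then h.choose else 0

/-- `Θ` maps the classes of `k(s)` onto those of `l(s')`. -/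
structure Rt (k : Subfield K) (l : Subfield L) (Θ : V ℓ K ≃ₗ[ZMod ℓ] V ℓ L) (s : K) (s' : L) :
    Prop where
  good : Good k s
  good' : Good l s'
  map : ∀ v, Θ v ∈ VS ℓ (adj l s') ↔ v ∈ VS ℓ (adj k s)

/-- the points `s = b` and `s' = β` correspond. -/
def Cor (k : Subfield K) (l : Subfield L) (Θ : V ℓ K ≃ₗ[ZMod ℓ] V ℓ L) (s : K) (s' : L)
    (e : ZMod ℓ) (b : K) (β : L) : Prop :=
  ∀ v ∈ VS ℓ (adj k s), del ℓ k s b v = e * del ℓ l s' β (Θ v)

end div

end Vale.Agent.P019P
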