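import Vale.Agent.P019.ConstB
import Vale.Agent.P019P.DefB

/-!
# One-endedness (any characteristic)

`const_of_ae_aux`, `exists_countable_infinite`, `const_of_shift` are those of the old file.
-/

namespace Vale.Agent.P019P

open Vale.Agent.P019

set_option linter.style.haveILetI false
set_option linter.unusedSectionVars false

open Filter

theorem const_of_ae_half {K T : Type*} [Field K] {k : Subfield K}
    (hk : ¬ (k : Set K).Countable) {f g h : K → T}
    (h1 : ∀ᶠ a in ae k, ∀ᶠ b in ae k, f (a + b) = g b)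
    (h2 : ∀ᶠ b in ae k, ∀ᶠ a in ae k, f (a + b) = h a) :
    ∃ e, (∀ᶠ b in ae k, g b = e) ∧ ∃ C : Set K, C.Countable ∧ ∀ a ∈ k, a ∉ C → h a = e := by
  set S : Set K := {b : K | b ∈ k ∧ ∀ᶠ a in ae k, f (a + b) = h a} with hS
  have hSf : {b : K | b ∈ k ∧ b ∉ S}.Finite := by
    rw [ae_iff] at h2
    refine h2.subset ?_
    rintro b ⟨hb, hbS⟩
    exact ⟨hb, fun h' => hbS ⟨hb, h'⟩⟩
  have hki : (k : Set K).Infinite := fun hf => hk hf.countable
  have hSi : S.Infinite := by
    intro hf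
    refine hki ((hf.union hSf).subset ?_)
    intro b hb
    by_cases hbS : b ∈ S
    · exact Or.inl hbS
    · exact Or.inr ⟨hb, hbS⟩
  obtain ⟨T₁, hT₁S, hT₁c, hT₁i⟩ := exists_countable_infinite hSi
  obtain ⟨e, he, C, hC, hCe⟩ := const_of_ae_aux hk h1 hT₁c hT₁i (fun b hb => hT₁S hb)
  refine ⟨e, ?_, C, hC, hCe⟩
  rw [ae_iff]
  by_contra hinf
  have hinf' : ({b : K | b ∈ S ∧ g b ≠ e}).Infinite := by
    intro hf
    refine hinf ((hf.union hSf).subset ?_)
    rintro b ⟨hb, hne⟩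
    by_cases hbS : b ∈ S
    · exact Or.inl ⟨hbS, hne⟩
    · exact Or.inr ⟨hb, hbS⟩
  obtain ⟨T₂, hT₂S, hT₂c, hT₂i⟩ := exists_countable_infinite hinf'
  obtain ⟨e', he', -⟩ := const_of_ae_aux hk h1 (hT₁c.union hT₂c) (hT₁i.mono Set.subset_union_left)
    (fun b hb => by
      rcases hb with hb | hb
      · exact hT₁S hb
      · exact (hT₂S hb).1)
  have hee : e' = e := by
    by_contra hne
    refine hT₁i ((he.union he').subset ?_)
    intro b hb
    by_cases hg : g b = e
    · right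
      exact ⟨Or.inl hb, fun h' => hne (h'.symm.trans hg)⟩
    · left
      exact ⟨hb, hg⟩
  rw [hee] at he'
  refine hT₂i (he'.subset ?_)
  intro b hb
  exact ⟨Or.inr hb, (hT₂S hb).2⟩

theorem const_of_ae {K T : Type*} [Field K] {k : Subfield K}
    (hk : ¬ (k : Set K).Countable) {f g h : K → T}
    (h1 : ∀ᶠ a in ae k, ∀ᶠ b in ae k, f (a + b) = g b)
    (h2 : ∀ᶠ b in ae k, ∀ᶠ a in ae k, f (a + b) = h a) :
    ∃ e, (∀ᶠ b in ae k, g b = e) ∧ (∀ᶠ a in ae k, h a = e) := by
  obtain ⟨e, he, C, hC, hCe⟩ := const_of_ae_half hk h1 h2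
  obtain ⟨e', he', -⟩ := const_of_ae_half (g := h) (h := g) hk
    (by simpa only [add_comm] using h2) (by simpa only [add_comm] using h1)
  refine ⟨e, he, ?_⟩
  have hee : e' = e := by
    by_contra hne
    rw [ae_iff] at he'
    refine hk ((hC.union he'.countable).mono ?_)
    intro a ha
    by_cases haC : a ∈ C
    · exact Or.inl haC
    · exact Or.inr ⟨ha, fun h' => hne (h'.symm.trans (hCe a ha haC))⟩
  rwa [hee] at he'

end Vale.Agent.P019P
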