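import Vale.Agent.P019.Bert
import Vale.Agent.P019P.FinK

/-!
# Bertini
-/

namespace Vale.Agent.P019P

open Vale.Agent.P019

set_option linter.style.haveILetI false

open Polynomial

theorem bert_rank {F L : Type*} [Field F] [Field L] [Algebra F L] [Algebra.EssFiniteType F L] :
    Module.Finite F (algebraicClosure F L) := by
  classical
  obtain ⟨S, hS⟩ := exists_isTranscendenceBasis F L
  haveI : Algebra.IsAlgebraic (IntermediateField.adjoin F (Set.range ((↑) : S → L))) L :=
    hS.isAlgebraic_field
  haveI : Algebra.EssFiniteType (IntermediateField.adjoin F (Set.range ((↑) : S → L))) L :=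
    Algebra.EssFiniteType.of_comp F _ L
  haveI : Module.Finite (IntermediateField.adjoin F (Set.range ((↑) : S → L))) L :=
    Algebra.finite_of_essFiniteType_of_isAlgebraic
  have hr : Module.rank F (algebraicClosure F L) ≤
      Module.finrank (IntermediateField.adjoin F (Set.range ((↑) : S → L))) L := by
    refine rank_le (fun s hs => ?_)
    let w : Fin s.card → L := fun i => ((s.equivFin.symm i : algebraicClosure F L) : L)
    have hw : LinearIndependent F w := by
      have h1 := hs.comp (s.equivFin.symm) s.equivFin.symm.injective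
      exact h1.map' (algebraicClosure F L).val.toLinearMap
        (LinearMap.ker_eq_bot.2 (algebraicClosure F L).val.injective)
    have h2 := linearIndependent_adjoin hS.1 (w := w) (fun i =>
      mem_algebraicClosure_iff.1 (s.equivFin.symm i : algebraicClosure F L).2) hw
    have h3 := h2.fintype_card_le_finrank
    rwa [Fintype.card_fin] at h3
  rw [← Module.rank_lt_aleph0_iff]
  exact lt_of_le_of_lt hr (Cardinal.natCast_lt_aleph0)

/-- `q`-powers of linearly independent elements over a perfect field. -/
theorem linearIndependent_pow {K : Type*} [Field K] {F : Subfield K} [PerfectField F]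
    {ι : Type*} [Fintype ι] {w : ι → K} (hw : LinearIndependent F w) (n : ℕ) :
    LinearIndependent F (fun i => w i ^ ringExpChar K ^ n) := by
  rw [Fintype.linearIndependent_iff] at hw ⊢
  intro g hg i
  have h1 : ∀ i, ∃ y : F, (y : K) ^ ringExpChar K ^ n = g i := by
    intro i
    obtain ⟨y, hy, hyy⟩ := exists_root_q F (g i).2 n
    exact ⟨⟨y, hy⟩, hyy⟩
  choose d hd using h1
  have h2 : (∑ i, d i • w i) ^ ringExpChar K ^ n = 0 := by
    have h3 : (∑ i, d i • w i) ^ ringExpChar K ^ n =
        ∑ i, (d i • w i) ^ ringExpChar K ^ n := by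
      have h4 := map_sum (iterateFrobenius K (ringExpChar K) n) (fun i => d i • w i) Finset.univ
      simp only [iterateFrobenius_def] at h4
      exact h4
    rw [h3, ← hg]
    refine Finset.sum_congr rfl (fun i _ => ?_)
    change ((d i : K) * w i) ^ _ = (g i : K) * _
    rw [mul_pow, hd]
  have h3 := hw d (eq_zero_of_pow_eq_zero h2) i
  have h4 : (g i : K) = 0 := by
    rw [← hd i, h3]
    exact zero_pow (qpow_pos K n).ne'
  exact Subtype.ext h4

/-- the relative algebraic closure of a perfect subfield is finite over it. -/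
theorem finite_algebraicClosure {K : Type*} [Field K] {F : Subfield K} [PerfectField F]
    (hfg : FG F (⊤ : Subfield K)) : Module.Finite F (algebraicClosure F K) := by
  classical
  obtain ⟨S, hS⟩ := hfg
  set L₀ := IntermediateField.adjoin F (S : Set K) with hL₀
  haveI : Algebra.EssFiniteType F L₀ := IntermediateField.essFiniteType_iff.2 ⟨S, rfl⟩
  haveI : Module.Finite F (algebraicClosure F L₀) := bert_rank
  have hr : Module.rank F (algebraicClosure F K) ≤
      Module.finrank F (algebraicClosure F L₀) := by
    refine rank_le (fun s hs => ?_)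
    have h1 : ∀ z : K, ∃ n : ℕ, z ^ ringExpChar K ^ n ∈ L₀ := by
      intro z
      have h2 : z ∈ pf (F ⊔ Subfield.closure (S : Set K)) := by rw [← hS]; trivial
      obtain ⟨n, hn⟩ := mem_pf.1 h2
      rw [← finK_sup_eq] at hn
      exact ⟨n, hn⟩
    choose n hn using h1
    obtain ⟨m, hm⟩ : ∃ m, ∀ i : s, n (i.1 : K) ≤ m :=
      ⟨Finset.univ.sup fun i : s => n (i.1 : K),
        fun i => Finset.le_sup (f := fun i : s => n (i.1 : K)) (Finset.mem_univ i)⟩
    have hn' : ∀ i : s, (i.1 : K) ^ ringExpChar K ^ m ∈ L₀ := by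
      intro i
      obtain ⟨j, hj⟩ := Nat.exists_eq_add_of_le (hm i)
      rw [hj, pow_add, pow_mul]
      exact pow_mem (hn i.1) _
    let w : s → K := fun i => (i.1 : K)
    have hw : LinearIndependent F w := by
      exact hs.map' (algebraicClosure F K).val.toLinearMap
        (LinearMap.ker_eq_bot.2 (algebraicClosure F K).val.injective)
    have hw2 := linearIndependent_pow hw m
    let w' : s → algebraicClosure F L₀ := fun i => ⟨⟨w i ^ ringExpChar K ^ m, hn' i⟩, by
      rw [mem_algebraicClosure_iff]
      have h3 : IsAlgebraic F (w i ^ ringExpChar K ^ m) :=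
        (mem_algebraicClosure_iff.1 i.1.2).pow _
      obtain ⟨p, hp0, hp⟩ := h3
      refine ⟨p, hp0, ?_⟩
      apply (algebraMap L₀ K).injective
      rw [map_zero, ← hp]
      exact (aeval_algebraMap_apply K (⟨w i ^ ringExpChar K ^ m, hn' i⟩ : L₀) p).symm⟩
    have hw3 : LinearIndependent F w' := by
      refine LinearIndependent.of_comp
        (L₀.val.toLinearMap ∘ₗ (algebraicClosure F L₀).val.toLinearMap) ?_
      exact hw2
    have h3 := hw3.fintype_card_le_finrank
    rwa [Fintype.card_coe] at h3
  rw [← Module.rank_lt_aleph0_iff]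
  exact lt_of_le_of_lt hr (Cardinal.natCast_lt_aleph0)

/-- the relative algebraic closure of a perfect subfield has only
finitely many intermediate fields. -/
theorem bert_finite {K : Type*} [Field K] {F : Subfield K} [PerfectField F]
    (hfg : FG F (⊤ : Subfield K)) : Finite (IntermediateField F (algebraicClosure F K)) := by
  haveI := finite_algebraicClosure hfg
  exact Field.finite_intermediateField_of_exists_primitive_element F _
    (Field.exists_primitive_element F _)

/-- S20 Bertini. -/
theorem bertini {K : Type*} [Field K] [PerfectField K] {k : Subfield K} (hk : IsAlgClosed k)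
    (hfg : FG k (⊤ : Subfield K)) {x y : K} (hx : x ∉ k) (hy : ¬ IsAlgebraic (adj k x) y) :
    {c : K | c ∈ k ∧ ¬ Good k (x + c * y)}.Finite := by
  classical
  set F : Subfield K := adj (adj k x) y with hF
  have hkF : k ≤ F := (le_adj k x).trans (le_adj _ y)
  have hxF : x ∈ F := le_adj _ y (mem_adj k x)
  have hyF : y ∈ F := mem_adj _ y
  haveI : PerfectField F := perfect_adj _ _
  haveI : Finite (IntermediateField F (algebraicClosure F K)) :=
    bert_finite (hfg.mono hkF le_top)
  let E : K → Subfield K := fun c => rac (adj k (x + c * y))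
  let L : K → IntermediateField F (algebraicClosure F K) := fun c =>
    Subfield.toIntermediateField ((E c ⊔ F).comap (algebraMap (algebraicClosure F K) K))
      (fun a => by
        rw [Subfield.mem_comap]
        exact (le_sup_right : F ≤ E c ⊔ F) a.2)
  have hnk : ∀ c ∈ k, x + c * y ∉ k := by
    intro c hc h
    by_cases hc0 : c = 0
    · rw [hc0, zero_mul, add_zero] at h; exact hx h
    · apply hy
      refine isAlgebraic_of_mem ?_
      have : y = (x + c * y - x) / c := by field_simp; ring
      rw [this]
      exact (adj k x).div_mem ((adj k x).sub_mem (le_adj k x h) (mem_adj k x)) (le_adj k x hc)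
  by_contra hinf
  obtain ⟨c, hc, c', hc', hne, hL⟩ :=
    Set.Infinite.exists_ne_map_eq_of_mapsTo (f := L) (t := Set.univ) hinf
      (fun _ _ => Set.mem_univ _) (Set.toFinite _)
  obtain ⟨hck, hcb⟩ := hc
  obtain ⟨hck', hcb'⟩ := hc'
  set u : K := x + c * y with hu
  set z : K := x + c' * y with hz
  have huE : u ∈ E c := le_rac _ (mem_adj k u)
  -- every element of `E c'` lies in `E c ⊔ F`
  have hsub : E c' ≤ E c ⊔ F := by
    intro h hh
    have hFz : adj k z ≤ F := adj_le hkF (F.add_mem hxF (F.mul_mem (hkF hck') hyF))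
    have halg : IsAlgebraic F h := isAlgebraic_mono hFz (mem_rac.1 hh)
    let h' : algebraicClosure F K := ⟨h, mem_algebraicClosure_iff.2 halg⟩
    have h1 : h' ∈ L c' := by
      change algebraMap (algebraicClosure F K) K h' ∈ E c' ⊔ F
      exact (le_sup_left : E c' ≤ E c' ⊔ F) hh
    rw [← hL] at h1
    exact h1
  have hcc : c - c' ≠ 0 := sub_ne_zero.2 hne
  have hyeq : y = (u - z) / (c - c') := by rw [hu, hz]; field_simp; ring
  have hFle : E c ⊔ F ≤ adj k z ⊔ E c := by
    refine sup_le le_sup_right ?_
    have hkl : k ≤ adj k z ⊔ E c := (le_adj k z).trans le_sup_left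
    have huz : u ∈ adj k z ⊔ E c := (le_sup_right : E c ≤ adj k z ⊔ E c) huE
    have hzz : z ∈ adj k z ⊔ E c := (le_sup_left : adj k z ≤ adj k z ⊔ E c) (mem_adj k z)
    have hyy : y ∈ adj k z ⊔ E c := by
      rw [hyeq]
      exact (adj k z ⊔ E c).div_mem ((adj k z ⊔ E c).sub_mem huz hzz)
        ((adj k z ⊔ E c).sub_mem (hkl hck) (hkl hck'))
    have hxx : x ∈ adj k z ⊔ E c := by
      have : x = u - c * y := by rw [hu]; ring
      rw [this]
      exact (adj k z ⊔ E c).sub_mem huz ((adj k z ⊔ E c).mul_mem (hkl hck) hyy)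
    exact adj_le (adj_le hkl hxx) hyy
  have hlA : k ≤ adj k z := le_adj k z
  have hlB : k ≤ E c := (le_adj k u).trans (le_rac _)
  -- `u` is not algebraic over `k(z)`
  have hunalg : ¬ IsAlgebraic (adj k z) u := by
    intro hua
    have hmem : ∀ w, w ∈ adj k z → w ∈ rac (adj k z) := fun w hw => le_rac _ hw
    have hyr : y ∈ rac (adj k z) := by
      rw [hyeq]
      exact (rac (adj k z)).div_mem ((rac (adj k z)).sub_mem (mem_rac.2 hua)
        (hmem _ (mem_adj k z))) ((rac (adj k z)).sub_mem (hmem _ (hlA hck)) (hmem _ (hlA hck')))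
    have hxr : x ∈ rac (adj k z) := by
      have : x = u - c * y := by rw [hu]; ring
      rw [this]
      exact (rac (adj k z)).sub_mem (mem_rac.2 hua)
        ((rac (adj k z)).mul_mem (hmem _ (hlA hck)) hyr)
    have hxk : ¬ IsAlgebraic k x := fun h => hx (RAC_of_isAlgClosed k hk x h)
    have h1 : IsAlgebraic (adj k x) z := exchange hxk (mem_rac.1 hxr)
    have h2 : adj k z ≤ rac (adj k x) :=
      adj_le ((le_adj k x).trans (le_rac _)) (mem_rac.2 h1)
    have h3 : IsAlgebraic (rac (adj k x)) y := isAlgebraic_mono h2 (mem_rac.1 hyr)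
    exact hy (isAlgebraic_rac h3)
  apply hcb'
  refine ⟨hnk c' hck', ?_⟩
  intro h hh
  have h1 : h ∈ E c' := mem_rac.2 hh
  have h2 : h ∈ adj k z ⊔ E c := hFle (hsub h1)
  exact rac_sup hk hlA hlB huE hunalg (fun b hb => mem_rac.1 hb) h2 hh

end Vale.Agent.P019P
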