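import Vale.Agent.P019.Resid
import Vale.Agent.P019P.DefB

/-!
# Residue fields (perfect version)

`rs`, `bar`, `barEquiv`, `rs_aeval`, ... are those of the old file.
-/

namespace Vale.Agent.P019P

open Vale.Agent.P019

set_option linter.style.haveILetI false
set_option linter.unusedSectionVars false
set_option linter.unusedVariables false

open Polynomial Filter

variable {K : Type*} [Field K] {W : ValuationSubring K} {E : Subfield K}

theorem rs_ringExpChar (h : TrivOn W E) :
    ringExpChar (IsLocalRing.ResidueField W) = ringExpChar K := by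
  haveI h1 : ExpChar E (ringExpChar K) := expChar_sub E
  haveI h2 : ExpChar E (ringExpChar (IsLocalRing.ResidueField W)) :=
    (barHom h).expChar (barHom h).injective _
  exact ExpChar.eq h2 h1

theorem rs_perfect [PerfectField K] (h : TrivOn W E) :
    PerfectField (IsLocalRing.ResidueField W) := by
  haveI : PerfectRing (IsLocalRing.ResidueField W)
      (ringExpChar (IsLocalRing.ResidueField W)) := PerfectRing.ofSurjective _ _ fun c => by
    obtain ⟨z, hz, rfl⟩ := rs_surj c
    obtain ⟨y, -, hy⟩ := exists_root_q (⊤ : Subfield K) (Subfield.mem_top z) 1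
    rw [pow_one] at hy
    have hyW : y ∈ W := by
      rw [← W.valuation_le_one_iff]
      have h1 : W.valuation y ^ ringExpChar K ≤ 1 := by
        rw [← map_pow, hy]
        exact (W.valuation_le_one_iff z).2 hz
      exact (pow_le_one_iff_of_nonneg zero_le (expChar_pos K _).ne').1 h1
    refine ⟨rs W y, ?_⟩
    change rs W y ^ ringExpChar (IsLocalRing.ResidueField W) = _
    rw [rs_ringExpChar h, ← rs_pow hyW, hy]
  exact PerfectRing.toPerfectField _ (ringExpChar (IsLocalRing.ResidueField W))

theorem rs_neZero {ℓ : ℕ} [NeZero (ℓ : K)] (h : TrivOn W E) :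
    NeZero (ℓ : IsLocalRing.ResidueField W) := by
  refine ⟨?_⟩
  intro h0
  have h1 : barHom h (ℓ : E) = 0 := by rw [map_natCast, h0]
  have h2 : (ℓ : E) = 0 := (map_eq_zero _).1 h1
  have h3 := congrArg (algebraMap E K) h2
  rw [map_natCast, map_zero] at h3
  exact NeZero.ne ((ℓ : ℕ) : K) h3

theorem bar_perfect [PerfectField E] (h : TrivOn W E) : PerfectField (bar h) := by
  refine perfect_of_root ?_
  intro z hz
  obtain ⟨e, he, rfl⟩ := (mem_bar h).1 hz
  obtain ⟨y, hy, hye⟩ := exists_root_q E he 1
  rw [pow_one] at hye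
  refine ⟨rs W y, rs_mem_bar h hy, ?_⟩
  rw [rs_ringExpChar h, ← rs_pow (h _ hy), hye]

theorem bar_adj [PerfectField K] (h : TrivOn W E) {x : K} (hx : TrivOn W (adj E x)) :
    bar hx = adj (bar h) (rs W x) := by
  have hx0 : TrivOn W (Vale.Agent.P019.adj E x) := hx.mono (adj0_le_adj E x)
  apply le_antisymm
  · intro c hc
    obtain ⟨e, he, rfl⟩ := (mem_bar hx).1 hc
    obtain ⟨n, hn⟩ := mem_adj_iff.1 he
    refine mem_adj_iff.2 ⟨n, ?_⟩
    rw [rs_ringExpChar h, ← rs_pow (hx _ he), ← Vale.Agent.P019.bar_adj h hx0]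
    exact rs_mem_bar hx0 hn
  · haveI : PerfectField (bar hx) := bar_perfect hx
    exact adj_le (bar_mono h hx (le_adj E x)) (rs_mem_bar hx (mem_adj E x))

theorem isAlgebraic_of_bar (h : TrivOn W E) {z : K} (hz : TrivOn W (adj E z))
    (halg : IsAlgebraic (bar h) (rs W z)) : IsAlgebraic E z :=
  Vale.Agent.P019.isAlgebraic_of_bar h (hz.mono (adj0_le_adj E z)) halg

/-- roots of order `q^n` and residues. -/
theorem rs_of_pow (h : TrivOn W E) {x y : K} (hx : x ∈ W) (hy : y ∈ W) {n : ℕ}
    (hn : rs W x ^ (ringExpChar K) ^ n = rs W y ^ (ringExpChar K) ^ n) : rs W x = rs W y := by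
  rw [← rs_ringExpChar h] at hn
  exact pow_q_injective n hn

end Vale.Agent.P019P
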