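import Vale.Agent.P019.FrameB
import Vale.Agent.P019P.Resid

/-!
# Frames and generic valuations (perfect version)

`mem_adjoin_simple`, `isAlgebraic_adjoin_simple` (for the plain `adj`), `frb_ae`, `exists_over`,
`Over.trivOn` are those of the old file.
-/

namespace Vale.Agent.P019P

open Vale.Agent.P019

set_option linter.style.haveILetI false
set_option linter.unusedSectionVars false

open Polynomial Filter

variable {K : Type*} [Field K]

theorem isAlgebraic_adjoin_simple' {F : Subfield K} {x z : K} :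
    IsAlgebraic (IntermediateField.adjoin F {x}) z ↔ IsAlgebraic (adj F x) z := by
  rw [isAlgebraic_adj]
  exact isAlgebraic_adjoin_simple

/-- a subfield algebraic over a perfect subfield is perfect. -/
theorem frp_perfect {F E : Subfield K} [PerfectField F] (h : F ≤ E)
    (halg : ∀ z ∈ E, IsAlgebraic F z) : PerfectField E := by
  letI : Algebra F E := (Subfield.inclusion h).toAlgebra
  haveI : Algebra.IsAlgebraic F E := ⟨fun z => by
    obtain ⟨P, hP0, hP⟩ := halg z z.2
    refine ⟨P, hP0, ?_⟩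
    apply Subtype.ext
    have e : ((aeval z P : E) : K) = aeval (z : K) P := by
      have h1 : algebraMap F K = (algebraMap E K).comp (algebraMap F E) := rfl
      rw [aeval_def, aeval_def, h1]
      exact hom_eval₂ P (algebraMap F E) (algebraMap E K) z
    rw [e, hP]
    rfl⟩
  exact Algebra.IsAlgebraic.perfectField (K := F) (L := E)

/-- primitive elements. -/
theorem exists_prim [PerfectField K] {k F : Subfield K} [PerfectField F] (hkF : k ≤ F)
    (hfg : FG k (⊤ : Subfield K)) (halg : ∀ z : K, IsAlgebraic F z) :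
    ∃ θ : K, ∀ z, z ∈ Vale.Agent.P019.adj F θ := by
  obtain ⟨S, hS⟩ := hfg
  set F' : Subfield K := F ⊔ Subfield.closure (S : Set K) with hF'
  haveI : PerfectField F' := frp_perfect (le_sup_left : F ≤ F') fun z _ => halg z
  have htop : (⊤ : Subfield K) = F' := by
    apply le_antisymm _ le_top
    rw [hS]
    exact pf_le (sup_le_sup_right hkF _)
  have hfg' : Vale.Agent.P019.FG F (⊤ : Subfield K) := ⟨S, htop⟩
  have : Algebra.EssFiniteType F K := bert_ess le_rfl hfg'
  have : Algebra.IsAlgebraic F K := ⟨halg⟩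
  have : Module.Finite F K := Algebra.finite_of_essFiniteType_of_isAlgebraic
  obtain ⟨θ, hθ⟩ := Field.exists_primitive_element F K
  refine ⟨θ, fun z => mem_adjoin_simple.1 ?_⟩
  rw [hθ]
  exact IntermediateField.mem_top

theorem exists_frame [PerfectField K] {k : Subfield K} (hfg : FG k (⊤ : Subfield K)) {t s : K}
    (hs : ¬ IsAlgebraic k s) (ht : ¬ IsAlgebraic (adj k s) t) : ∃ G, Frame k G t s := by
  classical
  obtain ⟨S, hS⟩ := hfg
  let GT : Finset K → Subfield K := fun T => pf (k ⊔ Subfield.closure (T : Set K))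
  let 𝒯 : Finset (Finset K) := S.powerset.filter
    (fun T => ¬ IsAlgebraic (GT T) s ∧ ¬ IsAlgebraic (adj (GT T) s) t)
  have hne : 𝒯.Nonempty := by
    refine ⟨∅, Finset.mem_filter.2 ⟨Finset.mem_powerset.2 (Finset.empty_subset _), ?_⟩⟩
    have : GT ∅ = pf k := by
      change pf (k ⊔ Subfield.closure ((∅ : Finset K) : Set K)) = pf k
      rw [Finset.coe_empty, Subfield.closure_empty, sup_bot_eq]
    rw [this]
    refine ⟨fun h => hs (isAlgebraic_pf.1 h), fun h => ht ?_⟩
    refine isAlgebraic_mono ?_ h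
    exact adj_le ((pf_mono (Vale.Agent.P019.le_adj k s))) (mem_adj k s)
  obtain ⟨T, hT, hmax⟩ := 𝒯.exists_max_image Finset.card hne
  rw [Finset.mem_filter, Finset.mem_powerset] at hT
  obtain ⟨hTS, hTs, hTt⟩ := hT
  refine ⟨GT T, (le_sup_left : k ≤ k ⊔ _).trans (le_pf _), ⟨T, rfl⟩, hTt, hTs, ?_⟩
  set H : Subfield K := adj (adj (GT T) s) t with hH
  have hkH : k ≤ H := ((le_sup_left : k ≤ k ⊔ Subfield.closure (T : Set K)).trans (le_pf _)).trans
    ((le_adj _ _).trans (le_adj _ _))
  have hgen : ∀ z ∈ S, IsAlgebraic H z := by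
    intro z hz
    by_contra hcon
    have hzT : z ∉ T := by
      intro h
      apply hcon
      have h1 : z ∈ GT T := le_pf _ ((le_sup_right : Subfield.closure (T : Set K) ≤ _)
        (Subfield.subset_closure h))
      exact isAlgebraic_of_mem (le_adj _ t (le_adj _ s h1))
    have hG' : GT (insert z T) = adj (GT T) z := by
      have e1 : k ⊔ Subfield.closure ((insert z T : Finset K) : Set K) =
        (k ⊔ Subfield.closure (T : Set K)) ⊔ Subfield.closure {z} := by
        rw [Finset.coe_insert, Set.insert_eq, Subfield.closure_union, sup_assoc]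
        congr 1
        exact sup_comm _ _
      change pf (k ⊔ Subfield.closure ((insert z T : Finset K) : Set K)) = _
      rw [e1]
      apply le_antisymm
      · exact pf_mono (sup_le_sup_right (le_pf _) _)
      · refine adj_le (pf_mono le_sup_left) ?_
        exact le_pf _ ((le_sup_right : Subfield.closure {z} ≤ _)
          (Subfield.subset_closure rfl))
    have h1 : insert z T ∈ 𝒯 := by
      refine Finset.mem_filter.2 ⟨Finset.mem_powerset.2 (Finset.insert_subset hz hTS), ?_, ?_⟩
      · rw [hG']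
        intro h
        exact hcon (isAlgebraic_mono (le_adj _ t) (exchange hTs h))
      · rw [hG', adj_comm]
        intro h
        exact hcon (exchange hTt h)
    have h2 := hmax _ h1
    rw [Finset.card_insert_of_notMem hzT] at h2
    omega
  intro z
  have h1 : (⊤ : Subfield K) ≤ rac H := by
    rw [hS]
    refine pf_le (sup_le (hkH.trans (le_rac H)) (Subfield.closure_le.2 ?_))
    intro w hw
    exact mem_rac.2 (hgen w hw)
  exact mem_rac.1 (h1 (Subfield.mem_top z))

theorem Frame.perfect [PerfectField K] {k G : Subfield K} {t s : K} (h : Frame k G t s) :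
    PerfectField G := h.fg.perfect

theorem Frame.swap [PerfectField K] {k G : Subfield K} {t s : K} (h : Frame k G t s) :
    Frame k G s t where
  le := h.le
  fg := h.fg
  tt := fun h' => h.tt (exchange h.ss h')
  ss := fun h' => h.tt (isAlgebraic_mono (le_adj _ _) h')
  alg := fun z => by
    rw [adj_comm]
    exact h.alg z

/-- a valuation over `t = b` is over `y = c` for roots `y`, `c` of `t`, `b`. -/
theorem Over.root {F : Subfield K} [PerfectField F] {W : ValuationSubring K} {t b y : K} {n : ℕ}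
    (hb : b ∈ F) (hy : y ^ (ringExpChar K) ^ n = t) (h : Over W F t b) :
    ∃ c ∈ F, c ^ (ringExpChar K) ^ n = b ∧ Over W F y c := by
  obtain ⟨c, hc, hcb⟩ := exists_root_q F hb n
  refine ⟨c, hc, hcb, h.triv, ?_⟩
  have h1 := h.lt
  rw [← hy, ← hcb, ← sub_pow_q, map_pow] at h1
  by_contra hcon
  exact absurd h1 (not_lt.2 (one_le_pow₀ (not_lt.1 hcon)))

/-- generic description of the valuations, for elements of a plain field `F(y, θ)`. -/
theorem frp_core {F : Subfield K} {X θ : K} {W : ValuationSubring K} (hX0 : X ≠ 0)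
    (hWF : TrivOn W F) (hWX : W.valuation X < 1) (F' : IntermediateField F K)
    (hF' : F' = IntermediateField.adjoin F {X}) (Φ : F'[X]) (hmon : Φ.Monic)
    (hint : IntCoeff W Φ) (hroot : aeval θ Φ = 0)
    (hder : W.valuation (aeval θ (derivative Φ)) = 1) :
    θ ∈ W ∧
    (∀ z ∈ IntermediateField.adjoin F' {θ}, z ≠ 0 → ∃ n : ℤ, W.valuation (z * X ^ n) = 1) ∧
    (∀ z ∈ IntermediateField.adjoin F' {θ}, W.valuation z ≤ 1 → ∃ P Q : F[X],
      W.valuation (aeval θ Q) = 1 ∧ W.valuation (z * aeval θ Q - aeval θ P) < 1) ∧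
    ∃ P : F[X], P.Monic ∧ W.valuation (aeval θ P) < 1 := by
  let π : F' := ⟨X, by rw [hF']; exact IntermediateField.mem_adjoin_simple_self F X⟩
  have hπ0 : π ≠ 0 := fun h => hX0 (congrArg Subtype.val h)
  have hFrep : ∀ z : F', z ≠ 0 → ∃ n : ℤ, W.valuation (algebraMap F' K (z * π ^ n)) = 1 := by
    intro z hz
    have hzF : (z : K) ∈ IntermediateField.adjoin F {X} := by rw [← hF']; exact z.2
    obtain ⟨n, c, hc, hc0, h⟩ := exists_residue hWF hWX hX0 hzF
      (fun h => hz (Subtype.ext h))
    refine ⟨n, ?_⟩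
    rw [map_mul, map_zpow₀]
    exact val_of_sub (hWF.eq_one hc hc0) h
  have hcore := fun z (hz : z ∈ IntermediateField.adjoin F' {θ}) (hz0 : z ≠ 0) =>
    unr_core W π hπ0 hWX hFrep θ Φ hmon hint hroot hder z hz hz0
  have hθW : θ ∈ W := mem_of_root hmon hint hroot
  have hred : ∀ P : F'[X], IntCoeff W P → ∃ r : ℕ → F, ∀ i,
      W.valuation ((P.coeff i : K) - (r i : K)) < 1 := by
    intro P hP
    have hPF : ∀ i : ℕ, ((P.coeff i : F') : K) ∈ IntermediateField.adjoin F {X} := by
      intro i; rw [← hF']; exact (P.coeff i).2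
    choose r hr using fun i : ℕ => exists_residue_of_le hWF hWX hX0 (hPF i)
      ((W.valuation_le_one_iff _).2 (hP i))
    exact ⟨r, hr⟩
  refine ⟨hθW, ?_, ?_, ?_⟩
  · intro z hz hz0
    obtain ⟨n, G, H, -, -, hH, hG, h⟩ := hcore z hz hz0
    refine ⟨n, ?_⟩
    have := congrArg W.valuation h
    rw [map_mul, hH, hG, mul_one] at this
    exact this
  · intro z hz hz1
    rcases hz1.lt_or_eq with hlt | heq
    · exact ⟨0, 1, by rw [map_one, map_one], by rw [map_one, map_zero, sub_zero, mul_one]; exact hlt⟩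
    have hz0 : z ≠ 0 := by rintro rfl; rw [map_zero] at heq; exact zero_ne_one heq
    obtain ⟨n, G, H, hGi, hHi, hH, hG, h⟩ := hcore z hz hz0
    have hn : n = 0 := by
      have h1 := congrArg W.valuation h
      rw [map_mul, map_mul, hH, hG, heq, mul_one, one_mul, map_zpow₀] at h1
      by_contra hn
      have hpos : 0 < W.valuation X := zero_lt_iff.2 ((Valuation.ne_zero_iff _).2 hX0)
      have h1' : W.valuation X ^ n = 1 := h1
      rcases lt_or_gt_of_ne hn with hn | hn
      · have := zpow_lt_zpow_right_of_lt_one₀ hpos hWX hn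
        rw [h1', zpow_zero] at this; exact lt_irrefl _ this
      · have := zpow_lt_zpow_right_of_lt_one₀ hpos hWX hn
        rw [h1', zpow_zero] at this; exact lt_irrefl _ this
    rw [hn, zpow_zero, mul_one] at h
    have hred' : ∀ P : F'[X], IntCoeff W P → ∃ P₀ : F[X],
        W.valuation (aeval θ P - aeval θ P₀) < 1 := by
      intro P hP
      obtain ⟨r, hr⟩ := hred P hP
      refine ⟨∑ i ∈ Finset.range (P.natDegree + 1), C (r i) * Polynomial.X ^ i, ?_⟩
      have e : aeval θ P - aeval θ (∑ i ∈ Finset.range (P.natDegree + 1),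
          C (r i) * Polynomial.X ^ i) =
          ∑ i ∈ Finset.range (P.natDegree + 1), ((P.coeff i : K) - (r i : K)) * θ ^ i := by
        rw [map_sum, aeval_eq_sum_range, ← Finset.sum_sub_distrib]
        refine Finset.sum_congr rfl fun i _ => ?_
        rw [map_mul, aeval_C, map_pow, aeval_X, Algebra.smul_def, sub_mul]
        rfl
      rw [e]
      refine Valuation.map_sum_lt _ one_ne_zero fun i _ => ?_
      rw [map_mul, map_pow]
      exact lt_of_le_of_lt (mul_le_of_le_one_right' (pow_le_one₀ zero_le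
        ((W.valuation_le_one_iff _).2 hθW))) (hr i)
    obtain ⟨G₀, hG₀⟩ := hred' G hGi
    obtain ⟨H₀, hH₀⟩ := hred' H hHi
    refine ⟨G₀, H₀, ?_, ?_⟩
    · refine val_of_sub hH ?_
      rw [← Valuation.map_neg, neg_sub]; exact hH₀
    · have e : z * aeval θ H₀ - aeval θ G₀ =
          -(z * (aeval θ H - aeval θ H₀)) + (aeval θ G - aeval θ G₀) := by
        rw [← h]; ring
      rw [e]
      refine Valuation.map_add_lt _ ?_ hG₀
      rw [Valuation.map_neg, map_mul, heq, one_mul]
      exact hH₀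
  · obtain ⟨r, hr⟩ := hred Φ hint
    refine ⟨Polynomial.X ^ Φ.natDegree +
      ∑ i ∈ Finset.range Φ.natDegree, C (r i) * Polynomial.X ^ i, ?_, ?_⟩
    · refine monic_X_pow_add ?_
      refine lt_of_le_of_lt (degree_sum_le _ _) ?_
      rw [Finset.sup_lt_iff (by exact WithBot.bot_lt_coe _)]
      intro i hi
      refine lt_of_le_of_lt (degree_C_mul_X_pow_le _ _) ?_
      exact_mod_cast Finset.mem_range.1 hi
    · have e : aeval θ (Polynomial.X ^ Φ.natDegree +
          ∑ i ∈ Finset.range Φ.natDegree, C (r i) * Polynomial.X ^ i : F[X]) =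
          ∑ i ∈ Finset.range Φ.natDegree, ((r i : K) - (Φ.coeff i : K)) * θ ^ i := by
        have h4 : aeval θ Φ = θ ^ Φ.natDegree +
            ∑ i ∈ Finset.range Φ.natDegree, (Φ.coeff i : K) * θ ^ i := by
          rw [aeval_eq_sum_range, Finset.sum_range_succ, hmon.coeff_natDegree, one_smul, add_comm]
          rfl
        rw [hroot] at h4
        have h5 : θ ^ Φ.natDegree =
            -∑ i ∈ Finset.range Φ.natDegree, (Φ.coeff i : K) * θ ^ i :=
          eq_neg_of_add_eq_zero_left h4.symm
        rw [map_add, map_pow, aeval_X, map_sum, h5, neg_add_eq_sub, ← Finset.sum_sub_distrib]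
        refine Finset.sum_congr rfl fun i _ => ?_
        rw [map_mul, aeval_C, map_pow, aeval_X, sub_mul]
        rfl
      rw [e]
      refine Valuation.map_sum_lt _ one_ne_zero fun i _ => ?_
      rw [map_mul, map_pow]
      refine lt_of_le_of_lt (mul_le_of_le_one_right' (pow_le_one₀ zero_le
        ((W.valuation_le_one_iff _).2 hθW))) ?_
      rw [← Valuation.map_neg, neg_sub]
      exact hr i

theorem frp_int_ae {G : Subfield K} {σ : K} (F' : IntermediateField G K)
    (hF' : F' = IntermediateField.adjoin G {σ}) (p : F'[X]) :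
    ∀ᶠ b : G in cofinite, ∀ W : ValuationSubring K, Over W G σ b → IntCoeff W p := by
  subst hF'
  have h1 : ∀ᶠ b : G in cofinite, ∀ i ∈ p.support, ∀ W : ValuationSubring K, Over W G σ b →
      W.valuation (p.coeff i : K) = 1 := by
    rw [Filter.eventually_all_finset]
    intro i hi
    refine unit_ae_of_mem (p.coeff i).2 ?_
    intro h; exact (mem_support_iff.1 hi) (Subtype.ext h)
  filter_upwards [h1] with b hb W hW i
  by_cases hi : i ∈ p.support
  · change (p.coeff i : K) ∈ W
    rw [← W.valuation_le_one_iff]; exact (hb i hi W hW).le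
  · rw [notMem_support_iff.1 hi, map_zero]; exact zero_mem _

theorem frp_alg_aeval {F L : Type*} [Field F] [Field L] [Algebra F L] {θ : L}
    (hθ : IsAlgebraic F θ) (P : F[X]) : IsAlgebraic F (aeval θ P) := by
  induction P using Polynomial.induction_on' with
  | add p q hp hq =>
    rw [map_add]
    exact hp.add hq
  | monomial n a =>
    rw [aeval_monomial]
    exact (isAlgebraic_algebraMap a).mul (hθ.pow n)

/-- the generic valuations over `y = c`. -/
theorem frp_core_ae {F : Subfield K} {y θ : K} (hy : ¬ IsAlgebraic F y)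
    (F' : IntermediateField F K) (hF' : F' = IntermediateField.adjoin F {y})
    (Φ : F'[X]) (hmon : Φ.Monic) (hroot : aeval θ Φ = 0)
    (hsep : Φ.Separable) :
    ∀ᶠ c in ae F, ∀ W : ValuationSubring K, Over W F y c →
      θ ∈ W ∧
      (∀ z ∈ Vale.Agent.P019.adj (Vale.Agent.P019.adj F y) θ, z ≠ 0 →
        ∃ n : ℤ, W.valuation (z * (y - c) ^ n) = 1) ∧
      (∀ z ∈ Vale.Agent.P019.adj (Vale.Agent.P019.adj F y) θ, W.valuation z ≤ 1 →
        ∃ P Q : F[X], W.valuation (aeval θ Q) = 1 ∧
          W.valuation (z * aeval θ Q - aeval θ P) < 1) ∧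
      ∃ P : F[X], P.Monic ∧ W.valuation (aeval θ P) < 1 := by
  have hθ : IsAlgebraic F' θ := ⟨Φ, hmon.ne_zero, hroot⟩
  have hder0 : aeval θ (derivative Φ) ≠ 0 := hsep.aeval_derivative_ne_zero hroot
  have halg : IsAlgebraic F' (aeval θ (derivative Φ)) := frp_alg_aeval hθ _
  have halg' : IsAlgebraic (IntermediateField.adjoin F {y}) (aeval θ (derivative Φ)) := by
    rw [← hF']
    exact halg
  refine frb_ae ?_
  filter_upwards [frp_int_ae F' hF' Φ, unit_ae halg' hder0] with b hb1 hb2 W hW
  have hX0 : y - (b : K) ≠ 0 := by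
    intro h
    rw [sub_eq_zero] at h
    apply hy
    rw [h]
    exact isAlgebraic_algebraMap b
  have h1 := frp_core (θ := θ) hX0 hW.triv hW.lt F' (by rw [hF', adjoin_sub]) Φ hmon
    (hb1 W hW) hroot (hb2 W hW)
  have hmem : ∀ z, z ∈ Vale.Agent.P019.adj (Vale.Agent.P019.adj F y) θ ↔
      z ∈ IntermediateField.adjoin F' {θ} := by
    intro z
    rw [adj_eq F y, hF']
    exact mem_adjoin_simple.symm
  refine ⟨h1.1, fun z hz => h1.2.1 z ((hmem z).1 hz), fun z hz => h1.2.2.1 z ((hmem z).1 hz),
    h1.2.2.2⟩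

theorem frp_aeval_mem {L : Type*} [Field L] {E : Subfield L} (a : L) (r : E[X]) :
    aeval a r ∈ Vale.Agent.P019.adj E a := by
  rw [aeval_eq_sum_range]
  refine Subfield.sum_mem _ (fun i _ => ?_)
  rw [Algebra.smul_def]
  exact Subfield.mul_mem _ (Vale.Agent.P019.le_adj E a (SetLike.coe_mem _))
    (pow_mem (Vale.Agent.P019.mem_adj E a) i)

/-- residues. -/
theorem frp_res [PerfectField K] {F : Subfield K} [PerfectField F] {θ : K}
    {W : ValuationSubring K} (hF : TrivOn W F) (hθ : θ ∈ W)
    (halg : ∃ P : F[X], P.Monic ∧ W.valuation (aeval θ P) < 1) {z : K}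
    (hz : W.valuation z ≤ 1) {n : ℕ}
    (h : ∃ P Q : F[X], W.valuation (aeval θ Q) = 1 ∧
      W.valuation (z ^ (ringExpChar K) ^ n * aeval θ Q - aeval θ P) < 1) :
    ∃ P Q : F[X], W.valuation (aeval θ Q) = 1 ∧
      W.valuation (z * aeval θ Q - aeval θ P) < 1 := by
  have hzW : z ∈ W := (W.valuation_le_one_iff z).1 hz
  have hmemW : ∀ Q : F[X], aeval θ Q ∈ W := fun Q => aeval_mem hθ (fun i => hF _ (Q.coeff i).2)
  haveI : PerfectField (bar hF) := bar_perfect hF
  have hθalg : IsAlgebraic (bar hF) (rs W θ) := by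
    obtain ⟨P, hPm, hP⟩ := halg
    refine ⟨P.map (barEquiv hF).toRingHom, (hPm.map _).ne_zero, ?_⟩
    rw [← rs_aeval hF hθ]
    exact (rs_eq_zero (hmemW P)).2 hP
  -- the residue field generated by `θ` is perfect
  set R : Subfield (IsLocalRing.ResidueField W) := Vale.Agent.P019.adj (bar hF) (rs W θ) with hR
  have hRrac : R ≤ rac (bar hF) :=
    Vale.Agent.P019.adj_le (le_rac _) (mem_rac.2 hθalg)
  haveI : PerfectField R := frp_perfect (Vale.Agent.P019.le_adj _ _)
    fun z hz => mem_rac.1 (hRrac hz)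
  have haevR : ∀ Q : F[X], rs W (aeval θ Q) ∈ R := by
    intro Q
    rw [rs_aeval hF hθ]
    exact frp_aeval_mem _ _
  obtain ⟨P, Q, hQ, hPQ⟩ := h
  have hzR : rs W z ∈ R := by
    apply mem_of_pow_q (n := n)
    rw [rs_ringExpChar hF, ← rs_pow hzW]
    have hQ0 : rs W (aeval θ Q) ≠ 0 := (rs_ne_zero (hmemW Q)).2 hQ
    have h1 : rs W (z ^ (ringExpChar K) ^ n) * rs W (aeval θ Q) = rs W (aeval θ P) := by
      rw [← rs_mul (pow_mem hzW _) (hmemW Q), rs_eq (mul_mem (pow_mem hzW _) (hmemW Q)) (hmemW P)]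
      exact hPQ
    rw [eq_div_of_mul_eq hQ0 h1]
    exact R.div_mem (haevR P) (haevR Q)
  obtain ⟨A, B, hAB⟩ := (IntermediateField.mem_adjoin_simple_iff _ _).1
    (mem_adjoin_simple.2 hzR)
  -- lift the polynomials
  have hlift : ∀ A : (bar hF)[X], ∃ A' : F[X], rs W (aeval θ A') = aeval (rs W θ) A := by
    intro A
    refine ⟨A.map (barEquiv hF).symm.toRingHom, ?_⟩
    rw [rs_aeval hF hθ, Polynomial.map_map]
    have : (barEquiv hF).toRingHom.comp (barEquiv hF).symm.toRingHom = RingHom.id _ := by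
      ext x; simp
    rw [this, Polynomial.map_id]
  obtain ⟨A', hA'⟩ := hlift A
  obtain ⟨B', hB'⟩ := hlift B
  by_cases hB0 : aeval (rs W θ) B = 0
  · rw [hB0, div_zero] at hAB
    refine ⟨0, 1, by rw [map_one, map_one], ?_⟩
    rw [map_one, map_zero, sub_zero, mul_one]
    exact (rs_eq_zero hzW).1 hAB
  · refine ⟨A', B', ?_, ?_⟩
    · rw [← rs_ne_zero (hmemW B'), hB']
      exact hB0
    · rw [← rs_eq (mul_mem hzW (hmemW B')) (hmemW A'), rs_mul hzW (hmemW B'), hB', hA', hAB,
        div_mul_cancel₀ _ hB0]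

/-- for almost all `a`, every valuation subring over `t = a` is nice. -/
theorem Frame.nice [PerfectField K] {k G : Subfield K} {t s : K} (h : Frame k G t s)
    (hfg : FG k (⊤ : Subfield K)) :
    ∃ θ : K, ∀ᶠ a in ae (adj G s), ∀ W : ValuationSubring K, Over W (adj G s) t a →
      Nice W (adj G s) (t - a) θ := by
  classical
  set F : Subfield K := adj G s with hF
  haveI : PerfectField F := perfect_adj _ _
  haveI : PerfectField (adj F t) := perfect_adj _ _
  obtain ⟨θ, hθ⟩ := exists_prim (h.le.trans ((le_adj _ s).trans (le_adj _ t))) hfg h.alg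
  refine ⟨θ, ?_⟩
  have hθalg : IsAlgebraic (adj F t) θ := h.alg θ
  set Ψ := minpoly (adj F t) θ with hΨ
  have hΨm : Ψ.Monic := minpoly.monic hθalg.isIntegral
  have hΨs : Ψ.Separable := PerfectField.separable_of_irreducible
    (minpoly.irreducible hθalg.isIntegral)
  obtain ⟨m, y, hy, hcoef⟩ := exists_common_root (E := F) (t := t)
    (Ψ.support.image (fun i => ((Ψ.coeff i : adj F t) : K))) (by
      intro z hz
      obtain ⟨i, -, rfl⟩ := Finset.mem_image.1 hz
      exact (Ψ.coeff i).2)
  have hcoef' : ∀ i, ((Ψ.coeff i : adj F t) : K) ∈ Vale.Agent.P019.adj F y := by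
    intro i
    by_cases hi : i ∈ Ψ.support
    · exact hcoef _ (Finset.mem_image_of_mem _ hi)
    · rw [notMem_support_iff.1 hi]
      exact Subfield.zero_mem _
  have hyF : ¬ IsAlgebraic F y := by
    intro h'
    apply h.tt
    rw [← hy]
    exact h'.pow _
  -- descend the minimal polynomial
  set F' := IntermediateField.adjoin F {y} with hF'
  have hle : Vale.Agent.P019.adj F y ≤ adj F t := by
    rw [← hy, adj_pow]
    exact adj0_le_adj F y
  have hF'le : ∀ z : F', (z : K) ∈ adj F t := fun z => hle (mem_adjoin_simple.1 z.2)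
  let j : F' →+* adj F t :=
    { toFun := fun z => ⟨z, hF'le z⟩
      map_one' := rfl
      map_mul' := fun _ _ => rfl
      map_zero' := rfl
      map_add' := fun _ _ => rfl }
  have hl : Ψ ∈ Polynomial.lifts j := by
    rw [Polynomial.lifts_iff_coeff_lifts]
    intro n
    exact ⟨⟨Ψ.coeff n, mem_adjoin_simple.2 (hcoef' n)⟩, rfl⟩
  obtain ⟨Φ, hΦ⟩ := hl
  have hΦ' : Φ.map j = Ψ := hΦ
  have hΦm : Φ.Monic := by
    rw [← hΦ'] at hΨm
    exact Polynomial.monic_of_injective j.injective hΨm
  have hΦs : Φ.Separable := by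
    rw [← hΦ'] at hΨs
    exact (Polynomial.separable_map j).1 hΨs
  have hΦr : aeval θ Φ = 0 := by
    have h1 : aeval θ Ψ = 0 := minpoly.aeval _ _
    rw [← hΦ', aeval_def, eval₂_map] at h1
    rw [aeval_def]
    exact h1
  have hcore := frp_core_ae hyF F' hF' Φ hΦm hΦr hΦs
  -- every element has a power in the plain field
  set N0 : Subfield K := Vale.Agent.P019.adj (Vale.Agent.P019.adj F y) θ with hN0
  have hall : ∀ z : K, ∃ n : ℕ, z ^ (ringExpChar K) ^ n ∈ N0 := by
    intro z
    rw [← mem_pf]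
    have h1 : Vale.Agent.P019.adj (adj F t) θ ≤ pf N0 := by
      refine Vale.Agent.P019.adj_le ?_ (le_pf _ (Vale.Agent.P019.mem_adj _ _))
      refine pf_mono ?_
      refine Vale.Agent.P019.adj_le ((Vale.Agent.P019.le_adj F y).trans
        (Vale.Agent.P019.le_adj _ θ)) ?_
      rw [← hy]
      exact Subfield.pow_mem _ (Vale.Agent.P019.le_adj _ θ (Vale.Agent.P019.mem_adj F y)) _
    exact h1 (hθ z)
  rw [ae_iff] at hcore ⊢
  refine (hcore.image (fun c => c ^ (ringExpChar K) ^ m)).subset ?_
  rintro a ⟨haF, ha⟩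
  obtain ⟨c, hcF, hca⟩ := exists_root_q F haF m
  refine ⟨c, ⟨hcF, ?_⟩, hca⟩
  intro hc
  apply ha
  intro W hW
  obtain ⟨c', hc'F, hc'a, hWc⟩ := Over.root haF hy hW
  have hcc : c' = c := pow_q_inj (hc'a.trans hca.symm)
  rw [hcc] at hWc
  obtain ⟨h1, h2, h3, h4⟩ := hc W hWc
  have hπ : (y - c) ^ (ringExpChar K) ^ m = t - a := by
    rw [sub_pow_q, hy, hca]
  have hne : t - a ≠ 0 := by
    intro h0
    apply h.tt
    rw [sub_eq_zero.1 h0]
    exact isAlgebraic_of_mem haF
  refine ⟨inferInstance, ⟨hne, hW.lt, ?_⟩, hW.triv, h1, ?_, h4⟩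
  · intro z hz0
    obtain ⟨n, hn⟩ := hall z
    obtain ⟨i, hi⟩ := h2 _ hn (pow_ne_zero _ hz0)
    refine ⟨n + m, i, ?_⟩
    have e2 : ((y - c) ^ (ringExpChar K) ^ m) ^ i = ((y - c) ^ i) ^ (ringExpChar K) ^ m := by
      rw [← zpow_natCast, ← zpow_natCast, ← zpow_mul, ← zpow_mul, mul_comm]
    have e : z ^ (ringExpChar K) ^ (n + m) * (t - a) ^ i =
        (z ^ (ringExpChar K) ^ n * (y - c) ^ i) ^ (ringExpChar K) ^ m := by
      rw [← hπ, e2, pow_add, pow_mul, mul_pow]
    rw [e, map_pow, hi, one_pow]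
  · intro z hz
    obtain ⟨n, hn⟩ := hall z
    refine frp_res hW.triv h1 h4 hz (n := n) (h3 _ hn ?_)
    rw [map_pow]
    exact pow_le_one₀ zero_le hz

/-- nonzero elements are units over `t = a` for almost all `a`. -/
theorem unit_over {F : Subfield K} {t z : K} (hz : z ≠ 0) (halg : IsAlgebraic (adj F t) z) :
    ∀ᶠ a in ae F, ∀ W : ValuationSubring K, Over W F t a → W.valuation z = 1 := by
  exact frb_ae (unit_ae (isAlgebraic_adjoin_simple'.2 halg) hz)

/-- nonzero elements are units over `t = a` for almost all `a`. -/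
theorem Frame.unit {k G : Subfield K} {t s : K} (h : Frame k G t s) {z : K} (hz : z ≠ 0) :
    ∀ᶠ a in ae (adj G s), ∀ W : ValuationSubring K, Over W (adj G s) t a →
      W.valuation z = 1 :=
  unit_over hz (h.alg z)

end Vale.Agent.P019P
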