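import Vale.Agent.P019.D2
import Vale.Agent.P019P.FrameB

/-!
# Triviality of valuations on curves (perfect version)

`exists_pair_of_sum_zero` is that of the old file.
-/

namespace Vale.Agent.P019P

open Vale.Agent.P019

set_option linter.style.haveILetI false
set_option linter.unusedSectionVars false

open Polynomial Filter

variable {K : Type*} [Field K]

theorem Crv.perfect [PerfectField K] {k E : Subfield K} (h : Crv k E) : PerfectField E :=
  perfect_of_RAC h.rac

theorem Crv.alg {k E : Subfield K} (hk : RAC k) (h : Crv k E) {y : K} (hy : y ∈ E)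
    (hyk : y ∉ k) : ∀ z ∈ E, IsAlgebraic (adj k y) z := by
  obtain ⟨y0, hy0, -, hall⟩ := h.ex
  intro z hz
  have h1 : ¬ IsAlgebraic k y := fun h' => hyk (hk y h')
  have h2 : IsAlgebraic (adj k y) y0 := exchange h1 (hall y hy)
  rw [isAlgebraic_adj] at h2 ⊢
  have h3 : Vale.Agent.P019.adj k y0 ≤ Vale.Agent.P019.rac (Vale.Agent.P019.adj k y) :=
    Vale.Agent.P019.adj_le ((Vale.Agent.P019.le_adj k y).trans (le_rac _)) (mem_rac.2 h2)
  exact isAlgebraic_rac (isAlgebraic_mono h3 (isAlgebraic_adj.1 (hall z hz)))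

theorem Crv.of_good {k : Subfield K} {t : K} (h : Good k t) : Crv k (adj k t) :=
  ⟨le_adj k t, h.2, t, mem_adj k t, h.1, fun _ hz => isAlgebraic_of_mem hz⟩

theorem Crv.eq {k E₁ E₂ : Subfield K} (hk : RAC k) (h₁ : Crv k E₁) (h₂ : Crv k E₂) {y : K}
    (hy₁ : y ∈ E₁) (hy₂ : y ∈ E₂) (hyk : y ∉ k) : E₁ = E₂ := by
  apply le_antisymm
  · intro z hz
    exact h₂.rac z (isAlgebraic_mono (Vale.Agent.P019.adj_le h₂.le hy₂)
      (isAlgebraic_adj.1 (h₁.alg hk hy₁ hyk z hz)))
  · intro z hz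
    exact h₁.rac z (isAlgebraic_mono (Vale.Agent.P019.adj_le h₁.le hy₁)
      (isAlgebraic_adj.1 (h₂.alg hk hy₂ hyk z hz)))

/-- a curve in the new sense is one in the old sense. -/
theorem Crv.old {k E : Subfield K} (h : Crv k E) : Vale.Agent.P019.Crv k E where
  le := h.le
  rac := h.rac
  ex := by
    obtain ⟨y, hy, hyk, hall⟩ := h.ex
    exact ⟨y, hy, hyk, fun z hz => isAlgebraic_adj.1 (hall z hz)⟩

theorem exists_const {k E : Subfield K} (hk : IsAlgClosed k) (hE : Crv k E)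
    {O : ValuationSubring K} (hOk : TrivOn O k) (hOE : ¬ TrivOn O E) {w : K} (hw : w ∈ E)
    (hw1 : O.valuation w = 1) : ∃ c ∈ k, O.valuation (w - c) < 1 :=
  Vale.Agent.P019.exists_const hk hE.old hOk hOE hw hw1

theorem triv_of_rk2 [PerfectField K] {ℓ : ℕ} [Fact ℓ.Prime] [NeZero (ℓ : K)] {k E : Subfield K}
    (hk : IsAlgClosed k)
    (hE : Crv k E) {O : ValuationSubring K} (hOk : TrivOn O k)
    (h : Rk2 (VS ℓ E) (U1 ℓ O)) : TrivOn O E :=
  Vale.Agent.P019.triv_of_rk2 hk hE.old hOk h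

end Vale.Agent.P019P
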