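import Vale.Agent.P019.GenB
import Vale.Agent.P019P.D2
import Vale.Agent.P019P.Bert

/-!
# Generic good elements
-/

namespace Vale.Agent.P019P

open Vale.Agent.P019

set_option linter.style.haveILetI false
set_option linter.unusedSectionVars false

open Polynomial Filter

variable {K : Type*} [Field K] [PerfectField K] {k : Subfield K}

/-- algebraic independence of a pair. -/
def Ind (k : Subfield K) (x y : K) : Prop := x ∉ k ∧ ¬ IsAlgebraic (adj k x) y

theorem Ind.symm (hk : IsAlgClosed k) {x y : K} (h : Ind k x y) : Ind k y x := by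
  have hxk : ¬ IsAlgebraic k x := fun h' => h.1 (RAC_of_isAlgClosed k hk x h')
  refine ⟨fun hy => h.2 (isAlgebraic_of_mem (le_adj k x hy)), fun h' => h.2 (exchange hxk h')⟩

/-- an affine line over `k` meets a subfield containing `k` in at most one point, unless it is
contained in it. -/
theorem gen_one {F : Subfield K} (hkF : k ≤ F) {u v : K} (h : u ∈ F → v ∉ F) :
    ∀ᶠ c in ae k, u + c * v ∉ F := by
  rw [ae_iff]
  apply Set.Subsingleton.finite
  rintro c ⟨hc, hc1⟩ c' ⟨hc', hc1'⟩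
  rw [not_not] at hc1 hc1'
  by_contra hne
  have hd : c - c' ≠ 0 := sub_ne_zero.2 hne
  have hv : v ∈ F := by
    have : v = ((u + c * v) - (u + c' * v)) / (c - c') := by field_simp; ring
    rw [this]
    exact F.div_mem (F.sub_mem hc1 hc1') (F.sub_mem (hkF hc) (hkF hc'))
  have hu : u ∈ F := by
    have : u = (u + c * v) - c * v := by ring
    rw [this]
    exact F.sub_mem hc1 (F.mul_mem (hkF hc) hv)
  exact h hu hv

theorem gen_avoid (hk : (k : Set K).Infinite) {ι : Type*} [DecidableEq ι] (s : Finset ι) (E : ι → Subfield K) (t : ι → K)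
    (hE : ∀ i ∈ s, k ≤ E i) (ht : ∀ i ∈ s, t i ≠ 0) (hz : ∀ i ∈ s, ∃ z, z ∉ E i) :
    ∃ y, ∀ i ∈ s, y * t i ∉ E i := by
  induction s using Finset.induction_on with
  | empty => exact ⟨0, by simp⟩
  | insert j s hj ih =>
    obtain ⟨y, hy⟩ := ih (fun i hi => hE i (Finset.mem_insert_of_mem hi))
      (fun i hi => ht i (Finset.mem_insert_of_mem hi))
      (fun i hi => hz i (Finset.mem_insert_of_mem hi))
    obtain ⟨z₀, hz₀⟩ := hz j (Finset.mem_insert_self j s)
    set z : K := z₀ / t j with hzdef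
    have hzt : z * t j ∉ E j := by
      rw [hzdef, div_mul_cancel₀ _ (ht j (Finset.mem_insert_self j s))]; exact hz₀
    have h1 : ∀ᶠ c in ae k, ∀ i ∈ insert j s, y * t i + c * (z * t i) ∉ E i := by
      rw [Filter.eventually_all_finset]
      intro i hi
      refine gen_one (hE i hi) (fun hu => ?_)
      rcases Finset.mem_insert.1 hi with rfl | hi'
      · exact hzt
      · exact absurd hu (hy i hi')
    have := ae_neBot hk
    obtain ⟨c, hc⟩ := h1.exists
    refine ⟨y + c * z, fun i hi => ?_⟩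
    have := hc i hi
    rwa [← mul_assoc, ← add_mul] at this

/-- the algebraic closure of a simple extension is proper. -/
theorem gen_proper (hk : IsAlgClosed k)
    (htr : ∃ x y : K, x ∉ k ∧ ¬ IsAlgebraic (adj k x) y) (a : K) :
    ∃ z, z ∉ rac (adj k a) := by
  obtain ⟨x, y, hx, hy⟩ := htr
  by_contra hcon
  push Not at hcon
  have hxk : ¬ IsAlgebraic k x := fun h' => hx (RAC_of_isAlgClosed k hk x h')
  have h1 : IsAlgebraic (adj k x) a := exchange hxk (mem_rac.1 (hcon x))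
  have h2 : adj k a ≤ rac (adj k x) :=
    adj_le ((le_adj k x).trans (le_rac _)) (mem_rac.2 h1)
  exact hy (isAlgebraic_rac (isAlgebraic_mono h2 (mem_rac.1 (hcon y))))

theorem gen_bert (hk : IsAlgClosed k) (hfg : FG k (⊤ : Subfield K)) {x y : K} (hx : x ∉ k)
    (hy : y ∉ rac (adj k x)) : ∀ᶠ c in ae k, Good k (x + c * y) := by
  rw [ae_iff]
  exact bertini hk hfg hx (fun h => hy (mem_rac.2 h))

theorem gen_ind (hk : IsAlgClosed k) {b s : K} (hb : b ∉ k) (hs : s ∉ rac (adj k b)) :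
    Ind k s b :=
  Ind.symm hk ⟨hb, fun h => hs (mem_rac.2 h)⟩

theorem exists_gen_add (hk : IsAlgClosed k) (hfg : FG k (⊤ : Subfield K))
    (htr : ∃ x y : K, x ∉ k ∧ ¬ IsAlgebraic (adj k x) y) (A B : Finset K)
    (hB : ∀ b ∈ B, Good k b) :
    ∃ t, ∀ a ∈ A, Good k (a + t) ∧ ∀ b ∈ B, Ind k (a + t) b := by
  classical
  have hki := infinite_of_isAlgClosed hk
  have := ae_neBot hki
  obtain ⟨x, y, hx, hy⟩ := id htr
  obtain ⟨x₀, hx₀⟩ : ∃ x₀ : K, ∀ a ∈ A, a + x₀ ∉ k := by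
    have h1 : ∀ᶠ c in ae k, ∀ a ∈ A, a + c * x ∉ k := by
      rw [Filter.eventually_all_finset]
      exact fun a _ => gen_one le_rfl (fun _ => hx)
    obtain ⟨c, hc⟩ := h1.exists
    exact ⟨c * x, hc⟩
  obtain ⟨y₀, hy₀⟩ := gen_avoid hki ((A.image fun a => a + x₀) ∪ B)
    (fun a => rac (adj k a)) (fun _ => 1)
    (fun a _ => (le_adj k a).trans (le_rac _)) (fun _ _ => one_ne_zero)
    (fun a _ => gen_proper hk htr a)
  simp only [mul_one] at hy₀
  have h1 : ∀ᶠ c in ae k, ∀ a ∈ A, Good k (a + x₀ + c * y₀) := by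
    rw [Filter.eventually_all_finset]
    intro a ha
    refine gen_bert hk hfg (hx₀ a ha) (hy₀ _ ?_)
    exact Finset.mem_union_left _ (Finset.mem_image_of_mem _ ha)
  have h2 : ∀ᶠ c in ae k, ∀ a ∈ A, ∀ b ∈ B, a + x₀ + c * y₀ ∉ rac (adj k b) := by
    rw [Filter.eventually_all_finset]
    intro a _
    rw [Filter.eventually_all_finset]
    intro b hb
    exact gen_one ((le_adj k b).trans (le_rac _))
      (fun _ => hy₀ b (Finset.mem_union_right _ hb))
  obtain ⟨c, hc1, hc2⟩ := (h1.and h2).exists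
  refine ⟨x₀ + c * y₀, fun a ha => ?_⟩
  rw [← add_assoc]
  exact ⟨hc1 a ha, fun b hb => gen_ind hk (hB b hb).1 (hc2 a ha b hb)⟩

theorem exists_gen_mul (hk : IsAlgClosed k) (hfg : FG k (⊤ : Subfield K))
    (htr : ∃ x y : K, x ∉ k ∧ ¬ IsAlgebraic (adj k x) y) (h t : K) (ht : Good k t) :
    ∃ s, Good k s ∧ Good k (h + s) ∧ Good k (s * t) ∧ Good k ((h + s) * t) ∧ Ind k s t ∧
      Ind k (h + s) t := by
  classical
  have hki := infinite_of_isAlgClosed hk
  have := ae_neBot hki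
  have ht0 : t ≠ 0 := fun h0 => ht.1 (h0 ▸ k.zero_mem)
  obtain ⟨x, hx⟩ : ∃ x : K, x ∉ k := ⟨t, ht.1⟩
  -- the element `x₁` with `x₁` and `x₁ t` not in `k`
  obtain ⟨x₁, hx₁⟩ := gen_avoid hki (Finset.univ : Finset Bool) (fun _ => k)
    (fun b => if b then t else 1) (fun _ _ => le_rfl)
    (fun b _ => by cases b <;> simp [ht0]) (fun _ _ => ⟨x, hx⟩)
  have hx₁1 : x₁ ∉ k := by simpa using hx₁ false (Finset.mem_univ _)
  have hx₁t : x₁ * t ∉ k := by simpa using hx₁ true (Finset.mem_univ _)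
  obtain ⟨x₀, hx₀1, hx₀2, hx₀3, hx₀4⟩ :
      ∃ x₀ : K, x₀ ∉ k ∧ h + x₀ ∉ k ∧ x₀ * t ∉ k ∧ (h + x₀) * t ∉ k := by
    have h1 : ∀ᶠ c in ae k, 0 + c * x₁ ∉ k := gen_one le_rfl (fun _ => hx₁1)
    have h2 : ∀ᶠ c in ae k, h + c * x₁ ∉ k := gen_one le_rfl (fun _ => hx₁1)
    have h3 : ∀ᶠ c in ae k, 0 + c * (x₁ * t) ∉ k := gen_one le_rfl (fun _ => hx₁t)
    have h4 : ∀ᶠ c in ae k, h * t + c * (x₁ * t) ∉ k := gen_one le_rfl (fun _ => hx₁t)
    obtain ⟨c, ⟨⟨hc1, hc2⟩, hc3⟩, hc4⟩ := (((h1.and h2).and h3).and h4).exists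
    refine ⟨c * x₁, by rwa [zero_add] at hc1, hc2, ?_, ?_⟩
    · rw [zero_add, ← mul_assoc] at hc3; exact hc3
    · have : (h + c * x₁) * t = h * t + c * (x₁ * t) := by ring
      rw [this]; exact hc4
  -- the direction
  obtain ⟨y₀, hy₀⟩ := gen_avoid hki
    ({(x₀, 1), (h + x₀, 1), (x₀ * t, t), ((h + x₀) * t, t), (t, 1)} : Finset (K × K))
    (fun i => rac (adj k i.1)) (fun i => i.2)
    (fun i _ => (le_adj k i.1).trans (le_rac _))
    (fun i hi => by
      simp only [Finset.mem_insert, Finset.mem_singleton] at hi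
      rcases hi with rfl | rfl | rfl | rfl | rfl <;> simp [ht0])
    (fun i _ => gen_proper hk htr i.1)
  have hy1 : y₀ ∉ rac (adj k x₀) := by simpa using hy₀ (x₀, 1) (by simp)
  have hy2 : y₀ ∉ rac (adj k (h + x₀)) := by simpa using hy₀ (h + x₀, 1) (by simp)
  have hy3 : y₀ * t ∉ rac (adj k (x₀ * t)) := hy₀ (x₀ * t, t) (by simp)
  have hy4 : y₀ * t ∉ rac (adj k ((h + x₀) * t)) := hy₀ ((h + x₀) * t, t) (by simp)
  have hy5 : y₀ ∉ rac (adj k t) := by simpa using hy₀ (t, 1) (by simp)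
  have g1 := gen_bert hk hfg hx₀1 hy1
  have g2 := gen_bert hk hfg hx₀2 hy2
  have g3 := gen_bert hk hfg hx₀3 hy3
  have g4 := gen_bert hk hfg hx₀4 hy4
  have g5 : ∀ᶠ c in ae k, x₀ + c * y₀ ∉ rac (adj k t) :=
    gen_one ((le_adj k t).trans (le_rac _)) (fun _ => hy5)
  have g6 : ∀ᶠ c in ae k, (h + x₀) + c * y₀ ∉ rac (adj k t) :=
    gen_one ((le_adj k t).trans (le_rac _)) (fun _ => hy5)
  obtain ⟨c, ⟨⟨⟨⟨⟨c1, c2⟩, c3⟩, c4⟩, c5⟩, c6⟩⟩ :=
    (((((g1.and g2).and g3).and g4).and g5).and g6).exists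
  refine ⟨x₀ + c * y₀, c1, ?_, ?_, ?_, gen_ind hk ht.1 c5, ?_⟩
  · rw [← add_assoc]; exact c2
  · have : (x₀ + c * y₀) * t = x₀ * t + c * (y₀ * t) := by ring
    rw [this]; exact c3
  · have : (h + (x₀ + c * y₀)) * t = (h + x₀) * t + c * (y₀ * t) := by ring
    rw [this]; exact c4
  · rw [← add_assoc]; exact gen_ind hk ht.1 c6

theorem gen_adj_eq {u v : K} (h1 : u ∈ adj k v) (h2 : v ∈ adj k u) : adj k u = adj k v :=
  le_antisymm (adj_le (le_adj k v) h1) (adj_le (le_adj k u) h2)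


end Vale.Agent.P019P
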