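import Vale.Agent.P019.MobB
import Vale.Agent.P019P.Roots

/-!
# Injective rational functions, twisted Moebius transformations
-/

namespace Vale.Agent.P019P

open Vale.Agent.P019

set_option linter.style.haveILetI false
set_option linter.unusedSectionVars false

open Polynomial Filter

theorem mob_nc_of_wronskian {l : Type*} [Field l] {P Q : l[X]} (hw : wronskian P Q ≠ 0) :
    P.natDegree ≠ 0 ∨ Q.natDegree ≠ 0 := by
  by_contra hcon
  push Not at hcon
  obtain ⟨hP, hQ⟩ := hcon
  apply hw
  rw [eq_C_of_natDegree_eq_zero hP, eq_C_of_natDegree_eq_zero hQ]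
  simp [wronskian]

/-- multiplicities of generic fibres are one, for separable rational functions. -/
theorem rootMultiplicity_fibre {l : Type*} [Field l] [IsAlgClosed l] (P Q : l[X])
    (hcop : IsCoprime P Q) (hw : wronskian P Q ≠ 0) :
    {c : l | ∃ x, (P - C c * Q).eval x = 0 ∧ (P - C c * Q).rootMultiplicity x ≠ 1}.Finite := by
  classical
  have hnc := mob_nc_of_wronskian hw
  refine ((wronskian P Q).roots.toFinset.finite_toSet.image
    (fun x => P.eval x / Q.eval x)).subset ?_
  rintro c ⟨x, hx, hm⟩
  refine ⟨x, ?_, (mob_value hcop hx).2⟩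
  have hne := mob_fibre_ne_zero hcop hnc c
  have hpos : 0 < (P - C c * Q).rootMultiplicity x :=
    (rootMultiplicity_pos hne).mpr hx
  have h2 : 1 < (P - C c * Q).rootMultiplicity x := by omega
  have hd : (derivative (P - C c * Q)).IsRoot x :=
    ((one_lt_rootMultiplicity_iff_isRoot hne).mp h2).2
  have hd' : (derivative P).eval x = c * (derivative Q).eval x := by
    have h3 : (derivative P).eval x - c * (derivative Q).eval x = 0 := by
      have := hd
      simpa [IsRoot, derivative_sub, derivative_C_mul] using this
    linear_combination h3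
  have hP : P.eval x = c * Q.eval x := by
    have h3 : P.eval x - c * Q.eval x = 0 := by simpa using hx
    linear_combination h3
  have hw0 : (wronskian P Q).eval x = 0 := by
    simp only [wronskian, eval_sub, eval_mul, hP, hd']
    ring
  simp only [Finset.mem_coe, Multiset.mem_toFinset]
  rw [mem_roots hw]
  exact hw0

/-- injective separable rational functions are Moebius transformations. -/
theorem mob_of_inj_sep {l : Type*} [Field l] [IsAlgClosed l] (P Q : l[X])
    (hcop : IsCoprime P Q) (hw : wronskian P Q ≠ 0) (S : Set l) (hS : Sᶜ.Finite)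
    (hinj : ∀ x ∈ S, ∀ y ∈ S, P.eval x * Q.eval y = P.eval y * Q.eval x → x = y) :
    ∃ A B C' D : l, A * D - B * C' ≠ 0 ∧ P = C A * X + C B ∧ Q = C C' * X + C D := by
  classical
  have : Infinite l := IsAlgClosed.instInfinite
  have hnc := mob_nc_of_wronskian hw
  set d := max P.natDegree Q.natDegree with hd
  have hdpos : 0 < d := by
    rcases hnc with h | h
    · exact lt_of_lt_of_le (Nat.pos_of_ne_zero h) (le_max_left _ _)
    · exact lt_of_lt_of_le (Nat.pos_of_ne_zero h) (le_max_right _ _)
  -- bad values
  have hB1 := rootMultiplicity_fibre P Q hcop hw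
  have hB2 : ((fun x => P.eval x / Q.eval x) '' Sᶜ).Finite := hS.image _
  have hB3 : {c : l | P.coeff d = c * Q.coeff d}.Finite := by
    refine (Set.finite_singleton (P.coeff d / Q.coeff d)).subset ?_
    intro c hc
    simp only [Set.mem_ofPred_eq] at hc
    have hQd : Q.coeff d ≠ 0 := by
      intro h0
      have hPd : P.coeff d = 0 := by rw [hc, h0, mul_zero]
      rcases le_total P.natDegree Q.natDegree with h | h
      · have hdq : d = Q.natDegree := max_eq_right h
        rw [hdq] at h0
        have hQz : Q = 0 := leadingCoeff_eq_zero.mp h0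
        have : Q.natDegree = 0 := by rw [hQz]; simp
        omega
      · have hdp : d = P.natDegree := max_eq_left h
        rw [hdp] at hPd
        have hPz : P = 0 := leadingCoeff_eq_zero.mp hPd
        have : P.natDegree = 0 := by rw [hPz]; simp
        omega
    simp only [Set.mem_singleton_iff]
    rw [hc]
    field_simp
  obtain ⟨c, hc⟩ := ((hB1.union hB2).union hB3).infinite_compl.nonempty
  simp only [Set.mem_compl_iff, Set.mem_union, not_or] at hc
  obtain ⟨⟨hc1, hc2⟩, hc3⟩ := hc
  set R := P - C c * Q with hR
  have hRne : R ≠ 0 := mob_fibre_ne_zero hcop hnc c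
  have hRd : R.natDegree = d := by
    apply le_antisymm
    · refine (natDegree_sub_le _ _).trans ?_
      exact max_le_max le_rfl (natDegree_C_mul_le c Q)
    · apply le_natDegree_of_ne_zero
      intro h0
      apply hc3
      have : P.coeff d - c * Q.coeff d = 0 := by simpa [hR] using h0
      simp only [Set.mem_ofPred_eq]
      linear_combination this
  have hcount : ∀ x ∈ R.roots, R.roots.count x = 1 := by
    intro x hx
    rw [count_roots]
    by_contra hne
    exact hc1 ⟨x, (mem_roots hRne).mp hx, hne⟩
  have hnodup : R.roots.Nodup := by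
    rw [Multiset.nodup_iff_count_eq_one]
    exact hcount
  have hcard : R.roots.card = d := by
    rw [← hRd]
    exact (splits_iff_card_roots.mp (IsAlgClosed.splits R))
  have hrootS : ∀ x ∈ R.roots, x ∈ S := by
    intro x hx
    by_contra hxS
    exact hc2 ⟨x, hxS, (mob_value hcop ((mem_roots hRne).mp hx)).2⟩
  have hle : d ≤ 1 := by
    rw [← hcard]
    by_contra hlt
    push Not at hlt
    have hfc : R.roots.toFinset.card = R.roots.card := Multiset.toFinset_card_of_nodup hnodup
    rw [← hfc] at hlt
    obtain ⟨x, hx, y, hy, hxy⟩ := Finset.one_lt_card.mp hlt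
    rw [Multiset.mem_toFinset] at hx hy
    apply hxy
    apply hinj x (hrootS x hx) y (hrootS y hy)
    have h1 := mob_value hcop ((mem_roots hRne).mp hx)
    have h2 := mob_value hcop ((mem_roots hRne).mp hy)
    have h3 : P.eval x = c * Q.eval x := by
      rw [← h1.2]; field_simp [h1.1]
    have h4 : P.eval y = c * Q.eval y := by
      rw [← h2.2]; field_simp [h2.1]
    rw [h3, h4]; ring
  have hPd : P.natDegree ≤ 1 := (le_max_left _ _).trans hle
  have hQd : Q.natDegree ≤ 1 := (le_max_right _ _).trans hle
  have hPe : P = C (P.coeff 1) * X + C (P.coeff 0) := eq_X_add_C_of_natDegree_le_one hPd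
  have hQe : Q = C (Q.coeff 1) * X + C (Q.coeff 0) := eq_X_add_C_of_natDegree_le_one hQd
  refine ⟨P.coeff 1, P.coeff 0, Q.coeff 1, Q.coeff 0, ?_, hPe, hQe⟩
  intro hdet
  have hPev : ∀ x, P.eval x = P.coeff 1 * x + P.coeff 0 := by
    intro x
    conv_lhs => rw [hPe]
    simp
  have hQev : ∀ x, Q.eval x = Q.coeff 1 * x + Q.coeff 0 := by
    intro x
    conv_lhs => rw [hQe]
    simp
  by_cases hC : Q.coeff 1 = 0
  · have hA : P.coeff 1 ≠ 0 := by
      intro hA
      rcases hnc with h | h
      · apply h
        rw [hPe, hA]; simp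
      · apply h
        rw [hQe, hC]; simp
    have hD : Q.coeff 0 = 0 := by
      rw [hC, mul_zero, sub_zero] at hdet
      exact (mul_eq_zero.mp hdet).resolve_left hA
    have hQ0 : Q.eval (-(P.coeff 0) / P.coeff 1) = 0 := by rw [hQev, hC, hD]; simp
    apply mob_not_both_root hcop hQ0
    rw [hPev]
    field_simp
    ring
  · have hQ0 : Q.eval (-(Q.coeff 0) / Q.coeff 1) = 0 := by
      rw [hQev]
      field_simp
      ring
    apply mob_not_both_root hcop hQ0
    rw [hPev]
    field_simp
    linear_combination -hdet

theorem mob_nc_of_inj {l : Type*} [Field l] [IsAlgClosed l] {P Q : l[X]} {S : Set l}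
    (hS : Sᶜ.Finite)
    (hinj : ∀ x ∈ S, ∀ y ∈ S, P.eval x * Q.eval y = P.eval y * Q.eval x → x = y) :
    P.natDegree ≠ 0 ∨ Q.natDegree ≠ 0 := by
  have : Infinite l := IsAlgClosed.instInfinite
  have hSinf : S.Infinite := by
    intro hfin
    have : (Set.univ : Set l).Finite := by
      rw [← Set.union_compl_self S]
      exact hfin.union hS
    exact Set.infinite_univ this
  by_contra hcon
  push Not at hcon
  obtain ⟨hP, hQ⟩ := hcon
  obtain ⟨x, hx, y, hy, hxy⟩ := hSinf.nontrivial
  apply hxy
  apply hinj x hx y hy
  rw [eq_C_of_natDegree_eq_zero hP, eq_C_of_natDegree_eq_zero hQ]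
  simp

/-- injective rational functions are Moebius transformations up to Frobenius. -/
theorem mob_of_inj {l : Type*} [Field l] [IsAlgClosed l] (P Q : l[X])
    (hcop : IsCoprime P Q) (S : Set l) (hS : Sᶜ.Finite)
    (hinj : ∀ x ∈ S, ∀ y ∈ S, P.eval x * Q.eval y = P.eval y * Q.eval x → x = y) :
    ∃ (j : ℕ) (A B C' D : l), A * D - B * C' ≠ 0 ∧
      P = C A * X ^ (ringExpChar l) ^ j + C B ∧ Q = C C' * X ^ (ringExpChar l) ^ j + C D := by
  obtain ⟨p, hp⟩ := ExpChar.exists l
  rw [ringExpChar.eq l p]
  rcases hp with _ | hprime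
  · -- characteristic zero
    have hnc := mob_nc_of_inj hS hinj
    obtain ⟨A, B, C', D, h1, h2, h3⟩ :=
      mob_of_inj_sep P Q hcop (mob_wronskian hcop hnc) S hS hinj
    exact ⟨0, A, B, C', D, h1, by simpa using h2, by simpa using h3⟩
  · -- characteristic p
    rename_i hchar
    have hp0 : p ≠ 0 := hprime.ne_zero
    haveI : Fact p.Prime := ⟨hprime⟩
    haveI : ExpChar l p := ExpChar.prime hprime
    haveI : PerfectField l := IsAlgClosed.perfectField l
    haveI : PerfectRing l p := PerfectField.toPerfectRing p
    have key : ∀ (n : ℕ) (P Q : l[X]) (S : Set l), P.natDegree + Q.natDegree ≤ n →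
        IsCoprime P Q → Sᶜ.Finite →
        (∀ x ∈ S, ∀ y ∈ S, P.eval x * Q.eval y = P.eval y * Q.eval x → x = y) →
        ∃ (j : ℕ) (A B C' D : l), A * D - B * C' ≠ 0 ∧
          P = C A * X ^ p ^ j + C B ∧ Q = C C' * X ^ p ^ j + C D := by
      intro n
      induction n with
      | zero =>
        intro P Q S hn hcop hS hinj
        exfalso
        rcases mob_nc_of_inj hS hinj with h | h <;> omega
      | succ n ih =>
        intro P Q S hn hcop hS hinj
        have hnc := mob_nc_of_inj hS hinj
        by_cases hw : wronskian P Q = 0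
        · rw [hcop.wronskian_eq_zero_iff] at hw
          have hPe := expand_contract p hw.1 hp0
          have hQe := expand_contract p hw.2 hp0
          set P1 := contract p P with hP1
          set Q1 := contract p Q with hQ1
          have hcop1 : IsCoprime P1 Q1 := by
            rw [← isCoprime_expand hp0, hPe, hQe]
            exact hcop
          have hdP : P.natDegree = P1.natDegree * p := by
            rw [← hPe]
            exact natDegree_expand p P1
          have hdQ : Q.natDegree = Q1.natDegree * p := by
            rw [← hQe]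
            exact natDegree_expand p Q1
          have hdeg : P1.natDegree + Q1.natDegree ≤ n := by
            have h2 := hprime.two_le
            have h3 : 2 * P1.natDegree ≤ P.natDegree := by rw [hdP]; nlinarith
            have h4 : 2 * Q1.natDegree ≤ Q.natDegree := by rw [hdQ]; nlinarith
            rcases hnc with h | h <;> omega
          have hbij : Function.Bijective (frobenius l p) := bijective_frobenius l p
          have hS1 : ((frobenius l p) '' S)ᶜ.Finite := by
            rw [← Set.image_compl_eq hbij]
            exact hS.image _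
          obtain ⟨j, A, B, C', D, h1, h2, h3⟩ := ih P1 Q1 ((frobenius l p) '' S) hdeg hcop1 hS1 (by
            rintro _ ⟨x, hx, rfl⟩ _ ⟨y, hy, rfl⟩ hxy
            have : x = y := by
              apply hinj x hx y hy
              rw [← hPe, ← hQe, expand_eval, expand_eval, expand_eval, expand_eval]
              simpa [frobenius_def] using hxy
            rw [this])
          refine ⟨j + 1, A, B, C', D, h1, ?_, ?_⟩
          · rw [← hPe, h2, map_add, map_mul, map_pow, expand_C, expand_C, expand_X, ← pow_mul,
              pow_succ, mul_comm p]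
          · rw [← hQe, h3, map_add, map_mul, map_pow, expand_C, expand_C, expand_X, ← pow_mul,
              pow_succ, mul_comm p]
        · obtain ⟨A, B, C', D, h1, h2, h3⟩ := mob_of_inj_sep P Q hcop hw S hS hinj
          exact ⟨0, A, B, C', D, h1, by simpa using h2, by simpa using h3⟩
    exact key _ P Q S le_rfl hcop hS hinj

/-- uniqueness of twisted Moebius transformations. -/
theorem twist_mob {L : Type*} [Field L] {i j : ℕ} {u v A B C D : L} (hu : u ≠ 0)
    (hdet : A * D - B * C ≠ 0)
    (h : {x : L | (u * x ^ (ringExpChar L) ^ i + v) * (C * x ^ (ringExpChar L) ^ j + D) =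
      A * x ^ (ringExpChar L) ^ j + B}.Infinite) :
    (ringExpChar L) ^ i = (ringExpChar L) ^ j ∧ C = 0 ∧ A = u * D ∧ B = v * D := by
  have hq : 0 < ringExpChar L := by
    obtain ⟨p, hp⟩ := ExpChar.exists L
    rw [ringExpChar.eq L p]
    exact expChar_pos L p
  set a := (ringExpChar L) ^ i with ha
  set b := (ringExpChar L) ^ j with hb
  have ha0 : 0 < a := pow_pos hq i
  have hb0 : 0 < b := pow_pos hq j
  have hpoly : (Polynomial.C u * X ^ a + Polynomial.C v) * (Polynomial.C C * X ^ b +
      Polynomial.C D) = Polynomial.C A * X ^ b + Polynomial.C B := by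
    apply eq_of_infinite_eval_eq
    refine h.mono ?_
    intro x hx
    simpa using hx
  have hexp : Polynomial.C (u * C) * X ^ (a + b) + Polynomial.C (u * D) * X ^ a +
      Polynomial.C (v * C) * X ^ b + Polynomial.C (v * D) =
      Polynomial.C A * X ^ b + Polynomial.C B := by
    rw [← hpoly]
    simp only [map_mul, pow_add]
    ring
  have c1 := congrArg (fun P => Polynomial.coeff P (a + b)) hexp
  have c2 := congrArg (fun P => Polynomial.coeff P 0) hexp
  have n1 : a + b ≠ a := by omega
  have n2 : a + b ≠ b := by omega
  have n3 : a + b ≠ 0 := by omega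
  have n4 : (0 : ℕ) ≠ a := by omega
  have n5 : (0 : ℕ) ≠ b := by omega
  have n6 : (0 : ℕ) ≠ a + b := by omega
  simp only [coeff_add, coeff_C_mul, coeff_X_pow, coeff_C, n1, n2, n3, if_true, if_false,
    mul_one, mul_zero, add_zero] at c1
  simp only [coeff_add, coeff_C_mul, coeff_X_pow, coeff_C, n4, n5, n6, if_true, if_false,
    mul_zero, zero_add] at c2
  have hC : C = 0 := (mul_eq_zero.mp c1).resolve_left hu
  have hAD : A * D ≠ 0 := by simpa [hC] using hdet
  have hD : D ≠ 0 := right_ne_zero_of_mul hAD
  have c3 := congrArg (fun P => Polynomial.coeff P a) hexp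
  have n7 : a ≠ a + b := by omega
  have n8 : a ≠ 0 := by omega
  by_cases hab : a = b
  · simp only [coeff_add, coeff_C_mul, coeff_X_pow, coeff_C, n8, if_true, if_false,
      mul_one, mul_zero, zero_mul, add_zero, zero_add, hC, ← hab] at c3
    exact ⟨hab, hC, c3.symm, c2.symm⟩
  · exfalso
    simp only [coeff_add, coeff_C_mul, coeff_X_pow, coeff_C, n7, n8, if_true, if_false,
      mul_one, mul_zero, add_zero, zero_add, hC, hab] at c3
    exact mul_ne_zero hu hD c3

end Vale.Agent.P019P
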