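import Vale.Agent.P019.RelB
import Vale.Agent.P019P.RelA

/-!
# Twisting the coordinates by Frobenius
-/

namespace Vale.Agent.P019P

open Vale.Agent.P019

set_option linter.style.haveILetI false
set_option linter.unusedSectionVars false

open Polynomial Filter

variable {K L : Type*} [Field K] [Field L] [PerfectField K] [PerfectField L] {ℓ : ℕ}
  [Fact ℓ.Prime] [NeZero (ℓ : K)] [NeZero (ℓ : L)]
  {k : Subfield K} {l : Subfield L} {Θ : V ℓ K ≃ₗ[ZMod ℓ] V ℓ L}

theorem Rt.root (hl : IsAlgClosed l) {s : K} {s' y : L} (h : Rt k l Θ s s') {n : ℕ}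
    (hy : y ^ (ringExpChar L) ^ n = s') : Rt k l Θ s y := by
  haveI : IsAlgClosed l := hl
  haveI : PerfectField l := inferInstance
  subst hy
  refine ⟨h.good, good_pow.1 h.good', fun v => ?_⟩
  have h1 := h.map v
  rwa [adj_pow] at h1

theorem Rt.pow (hl : IsAlgClosed l) {s : K} {s' : L} (h : Rt k l Θ s s') (n : ℕ) :
    Rt k l Θ s (s' ^ (ringExpChar L) ^ n) := by
  haveI : IsAlgClosed l := hl
  haveI : PerfectField l := inferInstance
  refine ⟨h.good, good_pow.2 h.good', fun v => ?_⟩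
  rw [adj_pow]
  exact h.map v

theorem Cor.root (hk : IsAlgClosed k) (hl : IsAlgClosed l) {s : K} {s' y : L}
    (h : Rt k l Θ s s') {n : ℕ}
    (hy : y ^ (ringExpChar L) ^ n = s') {e : ZMod ℓ} {b : K} {β γ : L} (hγ : γ ∈ l)
    (hβ : γ ^ (ringExpChar L) ^ n = β) (hc : Cor k l Θ s s' e b β) :
    Cor k l Θ s y (e * (((ringExpChar L) ^ n : ℕ) : ZMod ℓ)⁻¹) b γ := by
  intro v hv
  have h1 : Rt k l Θ s y := h.root hl hy
  have h2 := del_pow hl h1.good' hγ n ((h1.map v).2 hv)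
  have h3 := hc v hv
  have h4 := q_pow_ne_zero ℓ L n
  rw [hy, hβ] at h2
  rw [h3, ← h2, mul_assoc, inv_mul_cancel_left₀ h4]

theorem Cor.pow (hk : IsAlgClosed k) (hl : IsAlgClosed l) {s : K} {s' : L}
    (h : Rt k l Θ s s') (n : ℕ) {e : ZMod ℓ} {b : K} {β : L} (hβ : β ∈ l)
    (hc : Cor k l Θ s s' e b β) :
    Cor k l Θ s (s' ^ (ringExpChar L) ^ n) (e * (((ringExpChar L) ^ n : ℕ) : ZMod ℓ)) b
      (β ^ (ringExpChar L) ^ n) := by
  intro v hv
  have h2 := del_pow hl h.good' hβ n ((h.map v).2 hv)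
  rw [hc v hv, ← h2, mul_assoc]

/-- the twisted correspondence. -/
theorem Psi.root (hk : IsAlgClosed k) (hl : IsAlgClosed l) {s : K} {s' y : L}
    (h : Rt k l Θ s s') {n : ℕ} (hy : y ^ (ringExpChar L) ^ n = s') {ψ : K → L}
    {e : K → ZMod ℓ} (p : Psi k l Θ s s' ψ e) :
    ∃ ψ' : K → L, (∀ b, ψ' b ^ (ringExpChar L) ^ n = ψ b) ∧
      Psi k l Θ s y ψ' (fun b => e b * (((ringExpChar L) ^ n : ℕ) : ZMod ℓ)⁻¹) := by
  haveI : IsAlgClosed l := hl
  haveI : PerfectField l := inferInstance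
  choose ψ' hψ using fun b => exists_root (ψ b) n
  have h4 := q_pow_ne_zero ℓ L n
  refine ⟨ψ', hψ, ⟨?_, ?_⟩⟩
  · filter_upwards [p.cor] with b hb
    have h5 : ψ' b ∈ l := mem_of_pow_q (n := n) (by rw [hψ b]; exact hb.1)
    exact ⟨h5, mul_ne_zero hb.2.1 (inv_ne_zero h4),
      Cor.root hk hl h hy h5 (hψ b) hb.2.2⟩
  · have h6 : ∀ᶠ γ in ae l, ∃ b ∈ k, ψ b = γ ^ (ringExpChar L) ^ n ∧ e b ≠ 0 ∧
        Cor k l Θ s s' (e b) b (ψ b) := by
      refine relb_comap (k := l) (l := l) (f := fun γ => γ ^ (ringExpChar L) ^ n)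
        (G := fun _ => True) (Eventually.of_forall fun _ => trivial)
        (fun a ha _ => l.pow_mem ha _) (fun a _ _ b _ _ hab => pow_q_inj hab) p.surj
    have h7 : ∀ᶠ γ in ae l, γ ∈ l := by
      rw [ae_iff]
      convert Set.finite_empty
      ext x
      simp
    filter_upwards [h6, h7] with γ h8 h9
    obtain ⟨b, hb, h10, h11, h12⟩ := h8
    have h13 : ψ' b = γ := pow_q_inj (n := n) (by rw [hψ b, h10])
    refine ⟨b, hb, h13, mul_ne_zero h11 (inv_ne_zero h4), ?_⟩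
    rw [h13]
    exact Cor.root hk hl h hy h9 h10.symm h12

end Vale.Agent.P019P
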