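import Vale.Agent.P019.RelB
import Vale.Agent.P019P.TwistB

/-!
# The Moebius relation on the fibres (perfect version)

`relb_comap` is that of the old file.
-/

namespace Vale.Agent.P019P

open Vale.Agent.P019

set_option linter.style.haveILetI false
set_option linter.unusedSectionVars false

open Polynomial Filter

theorem relb_coprime {K : Type*} [Field K] [PerfectField K] {k : Subfield K}
    (hk : IsAlgClosed k) {x z : K} (hx : x ∉ k) (hz : z ∈ adj k x) :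
    ∃ (n : ℕ) (y : K) (p q : k[X]), y ^ (ringExpChar K) ^ n = x ∧ IsCoprime p q ∧ q ≠ 0 ∧
      z = aeval y p / aeval y q := by
  haveI := hk
  obtain ⟨n, y, hy, hzy⟩ := mem_adj_root.1 hz
  have hyk : y ∉ k := by
    intro h
    apply hx
    rw [← hy]
    exact k.pow_mem h _
  obtain ⟨p, q, h1, h2, h3⟩ := Vale.Agent.P019.relb_coprime hk hyk hzy
  exact ⟨n, y, p, q, hy, h1, h2, h3⟩

section relb_psi

variable {K L : Type*} [Field K] [Field L] [PerfectField K] [PerfectField L] {ℓ : ℕ}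
  [Fact ℓ.Prime] [NeZero (ℓ : K)] [NeZero (ℓ : L)]
  {k : Subfield K} {l : Subfield L} {Θ : V ℓ K ≃ₗ[ZMod ℓ] V ℓ L}

/-- the correspondence is generically injective. -/
theorem Psi.relb_pull (hk : IsAlgClosed k) (hl : IsAlgClosed l) {s : K} {s' : L}
    (hR : Rt k l Θ s s') {ψ : K → L} {e : K → ZMod ℓ} (p : Psi k l Θ s s' ψ e) {P : L → Prop}
    (hP : ∀ᶠ β in ae l, P β) : ∀ᶠ b in ae k, P (ψ b) := by
  refine relb_comap p.cor (fun a _ h => h.1) ?_ hP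
  intro a ha h b hb h' hab
  refine Cor.inj hk hl hR h.2.1 h'.2.1 ha hb h.1 h.2.2 ?_
  rw [hab]
  exact h'.2.2

/-- value of the functional at the corresponding point. -/
theorem Cor.relb_theta (hk : IsAlgClosed k) {s : K} {s' : L} (hR : Rt k l Θ s s')
    {e : ZMod ℓ} {b : K} (hb : b ∈ k) {β : L} (h : Cor k l Θ s s' e b β) :
    del ℓ l s' β (Θ (cl ℓ (s - b))) = e⁻¹ := by
  have h1 := h (cl ℓ (s - b)) (cl_mem_VS (sub_mem (mem_adj k s) (le_adj k s hb)))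
  rw [del_self hk hR.good hb] at h1
  exact eq_inv_of_mul_eq_one_right h1.symm

theorem Cor.relb_theta_ne (hk : IsAlgClosed k) {s : K} {s' : L} (hR : Rt k l Θ s s')
    {e : ZMod ℓ} (he : e ≠ 0) {b c : K} (hb : b ∈ k) (hc : c ∈ k) (hcb : c ≠ b) {β : L}
    (h : Cor k l Θ s s' e b β) : del ℓ l s' β (Θ (cl ℓ (s - c))) = 0 := by
  have h1 := h (cl ℓ (s - c)) (cl_mem_VS (sub_mem (mem_adj k s) (le_adj k s hc)))
  rw [del_ne hk hR.good hb hc hcb] at h1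
  exact (mul_eq_zero.1 h1.symm).resolve_left he

theorem Psi.relb_sum (hk : IsAlgClosed k) (hl : IsAlgClosed l) {s : K} {s' : L}
    (hR : Rt k l Θ s s') {ψ : K → L} {e : K → ZMod ℓ} {X : Finset L} (hX : ∀ x ∈ X, x ∈ l)
    (hX' : ∀ β ∈ l, β ∉ X → ∃ b ∈ k, ψ b = β ∧ e b ≠ 0 ∧ Cor k l Θ s s' (e b) b (ψ b))
    {b : K} (hb : b ∈ k) (hψ : ψ b ∈ l) [DecidableEq L] :
    Θ (cl ℓ (s - b)) = ∑ x ∈ insert (ψ b) X,
      del ℓ l s' x (Θ (cl ℓ (s - b))) • cl ℓ (s' - x) := by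
  have hmem : Θ (cl ℓ (s - b)) ∈ VS ℓ (adj l s') :=
    (hR.map _).2 (cl_mem_VS (sub_mem (mem_adj k s) (le_adj k s hb)))
  refine del_sum hl hR.good' hmem _ ?_ ?_
  · intro x hx
    rcases Finset.mem_insert.1 hx with rfl | hx
    · exact hψ
    · exact hX x hx
  · intro x hx hxS
    rw [Finset.mem_insert, not_or] at hxS
    obtain ⟨b₁, hb₁, h1, h2, h3⟩ := hX' x hx hxS.2
    rw [h1] at h3
    refine Cor.relb_theta_ne hk hR h2 hb₁ hb ?_ h3
    rintro rfl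
    exact hxS.1 h1.symm

end relb_psi

section relb_poly

variable {L : Type*} [Field L] [PerfectField L] {ℓ : ℕ} [Fact ℓ.Prime] [NeZero (ℓ : L)]
  {l : Subfield L}

theorem relb_aeval_mem {k : Subfield L} (x : L) (F : k[X]) : aeval x F ∈ adj k x :=
  adj0_le_adj k x (Vale.Agent.P019.relb_aeval_mem x F)

theorem relbF_of_mem (P Q : l[X]) {x : L} (hx : x ∈ l) :
    relbF P Q x = P - C (⟨x, hx⟩ : l) * Q := by
  unfold relbF
  rw [dif_pos hx]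

theorem relbF_aeval (P Q : l[X]) {x : L} (hx : x ∈ l) (s : L) :
    aeval s (relbF P Q x) = aeval s P - x * aeval s Q := by
  rw [relbF_of_mem P Q hx, map_sub, map_mul, aeval_C]
  rfl

variable (hl : IsAlgClosed l) {s' z' R : L} (hs' : s' ∉ l) (hz' : z' ∉ l)
  {W : ValuationSubring L} (hWs : TrivOn W (adj l s')) (hWz : TrivOn W (adj l z'))
  {P Q : l[X]} (hQ : Q ≠ 0) (hR : R = aeval s' P / aeval s' Q) (hW : W.valuation (z' - R) < 1)

include hWz hz' hW in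
theorem relb_ne {x : L} (hx : x ∈ l) : R ≠ x := by
  rintro rfl
  have h1 : z' - R ∈ adj l z' := sub_mem (mem_adj l z') (le_adj l z' hx)
  have h2 := hWz.eq_zero h1 hW
  rw [sub_eq_zero] at h2
  rw [h2] at hz'
  exact hz' hx

include hl hs' hWz hz' hQ hR hW in
theorem relbF_ne {x : L} (hx : x ∈ l) : relbF P Q x ≠ 0 := by
  intro h
  have h1 := relbF_aeval P Q hx s'
  rw [h, map_zero] at h1
  have h2 : aeval s' Q ≠ 0 := line_aeval_ne hl hs' hQ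
  apply relb_ne hz' hWz hW hx
  rw [hR, div_eq_iff h2]
  exact (sub_eq_zero.1 h1.symm)

include hl hs' hWz hz' hQ hR hW in
theorem relb_U1 {x : L} (hx : x ∈ l) :
    cl ℓ (z' - x) - (cl ℓ (aeval s' (relbF P Q x)) - cl ℓ (aeval s' Q)) ∈ U1 ℓ W := by
  have h2 : aeval s' Q ≠ 0 := line_aeval_ne hl hs' hQ
  have h3 : aeval s' (relbF P Q x) ≠ 0 :=
    line_aeval_ne hl hs' (relbF_ne hl hs' hz' hWz hQ hR hW hx)
  have h4 : R - x = aeval s' (relbF P Q x) / aeval s' Q := by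
    rw [relbF_aeval P Q hx, hR]
    field_simp
  have h5 : z' - x ≠ 0 := by
    intro h
    rw [sub_eq_zero] at h
    rw [h] at hz'
    exact hz' hx
  have h6 : W.valuation (z' - x) = 1 :=
    hWz.eq_one (sub_mem (mem_adj l z') (le_adj l z' hx)) h5
  rw [← cl_div ℓ h3 h2, ← h4, ← neg_mem_iff, neg_sub]
  refine cl_sub_cl_mem_U1 h6 ?_
  have : R - x - (z' - x) = -(z' - R) := by ring
  rw [this, Valuation.map_neg]
  exact hW

include hl hs' hWz hz' hQ hR hW in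
/-- the congruence for sums. -/
theorem relb_sum_U1 (S : Finset L) (hS : ∀ x ∈ S, x ∈ l) (n : L → ZMod ℓ) :
    ∑ x ∈ S, n x • cl ℓ (z' - x) -
      ∑ x ∈ S, n x • (cl ℓ (aeval s' (relbF P Q x)) - cl ℓ (aeval s' Q)) ∈ U1 ℓ W := by
  rw [← Finset.sum_sub_distrib]
  refine sum_mem fun x hx => ?_
  rw [← smul_sub]
  exact Submodule.smul_mem _ _ (relb_U1 hl hs' hz' hWz hQ hR hW (hS x hx))

theorem relb_sum_VS (S : Finset L) (n : L → ZMod ℓ) (P Q : l[X]) (s' : L) :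
    ∑ x ∈ S, n x • (cl ℓ (aeval s' (relbF P Q x)) - cl ℓ (aeval s' Q)) ∈ VS ℓ (adj l s') :=
  sum_mem fun _ _ => Submodule.smul_mem _ _ (sub_mem (cl_mem_VS (relb_aeval_mem s' _))
    (cl_mem_VS (relb_aeval_mem s' _)))

include hl hs' hWz hz' hQ hR hW in
/-- value of the functionals. -/
theorem relb_del (hg : Good l s') {β : L} (hβ : β ∈ l) {x : L} (hx : x ∈ l) :
    del ℓ l s' β (cl ℓ (aeval s' (relbF P Q x)) - cl ℓ (aeval s' Q)) =
      ((relbF P Q x).rootMultiplicity ⟨β, hβ⟩ : ZMod ℓ) -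
        (Q.rootMultiplicity ⟨β, hβ⟩ : ZMod ℓ) := by
  rw [map_sub]
  have h1 := del_aeval (ℓ := ℓ) hl hg (b := ⟨β, hβ⟩)
    (relbF_ne hl hs' hz' hWz hQ hR hW hx)
  have h2 := del_aeval (ℓ := ℓ) hl hg (b := ⟨β, hβ⟩) hQ
  rw [← h1, ← h2]

/-- almost all points are not roots of a given polynomial. -/
theorem relb_root_ae {F : l[X]} (hF : F ≠ 0) :
    ∀ᶠ β in ae l, ∀ h : β ∈ l, F.rootMultiplicity ⟨β, h⟩ = 0 ∧ F.eval ⟨β, h⟩ ≠ 0 := by
  classical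
  rw [ae_iff]
  refine ((F.roots.toFinset.finite_toSet).image (Subtype.val : l → L)).subset ?_
  rintro β ⟨hβ, h⟩
  refine ⟨⟨β, hβ⟩, ?_, rfl⟩
  rw [Finset.mem_coe, Multiset.mem_toFinset, mem_roots hF]
  by_contra hcon
  apply h
  intro _
  exact ⟨rootMultiplicity_eq_zero hcon, hcon⟩

end relb_poly

/-- multiplicity of the root of a twisted linear polynomial. -/
theorem relb_mult {l : Type*} [Field l] {j : ℕ} {a b c : l} (ha : a ≠ 0)
    (h : (C a * X ^ (ringExpChar l) ^ j + C b : l[X]).eval c = 0) :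
    (C a * X ^ (ringExpChar l) ^ j + C b : l[X]).rootMultiplicity c = (ringExpChar l) ^ j := by
  have h1 : b = -(a * c ^ (ringExpChar l) ^ j) := by
    simp only [eval_add, eval_mul, eval_C, eval_pow, eval_X] at h
    linear_combination h
  haveI : ExpChar l[X] (ringExpChar l) := expChar_of_injective_ringHom (C_injective (R := l)) _
  have h2 : (C a * X ^ (ringExpChar l) ^ j + C b : l[X]) =
      C a * (X - C c) ^ (ringExpChar l) ^ j := by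
    rw [sub_pow_expChar_pow, h1, mul_sub, C_neg, C_mul, C_pow]
    ring
  have h3 : (C a * (X - C c) ^ (ringExpChar l) ^ j : l[X]) ≠ 0 :=
    mul_ne_zero (C_ne_zero.2 ha) (pow_ne_zero _ (X_sub_C_ne_zero c))
  rw [h2, rootMultiplicity_mul h3, rootMultiplicity_C, zero_add, rootMultiplicity_X_sub_C_pow]

variable {K L : Type*} [Field K] [Field L] [PerfectField K] [PerfectField L] {ℓ : ℕ}
  [Fact ℓ.Prime] [NeZero (ℓ : K)] [NeZero (ℓ : L)]
  {k : Subfield K} {l : Subfield L} {Θ : V ℓ K ≃ₗ[ZMod ℓ] V ℓ L}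

/-- one generic point. -/
theorem relb_point (hk : IsAlgClosed k) (hl : IsAlgClosed l) {s z : K} {s' z' : L}
    (hs : Rt k l Θ s s') (hz : Rt k l Θ z z') {ψz : K → L} {ez : K → ZMod ℓ}
    {W : ValuationSubring L} (hWz : TrivOn W (adj l z'))
    {P Q : l[X]} {R : L} (hQ : Q ≠ 0) (hR : R = aeval s' P / aeval s' Q)
    (hW : W.valuation (z' - R) < 1) {Xz : Finset L} (hXz : ∀ x ∈ Xz, x ∈ l)
    (hXz' : ∀ β ∈ l, β ∉ Xz → ∃ b ∈ k, ψz b = β ∧ ez b ≠ 0 ∧ Cor k l Θ z z' (ez b) b (ψz b))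
    {b c : K} (hb : b ∈ k) (hc : c ∈ k)
    (hU : Θ (cl ℓ (s - b)) - Θ (cl ℓ (z - c)) ∈ U1 ℓ W)
    {e : ZMod ℓ} {β : L} (hβ : β ∈ l) (hcor : Cor k l Θ s s' e b β)
    (hβ' : ψz c ∈ l) (hcor' : Cor k l Θ z z' (ez c) c (ψz c))
    (h1 : ∀ y ∈ (U1 ℓ W ⊓ VS ℓ (adj l s') : Submodule (ZMod ℓ) (V ℓ L)), del ℓ l s' β y = 0)
    (h2 : Q.rootMultiplicity ⟨β, hβ⟩ = 0)
    (h3 : ∀ x ∈ Xz, (relbF P Q x).rootMultiplicity ⟨β, hβ⟩ = 0) :
    e⁻¹ = (ez c)⁻¹ * ((relbF P Q (ψz c)).rootMultiplicity ⟨β, hβ⟩ : ZMod ℓ) := by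
  classical
  have hs'l : s' ∉ l := hs.good'.1
  have hz'l : z' ∉ l := hz.good'.1
  set n : L → ZMod ℓ := fun x => del ℓ l z' x (Θ (cl ℓ (z - c))) with hn
  have hw : Θ (cl ℓ (z - c)) = ∑ x ∈ insert (ψz c) Xz, n x • cl ℓ (z' - x) :=
    Psi.relb_sum hk hl hz hXz hXz' hc hβ'
  have hSl : ∀ x ∈ insert (ψz c) Xz, x ∈ l := by
    intro x hx
    rcases Finset.mem_insert.1 hx with rfl | hx
    · exact hβ'
    · exact hXz x hx
  have h4 := relb_sum_U1 (ℓ := ℓ) hl hs'l hz'l hWz hQ hR hW _ hSl n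
  rw [← hw] at h4
  have h5 := add_mem hU h4
  rw [sub_add_sub_cancel] at h5
  have h6 : Θ (cl ℓ (s - b)) - ∑ x ∈ insert (ψz c) Xz,
      n x • (cl ℓ (aeval s' (relbF P Q x)) - cl ℓ (aeval s' Q)) ∈ VS ℓ (adj l s') :=
    sub_mem ((hs.map _).2 (cl_mem_VS (sub_mem (mem_adj k s) (le_adj k s hb))))
      (relb_sum_VS _ n P Q s')
  have h7 := h1 _ ⟨h5, h6⟩
  rw [map_sub, Cor.relb_theta hk hs hb hcor, map_sum, sub_eq_zero] at h7
  rw [h7, Finset.sum_eq_single (ψz c)]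
  · rw [map_smul, relb_del hl hs'l hz'l hWz hQ hR hW hs.good' hβ hβ', h2, Nat.cast_zero,
      sub_zero, smul_eq_mul]
    congr 1
    exact Cor.relb_theta hk hz hc hcor'
  · intro x hx hxc
    have hxX : x ∈ Xz := (Finset.mem_insert.1 hx).resolve_left hxc
    rw [map_smul, relb_del hl hs'l hz'l hWz hQ hR hW hs.good' hβ (hXz x hxX), h2, h3 x hxX]
    simp
  · intro h
    exact absurd (Finset.mem_insert_self _ _) h

/-- the relation on one fibre, for a coordinate of which `z'` is a rational function. -/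
theorem Hyp.relb_at0 (H : Hyp ℓ k l Θ) {s z : K} {s' z' : L} (hs : Rt k l Θ s s')
    (hz : Rt k l Θ z z') {ψs ψz : K → L} {es ez : K → ZMod ℓ} (ps : Psi k l Θ s s' ψs es)
    (pz : Psi k l Θ z z' ψz ez) {μ : K → K} (hμ : ∀ b ∈ k, μ b ∈ k)
    (hμi : ∀ b ∈ k, ∀ b' ∈ k, μ b = μ b' → b = b')
    {W : ValuationSubring L} (hWs : TrivOn W (adj l s')) (hWz : TrivOn W (adj l z'))
    (hfin : ((U1 ℓ W ⊓ VS ℓ (adj l s') : Submodule (ZMod ℓ) (V ℓ L)) : Set (V ℓ L)).Finite)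
    {R : L} (hWR : W.valuation (z' - R) < 1) {P Q : l[X]} (hcop : IsCoprime P Q) (hQ0 : Q ≠ 0)
    (hR : R = aeval s' P / aeval s' Q)
    (hU : ∀ b ∈ k, Θ (cl ℓ (s - b)) - Θ (cl ℓ (z - μ b)) ∈ U1 ℓ W) :
    ∃ j : ℕ, ∃ A ∈ l, ∃ B ∈ l, ∃ C ∈ l, ∃ D ∈ l, A * D - B * C ≠ 0 ∧
      (∀ᶠ b in ae k, ψz (μ b) * (C * ψs b ^ (ringExpChar L) ^ j + D) =
          A * ψs b ^ (ringExpChar L) ^ j + B ∧
        ez (μ b) = (((ringExpChar L) ^ j : ℕ) : ZMod ℓ) * es b) ∧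
      W.valuation (z' * (C * s' ^ (ringExpChar L) ^ j + D) -
        (A * s' ^ (ringExpChar L) ^ j + B)) < 1 := by
  classical
  have hk := H.ack
  have hl := H.acl
  have hs'l : s' ∉ l := hs.good'.1
  have hz'l : z' ∉ l := hz.good'.1
  -- the exceptional points
  set Xz : Finset L := (ae_iff.1 pz.surj).toFinset with hXzd
  have hXz : ∀ x ∈ Xz, x ∈ l := fun x hx => ((Set.Finite.mem_toFinset _).1 hx).1
  have hXz' : ∀ β ∈ l, β ∉ Xz →
      ∃ b ∈ k, ψz b = β ∧ ez b ≠ 0 ∧ Cor k l Θ z z' (ez b) b (ψz b) := by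
    intro β hβ h
    by_contra hcon
    exact h ((Set.Finite.mem_toFinset _).2 ⟨hβ, hcon⟩)
  have c1 : ∀ᶠ β in ae l, ∀ y ∈ ((U1 ℓ W ⊓ VS ℓ (adj l s') : Submodule (ZMod ℓ) (V ℓ L)) :
      Set (V ℓ L)), del ℓ l s' β y = 0 :=
    (eventually_all_finite hfin).2 fun y hy => del_ae hl hs.good' hy.2
  have c2 := relb_root_ae hQ0
  have c3 : ∀ᶠ β in ae l, ∀ x ∈ Xz, ∀ h : β ∈ l,
      (relbF P Q x).rootMultiplicity ⟨β, h⟩ = 0 ∧ (relbF P Q x).eval ⟨β, h⟩ ≠ 0 :=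
    (eventually_all_finset Xz).2 fun x hx =>
      relb_root_ae (relbF_ne hl hs'l hz'l hWz hQ0 hR hWR (hXz x hx))
  have c5 : ∀ᶠ b in ae k, ψz (μ b) ∈ l ∧ ez (μ b) ≠ 0 ∧
      Cor k l Θ z z' (ez (μ b)) (μ b) (ψz (μ b)) :=
    relb_comap (l := k) (f := μ) (G := fun _ => True) (Eventually.of_forall fun _ => trivial)
      (fun a ha _ => hμ a ha) (fun a ha _ b hb _ h => hμi a ha b hb h) pz.cor
  -- the generic points
  have key : ∀ᶠ b in ae k, b ∈ k ∧ (es b ≠ 0 ∧ Cor k l Θ s s' (es b) b (ψs b)) ∧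
      (ez (μ b) ≠ 0 ∧ Cor k l Θ z z' (ez (μ b)) (μ b) (ψz (μ b))) ∧
      ∃ (h : ψs b ∈ l) (h' : ψz (μ b) ∈ l), P.eval ⟨ψs b, h⟩ =
        ⟨ψz (μ b), h'⟩ * Q.eval ⟨ψs b, h⟩ ∧ Q.eval ⟨ψs b, h⟩ ≠ 0 ∧
        (es b)⁻¹ = (ez (μ b))⁻¹ *
          ((relbF P Q (ψz (μ b))).rootMultiplicity ⟨ψs b, h⟩ : ZMod ℓ) := by
    filter_upwards [ae_mem k, ps.cor, Psi.relb_pull hk hl hs ps (c1.and (c2.and c3)), c5]
      with b hb hcor hgen hz5
    obtain ⟨hβ, hes, hcs⟩ := hcor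
    obtain ⟨g1, g2, g3⟩ := hgen
    obtain ⟨hβ', hez, hcz⟩ := hz5
    refine ⟨hb, ⟨hes, hcs⟩, ⟨hez, hcz⟩, hβ, hβ', ?_⟩
    have h1 := relb_point hk hl hs hz hWz hQ0 hR hWR hXz hXz' hb (hμ b hb) (hU b hb) hβ
      hcs hβ' hcz g1 (g2 hβ).1 (fun x hx => (g3 x hx hβ).1)
    have h2 : (relbF P Q (ψz (μ b))).rootMultiplicity ⟨ψs b, hβ⟩ ≠ 0 := by
      intro h
      rw [h, Nat.cast_zero, mul_zero] at h1
      exact inv_ne_zero hes h1
    have h3 : (relbF P Q (ψz (μ b))).eval ⟨ψs b, hβ⟩ = 0 := by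
      have h4 := (rootMultiplicity_pos (relbF_ne hl hs'l hz'l hWz hQ0 hR hWR hβ')).1
        (Nat.pos_of_ne_zero h2)
      exact h4
    refine ⟨?_, (g2 hβ).2, h1⟩
    rw [relbF_of_mem P Q hβ', eval_sub, eval_mul, eval_C, sub_eq_zero] at h3
    exact h3
  -- the set of generic points is cofinite
  set S : Set l := {x | ∃ b ∈ k, (es b ≠ 0 ∧ Cor k l Θ s s' (es b) b (ψs b)) ∧
      (ez (μ b) ≠ 0 ∧ Cor k l Θ z z' (ez (μ b)) (μ b) (ψz (μ b))) ∧ ψs b = x ∧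
      ∃ (h : ψs b ∈ l) (h' : ψz (μ b) ∈ l), P.eval ⟨ψs b, h⟩ =
        ⟨ψz (μ b), h'⟩ * Q.eval ⟨ψs b, h⟩ ∧ Q.eval ⟨ψs b, h⟩ ≠ 0} with hSd
  have hSfin : Sᶜ.Finite := by
    have f1 := ae_iff.1 ps.surj
    have f2 := ae_iff.1 key
    refine Set.Finite.of_finite_image (f := (Subtype.val : l → L))
      ((f1.union (f2.image ψs)).subset ?_) Subtype.val_injective.injOn
    rintro _ ⟨x, hx, rfl⟩
    by_contra hcon
    rw [Set.mem_union, not_or] at hcon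
    obtain ⟨n1, n2⟩ := hcon
    have n3 : ∃ b ∈ k, ψs b = x ∧ es b ≠ 0 ∧ Cor k l Θ s s' (es b) b (ψs b) := by
      by_contra h
      exact n1 ⟨x.2, h⟩
    obtain ⟨b, hb, hbx, -, -⟩ := n3
    have n4 : b ∈ k ∧ (es b ≠ 0 ∧ Cor k l Θ s s' (es b) b (ψs b)) ∧
      (ez (μ b) ≠ 0 ∧ Cor k l Θ z z' (ez (μ b)) (μ b) (ψz (μ b))) ∧
      ∃ (h : ψs b ∈ l) (h' : ψz (μ b) ∈ l), P.eval ⟨ψs b, h⟩ =
        ⟨ψz (μ b), h'⟩ * Q.eval ⟨ψs b, h⟩ ∧ Q.eval ⟨ψs b, h⟩ ≠ 0 ∧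
        (es b)⁻¹ = (ez (μ b))⁻¹ *
          ((relbF P Q (ψz (μ b))).rootMultiplicity ⟨ψs b, h⟩ : ZMod ℓ) := by
      by_contra h
      exact n2 ⟨b, ⟨hb, h⟩, hbx⟩
    obtain ⟨-, m1, m2, h, h', m3, m4, -⟩ := n4
    exact hx ⟨b, hb, m1, m2, hbx, h, h', m3, m4⟩
  have hinj : ∀ x ∈ S, ∀ y ∈ S, P.eval x * Q.eval y = P.eval y * Q.eval x → x = y := by
    rintro x ⟨b, hb, u1, u2, hbx, h, h', u3, u4⟩ y ⟨b', hb', v1, v2, hby, i, i', v3, v4⟩ hxy
    have hx : x = ⟨ψs b, h⟩ := Subtype.ext hbx.symm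
    have hy : y = ⟨ψs b', i⟩ := Subtype.ext hby.symm
    rw [hx, hy, u3, v3] at hxy
    have w1 : (⟨ψz (μ b), h'⟩ : l) = ⟨ψz (μ b'), i'⟩ := by
      have w2 : (⟨ψz (μ b), h'⟩ : l) * (Q.eval ⟨ψs b, h⟩ * Q.eval ⟨ψs b', i⟩) =
          ⟨ψz (μ b'), i'⟩ * (Q.eval ⟨ψs b, h⟩ * Q.eval ⟨ψs b', i⟩) := by
        linear_combination hxy
      exact mul_right_cancel₀ (mul_ne_zero u4 v4) w2
    have w3 : ψz (μ b) = ψz (μ b') := congrArg Subtype.val w1
    have w4 : μ b = μ b' := by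
      refine Cor.inj hk hl hz u2.1 v2.1 (hμ b hb) (hμ b' hb') h' u2.2 ?_
      rw [w3]
      exact v2.2
    rw [hx, hy]
    rw [Subtype.mk.injEq, hμi b hb b' hb' w4]
  haveI : IsAlgClosed l := hl
  have hq : ringExpChar l = ringExpChar L := ringExpChar.eq l (ringExpChar L)
  obtain ⟨j, A, B, C', D, hdet, hP, hQ⟩ := mob_of_inj P Q hcop S hSfin hinj
  have eP : ∀ x : L, ∀ hx : x ∈ l, ((P.eval ⟨x, hx⟩ : l) : L) =
      A * x ^ (ringExpChar L) ^ j + B := by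
    intro x hx
    rw [hP, hq]
    simp
  have eQ : ∀ x : L, ∀ hx : x ∈ l, ((Q.eval ⟨x, hx⟩ : l) : L) =
      C' * x ^ (ringExpChar L) ^ j + D := by
    intro x hx
    rw [hQ, hq]
    simp
  have aP : aeval s' P = A * s' ^ (ringExpChar L) ^ j + B := by
    rw [hP, hq, map_add, map_mul, aeval_C, aeval_C, map_pow, aeval_X]
    rfl
  have aQ : aeval s' Q = C' * s' ^ (ringExpChar L) ^ j + D := by
    rw [hQ, hq, map_add, map_mul, aeval_C, aeval_C, map_pow, aeval_X]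
    rfl
  refine ⟨j, A, A.2, B, B.2, C', C'.2, D, D.2, ?_, ?_, ?_⟩
  · intro h
    apply hdet
    apply Subtype.ext
    exact h
  · filter_upwards [key] with b hb
    obtain ⟨-, hes, hez, h, h', m3, -, m5⟩ := hb
    constructor
    · have m6 := congrArg (Subtype.val : l → L) m3
      rw [eP] at m6
      rw [m6]
      change _ = (ψz (μ b)) * ((Q.eval ⟨ψs b, h⟩ : l) : L)
      rw [eQ]
    · have hF : relbF P Q (ψz (μ b)) = Polynomial.C (A - ⟨ψz (μ b), h'⟩ * C') *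
          X ^ (ringExpChar l) ^ j + Polynomial.C (B - ⟨ψz (μ b), h'⟩ * D) := by
        rw [relbF_of_mem P Q h', hP, hQ]
        simp only [map_sub, map_mul]
        ring
      have hF0 := relbF_ne hl hs'l hz'l hWz hQ0 hR hWR h'
      have hFe : (relbF P Q (ψz (μ b))).eval ⟨ψs b, h⟩ = 0 := by
        rw [relbF_of_mem P Q h', eval_sub, eval_mul, eval_C, sub_eq_zero]
        exact m3
      have ha : A - ⟨ψz (μ b), h'⟩ * C' ≠ 0 := by
        intro ha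
        rw [hF, ha, map_zero, zero_mul, zero_add] at hFe hF0
        rw [eval_C] at hFe
        rw [hFe, map_zero] at hF0
        exact hF0 rfl
      rw [hF] at hFe
      have hm := relb_mult ha hFe
      rw [hF, hm, hq] at m5
      have n1 := hes.1
      have n2 := hez.1
      field_simp at m5
      rw [m5]
      ring
  · have hQs : aeval s' Q ≠ 0 := line_aeval_ne hl hs'l hQ0
    have h1 : z' * (C' * s' ^ (ringExpChar L) ^ j + D) -
        (A * s' ^ (ringExpChar L) ^ j + B) = aeval s' Q * (z' - R) := by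
      rw [← aP, ← aQ, hR]
      field_simp
    rw [h1, map_mul, hWs.eq_one (relb_aeval_mem s' Q) hQs, one_mul]
    exact hWR

/-- the relation on one fibre. -/
theorem Hyp.relb_at (H : Hyp ℓ k l Θ) {s z : K} {s' z' : L} (hs : Rt k l Θ s s')
    (hz : Rt k l Θ z z') {ψs ψz : K → L} {es ez : K → ZMod ℓ} (ps : Psi k l Θ s s' ψs es)
    (pz : Psi k l Θ z z' ψz ez) {μ : K → K} (hμ : ∀ b ∈ k, μ b ∈ k)
    (hμi : ∀ b ∈ k, ∀ b' ∈ k, μ b = μ b' → b = b') {G' : Subfield L} (hlG : l ≤ G')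
    (hfg : FG l G') (hss : ¬ IsAlgebraic G' s') {W : ValuationSubring L} {π θ : L}
    (hW : Nice W (adj G' s') π θ) (hWz : TrivOn W (adj l z'))
    (hV : VS ℓ (adj l z') ≤ VS ℓ (adj l s') ⊔ U1 ℓ W)
    (hU : ∀ b ∈ k, Θ (cl ℓ (s - b)) - Θ (cl ℓ (z - μ b)) ∈ U1 ℓ W) :
    ∃ i j : ℕ, ∃ A ∈ l, ∃ B ∈ l, ∃ C ∈ l, ∃ D ∈ l, A * D - B * C ≠ 0 ∧
      (∀ᶠ b in ae k, ψz (μ b) ^ (ringExpChar L) ^ i * (C * ψs b ^ (ringExpChar L) ^ j + D) =
          A * ψs b ^ (ringExpChar L) ^ j + B ∧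
        (((ringExpChar L) ^ i : ℕ) : ZMod ℓ) * ez (μ b) =
          (((ringExpChar L) ^ j : ℕ) : ZMod ℓ) * es b) ∧
      W.valuation (z' ^ (ringExpChar L) ^ i * (C * s' ^ (ringExpChar L) ^ j + D) -
        (A * s' ^ (ringExpChar L) ^ j + B)) < 1 := by
  have hk := H.ack
  have hl := H.acl
  have hs'l : s' ∉ l := hs.good'.1
  have hWs : TrivOn W (adj l s') := hW.triv.mono (adj_mono hlG s')
  obtain ⟨R, hRmem, hWR⟩ := core hl hlG hfg hss hW (le_adj l z') hWz hV z' (mem_adj l z')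
  obtain ⟨n, y, P, Q, hy, hcop, hQ0, hR⟩ := relb_coprime hl hs'l hRmem
  have hfin : ((U1 ℓ W ⊓ VS ℓ (adj l s') : Submodule (ZMod ℓ) (V ℓ L)) : Set (V ℓ L)).Finite :=
    hW.finite hl (hlG.trans (le_adj G' s')) (hfg.adj s') (le_adj l s') hWs
  have hadj : adj l s' = adj l y := by rw [← hy, adj_pow]
  rw [hadj] at hWs hfin
  obtain ⟨ψ', hψ', ps'⟩ := ps.root hk hl hs hy
  obtain ⟨j, A, hA, B, hB, C', hC, D, hD, hdet, hgen, hval⟩ := H.relb_at0 (hs.root hl hy) hz ps'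
    pz hμ hμi hWs hWz hfin hWR hcop hQ0 hR hU
  have hq := q_pow_ne_zero ℓ L n
  have hcomm : ∀ x : L, (x ^ (ringExpChar L) ^ j) ^ (ringExpChar L) ^ n =
      (x ^ (ringExpChar L) ^ n) ^ (ringExpChar L) ^ j := by
    intro x
    rw [← pow_mul, ← pow_mul, mul_comm]
  refine ⟨n, j, A ^ (ringExpChar L) ^ n, l.pow_mem hA _, B ^ (ringExpChar L) ^ n,
    l.pow_mem hB _, C' ^ (ringExpChar L) ^ n, l.pow_mem hC _, D ^ (ringExpChar L) ^ n,
    l.pow_mem hD _, ?_, ?_, ?_⟩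
  · rw [← mul_pow, ← mul_pow, ← sub_pow_q]
    exact pow_ne_zero _ hdet
  · filter_upwards [hgen] with b hb
    obtain ⟨h1, h2⟩ := hb
    constructor
    · have h3 := congrArg (fun x => x ^ (ringExpChar L) ^ n) h1
      simp only [mul_pow, add_pow_q, hcomm, hψ'] at h3
      exact h3
    · rw [h2]
      field_simp
  · have h3 : z' ^ (ringExpChar L) ^ n *
        (C' ^ (ringExpChar L) ^ n * s' ^ (ringExpChar L) ^ j + D ^ (ringExpChar L) ^ n) -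
        (A ^ (ringExpChar L) ^ n * s' ^ (ringExpChar L) ^ j + B ^ (ringExpChar L) ^ n) =
        (z' * (C' * y ^ (ringExpChar L) ^ j + D) -
          (A * y ^ (ringExpChar L) ^ j + B)) ^ (ringExpChar L) ^ n := by
      simp only [sub_pow_q, mul_pow, add_pow_q, hcomm, hy]
    rw [h3, map_pow]
    exact pow_lt_one₀ zero_le hval (pow_pos (expChar_pos L _) n).ne'

/-- the Moebius relation on the fibres. -/
theorem Hyp.rel (H : Hyp ℓ k l Θ) {t s z : K} {t' s' z' : L}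
    (hts : ¬ IsAlgebraic (adj k s) t) (ht : Rt k l Θ t t') (hs : Rt k l Θ s s')
    (hz : Rt k l Θ z z') {m : K → K → K} (hm : Shift ℓ k t s z m) {ψt ψs ψz : K → L}
    {et es ez : K → ZMod ℓ} (pt : Psi k l Θ t t' ψt et) (ps : Psi k l Θ s s' ψs es)
    (pz : Psi k l Θ z z' ψz ez) :
    ∃ G' : Subfield L, Frame l G' t' s' ∧ ∀ᶠ a in ae k,
      ∃ i j : ℕ, ∃ A ∈ l, ∃ B ∈ l, ∃ C ∈ l, ∃ D ∈ l, A * D - B * C ≠ 0 ∧
        (∀ᶠ b in ae k,
          ψz (m a b) ^ (ringExpChar L) ^ i * (C * ψs b ^ (ringExpChar L) ^ j + D) =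
            A * ψs b ^ (ringExpChar L) ^ j + B ∧
          (((ringExpChar L) ^ i : ℕ) : ZMod ℓ) * ez (m a b) =
            (((ringExpChar L) ^ j : ℕ) : ZMod ℓ) * es b) ∧
        ∃ W : ValuationSubring L, Over W (adj G' s') t' (ψt a) ∧
          W.valuation (z' ^ (ringExpChar L) ^ i * (C * s' ^ (ringExpChar L) ^ j + D) -
            (A * s' ^ (ringExpChar L) ^ j + B)) < 1 := by
  have hk := H.ack
  have hl := H.acl
  have hRl : RAC l := RAC_of_isAlgClosed l hl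
  have hs'l : s' ∉ l := hs.good'.1
  have ht'l : t' ∉ l := ht.good'.1
  -- `t'` and `s'` are independent
  have ht's' : ¬ IsAlgebraic (adj l s') t' := by
    intro h
    have h1 : t' ∈ adj l s' := hs.good'.2 t' h
    have h2 : adj l t' = adj l s' :=
      Crv.eq hRl (Crv.of_good ht.good') (Crv.of_good hs.good') (mem_adj l t') h1 ht'l
    exact H.crv_ne hs.good.1 hts ht.map hs.map h2
  obtain ⟨G', hfr⟩ := exists_frame H.fgl (fun h => hs'l (hRl _ h)) ht's'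
  refine ⟨G', hfr, ?_⟩
  obtain ⟨θ, hθ⟩ := hfr.nice H.fgl
  have hlF : l ≤ adj G' s' := hfr.le.trans (le_adj G' s')
  have hθ' := (ae_mono hlF) hθ
  filter_upwards [ae_mem k, pt.cor, Psi.relb_pull hk hl ht pt hθ', hm.ev] with a ha hcor hnice hev
  obtain ⟨hα, he, hc⟩ := hcor
  obtain ⟨hinj, hsurj, hO⟩ := hev
  obtain ⟨W, hWo⟩ := exists_over hfr.tt (hlF hα)
  have hW : Nice W (adj G' s') (t' - ψt a) θ := hnice W hWo
  have hfgF : FG l (adj G' s') := hfr.fg.adj s'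
  have hWs : TrivOn W (adj l s') := hW.triv.mono (adj_mono hfr.le s')
  have hWl : TrivOn W l := hW.triv.mono hlF
  obtain ⟨O, hOk, hT⟩ := H.symm.exists_tr hlF hfgF hW hs.good' hWs
  have hys : ∀ v ∈ VS ℓ (adj l s'), Θ.symm v ∈ VS ℓ (adj k s) := by
    intro v hv
    refine (hs.map _).1 ?_
    rwa [LinearEquiv.apply_symm_apply]
  have hOs : TrivOn O (adj k s) :=
    H.symm.triv_crv hlF hfgF hW hOk hT hs'l hWs (Crv.of_good hs.good) hys
  have hcen : O.valuation (t - a) < 1 := H.centre ht ha hα he hc hWl hW.unif hOk hT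
  have hU := hO O hOs hcen
  have hUL : ∀ b ∈ k, Θ (cl ℓ (s - b)) - Θ (cl ℓ (z - m a b)) ∈ U1 ℓ W := by
    intro b hb
    rw [← map_sub]
    refine (hT.iff _).1 ?_
    rw [LinearEquiv.symm_apply_apply]
    exact hU b hb
  have hV1 : VS ℓ (adj k s) ≤ VS ℓ (adj k z) ⊔ U1 ℓ O :=
    VS_le_of_shift hk hs.good.1 (m a) (fun b hb => hm.mem a ha b hb) hU
  have hV2 : VS ℓ (adj k z) ≤ VS ℓ (adj k s) ⊔ U1 ℓ O := by
    have h1 : ∀ c : K, ∃ b : K, c ∈ k → b ∈ k ∧ m a b = c := by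
      intro c
      by_cases hc : c ∈ k
      · obtain ⟨b, hb, h⟩ := hsurj c hc
        exact ⟨b, fun _ => ⟨hb, h⟩⟩
      · exact ⟨0, fun h => absurd h hc⟩
    choose m' hm' using h1
    refine VS_le_of_shift hk hz.good.1 m' (fun c hc => (hm' c hc).1) ?_
    intro c hc
    have h2 := hU (m' c) (hm' c hc).1
    rw [(hm' c hc).2] at h2
    rw [← neg_mem_iff, neg_sub]
    exact h2
  obtain ⟨hWz, hV⟩ := H.symm.rat_of hfr.le hfr.fg hW hT hs.good.1 hV2 hV1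
    (fun v hv => (hs.map v).2 hv) (Crv.of_good hz.good') hz.map
  obtain ⟨i, j, A, hA, B, hB, C', hC, D, hD, hdet, hgen, hval⟩ := H.relb_at hs hz ps pz
    (μ := m a) (fun b hb => hm.mem a ha b hb) hinj hfr.le hfr.fg hfr.ss hW hWz hV hUL
  exact ⟨i, j, A, hA, B, hB, C', hC, D, hD, hdet, hgen, W, hWo, hval⟩

end Vale.Agent.P019P
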