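import Vale.Agent.P019.SigA
import Vale.Agent.P019P.RelB

/-!
# Normalized coordinates (perfect version)

`IsoOn` and its lemmas `IsoOn.zero`, `neg`, `sub`, `ne_zero`, `inj` are those of the old file.
-/

namespace Vale.Agent.P019P

open Vale.Agent.P019

set_option linter.style.haveILetI false
set_option linter.unusedSectionVars false

open Polynomial Filter

variable {K L : Type*} [Field K] [Field L]
  {ℓ : ℕ} {k : Subfield K} {l : Subfield L} {Θ : V ℓ K ≃ₗ[ZMod ℓ] V ℓ L}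

/-- `s'` is a coordinate for which the correspondence is `σ`, with variable coefficients. -/
structure Nv (k : Subfield K) (l : Subfield L) (Θ : V ℓ K ≃ₗ[ZMod ℓ] V ℓ L) (σ : K → L)
    (e : K → ZMod ℓ) (s : K) (s' : L) : Prop where
  rt : Rt k l Θ s s'
  cor : ∀ᶠ b in ae k, e b ≠ 0 ∧ Cor k l Θ s s' (e b) b (σ b)

/-- `s'` is the normalized coordinate corresponding to `s`. -/
structure Nm (k : Subfield K) (l : Subfield L) (Θ : V ℓ K ≃ₗ[ZMod ℓ] V ℓ L) (σ : K → L)
    (e : ZMod ℓ) (s : K) (s' : L) : Prop where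
  rt : Rt k l Θ s s'
  cor : ∀ᶠ b in ae k, Cor k l Θ s s' e b (σ b)

variable [PerfectField K] [PerfectField L] [Fact ℓ.Prime] [NeZero (ℓ : K)] [NeZero (ℓ : L)]

theorem Nv.psi {σ : K → L} (hσ : IsoOn k l σ) {e : K → ZMod ℓ} {s : K} {s' : L}
    (hk : IsAlgClosed k) (h : Nv k l Θ σ e s s') : Psi k l Θ s s' σ e := by
  refine ⟨?_, ?_⟩
  · filter_upwards [h.cor, ae_mem k] with b hb hbk
    exact ⟨hσ.mem b hbk, hb.1, hb.2⟩
  · have h1 := ae_iff.1 h.cor
    rw [ae_iff]
    refine (h1.image σ).subset ?_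
    rintro β ⟨hβ, hne⟩
    obtain ⟨b, hb, rfl⟩ := hσ.surj β hβ
    exact ⟨b, ⟨hb, fun hc => hne ⟨b, hb, rfl, hc.1, hc.2⟩⟩, rfl⟩

theorem Nm.psi {σ : K → L} (hσ : IsoOn k l σ) {e : ZMod ℓ} (he : e ≠ 0) {s : K} {s' : L}
    (h : Nm k l Θ σ e s s') : Psi k l Θ s s' σ (fun _ => e) := by
  refine ⟨?_, ?_⟩
  · filter_upwards [h.cor, ae_mem k] with b hb hbk
    exact ⟨hσ.mem b hbk, he, hb⟩
  · have h1 := ae_iff.1 h.cor
    rw [ae_iff]
    refine (h1.image σ).subset ?_
    rintro β ⟨hβ, hne⟩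
    obtain ⟨b, hb, rfl⟩ := hσ.surj β hβ
    exact ⟨b, ⟨hb, fun hc => hne ⟨b, hb, rfl, he, hc⟩⟩, rfl⟩

/-- a functional with the values of `del` on the generators agrees with `del`. -/
theorem sigA_del_congr (hl : IsAlgClosed l) {t : L} (ht : Good l t) {x : L} (hx : x ∈ l)
    (f : V ℓ L →ₗ[ZMod ℓ] ZMod ℓ) (h1 : f (cl ℓ (t - x)) = 1)
    (h0 : ∀ x' ∈ l, x' ≠ x → f (cl ℓ (t - x')) = 0) {v : V ℓ L} (hv : v ∈ VS ℓ (adj l t)) :
    f v = del ℓ l t x v := by
  obtain ⟨T, n, hT, rfl⟩ := adj_factor hl ht.1 hv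
  rw [map_sum, map_sum]
  refine Finset.sum_congr rfl ?_
  intro c hc
  rw [map_smul, map_smul]
  congr 1
  by_cases hcx : c = x
  · subst hcx
    rw [h1, del_self hl ht hx]
  · rw [h0 c (hT c hc) hcx, del_ne hl ht hx (hT c hc) hcx]

theorem sigAP_sub_ne {L : Type*} [Field L] {l : Subfield L} {t : L} (ht : t ∉ l) {c : L}
    (hc : c ∈ l) : t - c ≠ 0 := by
  intro h
  rw [sub_eq_zero] at h
  exact ht (h ▸ hc)

/-- scaling by a constant does not change the class. -/
theorem sigAP_cl_const_mul {L : Type*} [Field L] {l : Subfield L} {ℓ : ℕ} [Fact ℓ.Prime]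
    (hl : IsAlgClosed l) {a z : L} (ha : a ∈ l) (ha0 : a ≠ 0)
    (hz : z ≠ 0) : cl ℓ (a * z) = cl ℓ z := by
  rw [cl_mul ℓ ha0 hz, line_cl_const hl ha, zero_add]

/-- Moebius change of the coordinate. -/
theorem exists_Nv_of_mob (hk : IsAlgClosed k) (hl : IsAlgClosed l) {σ : K → L}
    (hσ : IsoOn k l σ) {e : K → ZMod ℓ} {s : K} {s' : L} (hR : Rt k l Θ s s')
    {A B C D : L} (hA : A ∈ l) (hB : B ∈ l) (hC : C ∈ l) (hD : D ∈ l) (hdet : A * D - B * C ≠ 0)
    {ψ : K → L} (hψ : ∀ᶠ b in ae k, ψ b ∈ l ∧ e b ≠ 0 ∧ Cor k l Θ s s' (e b) b (ψ b))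
    (hm : ∀ᶠ b in ae k, ψ b * (C * σ b + D) = A * σ b + B) : ∃ s₁', Nv k l Θ σ e s s₁' := by
  have hs' : s' ∉ l := hR.good'.1
  have hden : A - C * s' ≠ 0 := by
    intro h
    by_cases hC0 : C = 0
    · rw [hC0, zero_mul, sub_zero] at h
      rw [h, hC0] at hdet
      simp at hdet
    · apply hs'
      have : s' = A / C := by
        rw [eq_div_iff hC0, mul_comm]
        exact (sub_eq_zero.1 h).symm
      rw [this]
      exact l.div_mem hA hC
  set t := (D * s' - B) / (A - C * s') with ht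
  have htden : C * t + D ≠ 0 := by
    have : C * t + D = (A * D - B * C) / (A - C * s') := by
      rw [ht]
      field_simp
      ring
    rw [this]
    exact div_ne_zero hdet hden
  have htm : t * (A - C * s') = D * s' - B := div_mul_cancel₀ _ hden
  have hs't : s' = (A * t + B) / (C * t + D) := by
    rw [eq_div_iff htden]
    linear_combination (-1) * htm
  have hmem : t ∈ adj l s' := by
    have h1 : s' ∈ adj l s' := mem_adj l s'
    have h2 := le_adj l s'
    exact (adj l s').div_mem ((adj l s').sub_mem ((adj l s').mul_mem (h2 hD) h1) (h2 hB))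
      ((adj l s').sub_mem (h2 hA) ((adj l s').mul_mem (h2 hC) h1))
  have hmem' : s' ∈ adj l t := by
    have h1 : t ∈ adj l t := mem_adj l t
    have h2 := le_adj l t
    rw [hs't]
    exact (adj l t).div_mem ((adj l t).add_mem ((adj l t).mul_mem (h2 hA) h1) (h2 hB))
      ((adj l t).add_mem ((adj l t).mul_mem (h2 hC) h1) (h2 hD))
  have hadj : adj l t = adj l s' := le_antisymm (adj_le (le_adj l s') hmem)
    (adj_le (le_adj l t) hmem')
  have htl : t ∉ l := by
    intro h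
    apply hs'
    rw [hs't]
    exact l.div_mem (l.add_mem (l.mul_mem hA h) hB) (l.add_mem (l.mul_mem hC h) hD)
  have hgt : Good l t := ⟨htl, by rw [hadj]; exact hR.good'.2⟩
  have hRt : Rt k l Θ s t := ⟨hR.good, hgt, fun v => by rw [hadj]; exact hR.map v⟩
  refine ⟨t, hRt, ?_⟩
  filter_upwards [hψ, hm, ae_mem k] with b hb hmob hbk
  obtain ⟨hy, he0, hcor⟩ := hb
  refine ⟨he0, ?_⟩
  intro v hv
  rw [hcor v hv]
  congr 1
  have hΘ : Θ v ∈ VS ℓ (adj l t) := (hRt.map v).2 hv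
  have hx := hσ.mem b hbk
  have hyAC : C ≠ 0 → A / C ≠ ψ b := by
    intro hC0 h
    apply hdet
    rw [← h] at hmob
    have : A / C * (C * σ b + D) = A * σ b + A * D / C := by
      field_simp
    rw [this] at hmob
    have h3 : A * D / C = B := add_left_cancel hmob
    rw [div_eq_iff hC0] at h3
    rw [h3, sub_self]
  have hxden : C * σ b + D ≠ 0 := by
    intro h
    rw [h, mul_zero] at hmob
    apply hdet
    linear_combination A * h + C * hmob
  have hfd : del ℓ l s' (ψ b) (cl ℓ (A - C * s')) = 0 := by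
    by_cases hC0 : C = 0
    · rw [hC0, zero_mul, sub_zero, line_cl_const hl hA, map_zero]
    · have h1 : A - C * s' = (-C) * (s' - A / C) := by
        field_simp
        ring
      rw [h1, sigAP_cl_const_mul hl (l.neg_mem hC) (neg_ne_zero.2 hC0)
        (sigAP_sub_ne hs' (l.div_mem hA hC))]
      exact del_ne hl hR.good' hy (l.div_mem hA hC) (hyAC hC0)
  have hgen : ∀ x' ∈ l, ∀ hx' : C * x' + D ≠ 0,
      cl ℓ (t - x') = cl ℓ (s' - (A * x' + B) / (C * x' + D)) - cl ℓ (A - C * s') := by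
    intro x' hx'l hx'
    have hy'l : (A * x' + B) / (C * x' + D) ∈ l :=
      l.div_mem (l.add_mem (l.mul_mem hA hx'l) hB) (l.add_mem (l.mul_mem hC hx'l) hD)
    have hy' : (A * x' + B) / (C * x' + D) * (C * x' + D) = A * x' + B := div_mul_cancel₀ _ hx'
    have h1 : t - x' = (C * x' + D) * (s' - (A * x' + B) / (C * x' + D)) / (A - C * s') := by
      rw [eq_div_iff hden]
      linear_combination htm + hy'
    have h2 := sigAP_sub_ne hs' hy'l
    rw [h1, cl_div ℓ (mul_ne_zero hx' h2) hden,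
      sigAP_cl_const_mul hl (l.add_mem (l.mul_mem hC hx'l) hD) hx' h2]
  have hyeq : ψ b = (A * σ b + B) / (C * σ b + D) := by
    rw [eq_div_iff hxden]
    exact hmob
  refine sigA_del_congr hl hgt hx _ ?_ ?_ hΘ
  · rw [hgen _ hx hxden, map_sub, hfd, sub_zero, ← hyeq]
    exact del_self hl hR.good' hy
  · intro x' hx'l hx'ne
    by_cases hx' : C * x' + D = 0
    · have h1 : A * x' + B ≠ 0 := by
        intro h
        apply hdet
        linear_combination A * hx' - C * h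
      have h2 : t - x' = (-(A * x' + B)) / (A - C * s') := by
        rw [ht]
        rw [eq_div_iff hden, sub_mul, div_mul_cancel₀ _ hden]
        linear_combination s' * hx'
      rw [h2, cl_div ℓ (neg_ne_zero.2 h1) hden,
        line_cl_const hl (l.neg_mem (l.add_mem (l.mul_mem hA hx'l) hB)), zero_sub, map_neg, hfd,
        neg_zero]
    · rw [hgen _ hx'l hx', map_sub, hfd, sub_zero]
      refine del_ne hl hR.good' hy
        (l.div_mem (l.add_mem (l.mul_mem hA hx'l) hB) (l.add_mem (l.mul_mem hC hx'l) hD)) ?_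
      intro h
      apply hx'ne
      rw [hyeq, div_eq_div_iff hx' hxden] at h
      have h3 : (A * D - B * C) * (x' - σ b) = 0 := by linear_combination h
      rcases mul_eq_zero.1 h3 with h4 | h4
      · exact absurd h4 hdet
      · exact sub_eq_zero.1 h4

/-- twisted Moebius change of the coordinate. -/
theorem exists_Nv_of_twist (hk : IsAlgClosed k) (hl : IsAlgClosed l) {σ : K → L}
    (hσ : IsoOn k l σ) {e : K → ZMod ℓ} {s : K} {s' : L} (hR : Rt k l Θ s s')
    {A B C D : L} (hA : A ∈ l) (hB : B ∈ l) (hC : C ∈ l) (hD : D ∈ l) (hdet : A * D - B * C ≠ 0)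
    {ψ : K → L} (hψ : ∀ᶠ b in ae k, ψ b ∈ l ∧ e b ≠ 0 ∧ Cor k l Θ s s' (e b) b (ψ b))
    (i j : ℕ) (hm : ∀ᶠ b in ae k, ψ b ^ (ringExpChar L) ^ i * (C * σ b ^ (ringExpChar L) ^ j + D) =
      A * σ b ^ (ringExpChar L) ^ j + B) : ∃ s₁' e', Nv k l Θ σ e' s s₁' := by
  classical
  haveI : PerfectField l := by
    haveI := hl
    infer_instance
  obtain ⟨A', hA', rfl⟩ := exists_root_q l hA j
  obtain ⟨B', hB', rfl⟩ := exists_root_q l hB j
  obtain ⟨C', hC', rfl⟩ := exists_root_q l hC j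
  obtain ⟨D', hD', rfl⟩ := exists_root_q l hD j
  have hdet' : A' * D' - B' * C' ≠ 0 := by
    intro h
    apply hdet
    rw [← mul_pow, ← mul_pow, ← sub_pow_q, h, zero_pow (qn_ne_zero L j)]
  obtain ⟨y, hy⟩ := exists_root (s' ^ (ringExpChar L) ^ i) j
  have hg : ∀ b : K, ∃ γ : L, γ ^ (ringExpChar L) ^ j = ψ b ^ (ringExpChar L) ^ i :=
    fun b => exists_root _ j
  choose γ hγ using hg
  have hR1 : Rt k l Θ s (s' ^ (ringExpChar L) ^ i) := hR.pow hl i
  have hR2 : Rt k l Θ s y := hR1.root hl hy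
  have hγl : ∀ b, ψ b ∈ l → γ b ∈ l := by
    intro b hb
    apply mem_of_pow_q (n := j)
    rw [hγ b]
    exact l.pow_mem hb _
  set e' : K → ZMod ℓ := fun b => e b * (((ringExpChar L) ^ i : ℕ) : ZMod ℓ) *
    (((ringExpChar L) ^ j : ℕ) : ZMod ℓ)⁻¹ with he'
  obtain ⟨s₁', h⟩ := exists_Nv_of_mob (e := e') hk hl hσ hR2 hA' hB' hC' hD' hdet' (ψ := γ)
    (by
      filter_upwards [hψ] with b hb
      refine ⟨hγl b hb.1, ?_, ?_⟩
      · exact mul_ne_zero (mul_ne_zero hb.2.1 (q_pow_ne_zero ℓ L i))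
          (inv_ne_zero (q_pow_ne_zero ℓ L j))
      · exact Cor.root hk hl hR1 hy (hγl b hb.1) (hγ b) (Cor.pow hk hl hR i hb.1 hb.2.2))
    (by
      filter_upwards [hm] with b hb
      apply pow_q_inj (n := j)
      rw [mul_pow, add_pow_q, add_pow_q, mul_pow, mul_pow, hγ b]
      exact hb)
  exact ⟨s₁', e', h⟩

theorem sigAP_VS_infinite (hl : IsAlgClosed l) {t : L} (ht : Good l t) :
    ¬ ((VS ℓ (adj l t) : Submodule (ZMod ℓ) (V ℓ L)) : Set (V ℓ L)).Finite := by
  intro hfin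
  have hli := cl_sub_independent (ℓ := ℓ) hl ht
  have hinj := hli.injective
  haveI : Infinite l := by
    haveI := hl
    infer_instance
  refine Set.infinite_of_injective_forall_mem
    (f := fun c : l => cl ℓ (t - (c : L))) hinj (fun c => ?_) hfin
  exact cl_mem_VS (sub_mem (mem_adj l t) (le_adj l t c.2))

theorem Nm.unique (hk : IsAlgClosed k) (hl : IsAlgClosed l) (hfg : FG l (⊤ : Subfield L))
    {σ : K → L} (hσ : IsoOn k l σ)
    {e : ZMod ℓ} (he : e ≠ 0) {s : K} {s' s'' : L} (h : Nm k l Θ σ e s s')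
    (h' : Nm k l Θ σ e s s'') : s' = s'' := by
  classical
  haveI : PerfectField l := by
    haveI := hl
    infer_instance
  have hg' := h.rt.good'
  have hg'' := h'.rt.good'
  have hVS : VS ℓ (adj l s') = VS ℓ (adj l s'') := by
    ext w
    have h1 := h.rt.map (Θ.symm w)
    have h2 := h'.rt.map (Θ.symm w)
    rw [LinearEquiv.apply_symm_apply] at h1 h2
    exact h1.trans h2.symm
  have halg : IsAlgebraic (adj l s') s'' := by
    by_contra hna
    have h1 := int_top ℓ hl hfg (le_adj l s') (le_adj l s'') (mem_adj l s'') hna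
      (fun z hz => isAlgebraic_of_mem hz)
    rw [← hVS, inf_idem] at h1
    exact sigAP_VS_infinite hl hg' h1
  have hmem : s'' ∈ adj l s' := hg'.2 _ halg
  obtain ⟨n, y, hy, hymem⟩ := mem_adj_root.1 hmem
  obtain ⟨p, q, hpq⟩ := line_mem hymem
  have hgy : Good l y := by
    rw [← hy, good_pow] at hg'
    exact hg'
  have hq : q ≠ 0 := by
    rintro rfl
    rw [map_zero, div_zero] at hpq
    exact hg''.1 (hpq ▸ l.zero_mem)
  have hq0 := line_aeval_ne hl hgy.1 hq
  set Q : ℕ := (ringExpChar L) ^ n with hQ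
  have hroot : ∀ b ∈ k, ∃ β : l, (β : L) ^ Q = σ b := by
    intro b hb
    obtain ⟨β, hβ, h1⟩ := exists_root_q l (hσ.mem b hb) n
    exact ⟨⟨β, hβ⟩, h1⟩
  have hfin_of : ∀ F : l[X], F ≠ 0 →
      {b : K | b ∈ k ∧ ∃ β : l, (β : L) ^ Q = σ b ∧ F.IsRoot β}.Finite := by
    intro F hF
    have hr : {β : l | F.IsRoot β}.Finite := Polynomial.finite_setOfPred_isRoot hF
    refine Set.Finite.of_finite_image (f := σ) ((hr.image (fun β : l => (β : L) ^ Q)).subset ?_) ?_
    · rintro _ ⟨b, ⟨hb, β, hβ, hr⟩, rfl⟩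
      exact ⟨β, hr, hβ⟩
    · rintro a ⟨ha, -⟩ b ⟨hb, -⟩ hab
      exact hσ.inj ha hb hab
  have key : ∀ᶠ b in ae k, ∃ β : l, (β : L) ^ Q = σ b ∧ (p - X ^ Q * q).IsRoot β := by
    have hcq : ∀ᶠ b in ae k, ∀ β : l, (β : L) ^ Q = σ b → q.eval β ≠ 0 := by
      rw [ae_iff]
      refine (hfin_of q hq).subset ?_
      rintro b ⟨hb, hne⟩
      push Not at hne
      obtain ⟨β, hβ, hβ'⟩ := hne
      exact ⟨hb, β, hβ, hβ'⟩
    filter_upwards [h.cor, h'.cor, ae_mem k, hcq] with b hb hb' hbk hqb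
    have hβl := hσ.mem b hbk
    obtain ⟨β, hβ⟩ := hroot b hbk
    refine ⟨β, hβ, ?_⟩
    have hqβ := hqb β hβ
    have hw : cl ℓ (s'' - σ b) ∈ VS ℓ (adj l s') := by
      rw [hVS]
      exact cl_mem_VS (sub_mem (mem_adj l s'') (le_adj l s'' hβl))
    have hv : Θ.symm (cl ℓ (s'' - σ b)) ∈ VS ℓ (adj k s) := by
      rw [← h.rt.map, LinearEquiv.apply_symm_apply]
      exact hw
    have hby := Cor.root hk hl h.rt hy β.2 hβ hb
    have h1 := hby _ hv
    have h2 := hb' _ hv
    rw [LinearEquiv.apply_symm_apply] at h1 h2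
    have h3 : del ℓ l y (β : L) (cl ℓ (s'' - σ b)) ≠ 0 := by
      intro h4
      rw [h4, mul_zero] at h1
      rw [h1, del_self hl hg'' hβl, mul_one] at h2
      exact he h2.symm
    by_contra hroot
    have hF0 : p - C (β ^ Q) * q ≠ 0 := by
      intro h5
      have h6 : s'' = σ b := by
        rw [hpq, div_eq_iff hq0]
        have h7 := congrArg (aeval y) h5
        rw [map_sub, map_mul, aeval_C, map_zero, sub_eq_zero] at h7
        rw [h7, ← hβ]
        rfl
      exact hg''.1 (h6 ▸ hβl)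
    have h5 : s'' - σ b = aeval y (p - C (β ^ Q) * q) / aeval y q := by
      rw [hpq, map_sub, map_mul, aeval_C, sub_div, mul_div_assoc, div_self hq0, mul_one, ← hβ]
      rfl
    have hF0' := line_aeval_ne hl hgy.1 hF0
    apply h3
    rw [h5, cl_div ℓ hF0' hq0, map_sub, del_aeval hl hgy hF0, del_aeval hl hgy hq]
    have h6 : q.rootMultiplicity β = 0 := rootMultiplicity_eq_zero hqβ
    have h7 : (p - C (β ^ Q) * q).rootMultiplicity β = 0 := by
      apply rootMultiplicity_eq_zero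
      intro h8
      apply hroot
      rw [IsRoot.def, eval_sub, eval_mul, eval_C] at h8
      rw [IsRoot.def, eval_sub, eval_mul, eval_pow, eval_X]
      exact h8
    rw [h6, h7]
    simp
  have hzero : p - X ^ Q * q = 0 := by
    by_contra hne
    have h1 := hfin_of _ hne
    have h2 : ∀ᶠ b in ae k, ¬ ∃ β : l, (β : L) ^ Q = σ b ∧ (p - X ^ Q * q).IsRoot β := by
      rw [ae_iff]
      simpa using h1
    have := ae_neBot_of_isAlgClosed hk
    obtain ⟨b, hb1, hb2⟩ := (key.and h2).exists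
    exact hb2 hb1
  rw [hpq, sub_eq_zero.1 hzero, map_mul, map_pow, aeval_X, mul_div_assoc, div_self hq0, mul_one,
    hQ, hy]

/-- affine changes of the coordinate. -/
theorem sigAP_adj_affine {L : Type*} [Field L] [PerfectField L] {l : Subfield L} {t a c : L}
    (ha : a ∈ l) (ha0 : a ≠ 0) (hc : c ∈ l) :
    adj l (a * t + c) = adj l t := by
  apply le_antisymm
  · refine adj_le (le_adj l t) ?_
    exact (adj l t).add_mem ((adj l t).mul_mem (le_adj l t ha) (mem_adj l t)) (le_adj l t hc)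
  · refine adj_le (le_adj l _) ?_
    have h1 : t = ((a * t + c) - c) / a := by
      rw [add_sub_cancel_right, mul_div_cancel_left₀ _ ha0]
    have h2 : ((a * t + c) - c) / a ∈ adj l (a * t + c) :=
      (adj l (a * t + c)).div_mem ((adj l (a * t + c)).sub_mem (mem_adj l _) (le_adj l _ hc))
        (le_adj l _ ha)
    rwa [← h1] at h2

theorem sigAP_good_affine {L : Type*} [Field L] [PerfectField L] {l : Subfield L} {t a c : L}
    (ht : Good l t) (ha : a ∈ l) (ha0 : a ≠ 0) (hc : c ∈ l) :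
    Good l (a * t + c) := by
  refine ⟨?_, ?_⟩
  · intro h
    apply ht.1
    have h1 : t = ((a * t + c) - c) / a := by
      rw [add_sub_cancel_right, mul_div_cancel_left₀ _ ha0]
    rw [h1]
    exact l.div_mem (l.sub_mem h hc) ha
  · rw [sigAP_adj_affine ha ha0 hc]
    exact ht.2

theorem sigAP_del_affine {L : Type*} [Field L] [PerfectField L] {l : Subfield L} {ℓ : ℕ}
    [Fact ℓ.Prime] [NeZero (ℓ : L)] (hl : IsAlgClosed l) {t a c : L} (ht : Good l t) (ha : a ∈ l)
    (ha0 : a ≠ 0) (hc : c ∈ l) {x : L} (hx : x ∈ l) {v : V ℓ L} (hv : v ∈ VS ℓ (adj l t)) :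
    del ℓ l (a * t + c) (a * x + c) v = del ℓ l t x v := by
  have hg := sigAP_good_affine ht ha ha0 hc
  have hcl : ∀ x' ∈ l, cl ℓ (t - x') = cl ℓ ((a * t + c) - (a * x' + c)) := by
    intro x' hx'
    have h1 : (a * t + c) - (a * x' + c) = a * (t - x') := by ring
    rw [h1, sigAP_cl_const_mul hl ha ha0 (sigAP_sub_ne ht.1 hx')]
  have hmem : ∀ x' ∈ l, a * x' + c ∈ l := fun x' hx' => l.add_mem (l.mul_mem ha hx') hc
  refine sigA_del_congr hl ht hx _ ?_ ?_ hv
  · rw [hcl x hx]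
    exact del_self hl hg (hmem x hx)
  · intro x' hx' hne
    rw [hcl x' hx']
    refine del_ne hl hg (hmem x hx) (hmem x' hx') ?_
    intro h
    exact hne (mul_left_cancel₀ ha0 (add_right_cancel h))

theorem Nm.affine (hk : IsAlgClosed k) (hl : IsAlgClosed l) {σ : K → L} (hσ : IsoOn k l σ)
    {e : ZMod ℓ} {s : K} {s' : L} (h : Nm k l Θ σ e s s') {a c : K} (ha : a ∈ k)
    (ha0 : a ≠ 0) (hc : c ∈ k) : Nm k l Θ σ e (a * s + c) (σ a * s' + σ c) := by
  have hσa := hσ.mem a ha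
  have hσc := hσ.mem c hc
  have hσa0 := hσ.ne_zero ha ha0
  refine ⟨⟨sigAP_good_affine h.rt.good ha ha0 hc,
    sigAP_good_affine h.rt.good' hσa hσa0 hσc, ?_⟩, ?_⟩
  · intro v
    rw [sigAP_adj_affine ha ha0 hc, sigAP_adj_affine hσa hσa0 hσc]
    exact h.rt.map v
  · have h1 := ae_iff.1 h.cor
    rw [ae_iff]
    refine (h1.image (fun b => a * b + c)).subset ?_
    rintro b ⟨hb, hne⟩
    have hb' : (b - c) / a ∈ k := k.div_mem (k.sub_mem hb hc) ha
    have hbb : a * ((b - c) / a) + c = b := by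
      rw [mul_div_cancel₀ _ ha0, sub_add_cancel]
    refine ⟨(b - c) / a, ⟨hb', fun hcor => hne ?_⟩, hbb⟩
    have hσb : σ b = σ a * σ ((b - c) / a) + σ c := by
      rw [← hσ.mul a ha _ hb', ← hσ.add _ (k.mul_mem ha hb') c hc, hbb]
    intro v hv
    rw [sigAP_adj_affine ha ha0 hc] at hv
    have h2 := hcor v hv
    have h3 : Θ v ∈ VS ℓ (adj l s') := (h.rt.map v).2 hv
    have h4 := sigAP_del_affine hk h.rt.good ha ha0 hc hb' hv
    have h5 := sigAP_del_affine hl h.rt.good' hσa hσa0 hσc (hσ.mem _ hb') h3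
    rw [hbb] at h4
    rw [← hσb] at h5
    rw [h4, h5]
    exact h2

theorem Nm.add_const (hk : IsAlgClosed k) (hl : IsAlgClosed l) {σ : K → L} (hσ : IsoOn k l σ)
    {e : ZMod ℓ} (he : e ≠ 0) {s : K} {s' : L} (h : Nm k l Θ σ e s s') {c : K} (hc : c ∈ k) :
    Nm k l Θ σ e (s + c) (s' + σ c) := by
  have h1 := h.affine hk hl hσ k.one_mem one_ne_zero hc
  rw [one_mul, hσ.one, one_mul] at h1
  exact h1

theorem Nm.mul_const (hk : IsAlgClosed k) (hl : IsAlgClosed l) {σ : K → L} (hσ : IsoOn k l σ)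
    {e : ZMod ℓ} (he : e ≠ 0) {s : K} {s' : L} (h : Nm k l Θ σ e s s') {c : K} (hc : c ∈ k)
    (hc0 : c ≠ 0) : Nm k l Θ σ e (c * s) (σ c * s') := by
  have h1 := h.affine hk hl hσ hc hc0 k.zero_mem
  rw [add_zero, hσ.zero, add_zero] at h1
  exact h1

end Vale.Agent.P019P
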