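import Vale.Agent.P019.SigB
import Vale.Agent.P019P.SigA

/-!
# Restriction of a map to the constants
-/

namespace Vale.Agent.P019P

open Vale.Agent.P019

set_option linter.style.haveILetI false
set_option linter.unusedSectionVars false

open Polynomial Filter

/-- `rst_eq` without hypotheses on the fields. -/
theorem sigb_rst_eq {K L : Type*} [Field K] [Field L] {k : Subfield K} {l : Subfield L}
    {ψ : K → L} {b : k} (h : ψ b ∈ l) : (rst k l ψ b : L) = ψ b := by
  unfold rst
  rw [dif_pos h]

/-- almost all values of an isomorphism are in any given infinite set of conditions. -/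
theorem sigb_infinite {K L : Type*} [Field K] [Field L] {k : Subfield K} {l : Subfield L}
    (hk : IsAlgClosed k) {σ : K → L} (hσ : IsoOn k l σ) {P : L → Prop}
    (h : ∀ᶠ b in ae k, P (σ b)) : {x : L | P x}.Infinite := by
  intro hfin
  rw [ae_iff] at h
  apply infinite_of_isAlgClosed hk
  have h1 : {b : K | b ∈ k ∧ P (σ b)}.Finite := by
    refine Set.Finite.of_finite_image (f := σ) (hfin.subset ?_) ?_
    · rintro _ ⟨b, hb, rfl⟩
      exact hb.2
    · intro a ha b hb hab
      exact hσ.inj ha.1 hb.1 hab
  refine (h1.union h).subset ?_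
  intro b hb
  by_cases hP : P (σ b)
  · exact Or.inl ⟨hb, hP⟩
  · exact Or.inr ⟨hb, hP⟩

end Vale.Agent.P019P
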