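import Vale.Agent.P019.Sigma
import Vale.Agent.P019P.MobB

/-!
# Removal of the Frobenius twist
-/

namespace Vale.Agent.P019P

open Vale.Agent.P019

set_option linter.style.haveILetI false
set_option linter.unusedSectionVars false

open Filter

section sg1

variable {k l : Type*} [Field k] [Field l]

theorem sg1_comp {A B C D A' B' C' D' x y z : l} (h1 : MobRel A B C D x y)
    (h2 : MobRel A' B' C' D' y z) :
    MobRel (A' * A + B' * C) (A' * B + B' * D) (C' * A + D' * C) (C' * B + D' * D) x z := by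
  unfold MobRel at *
  linear_combination (C * x + D) * h2 - (z * C' - A') * h1

theorem sg1_comp_det {A B C D A' B' C' D' : l} (h1 : A * D - B * C ≠ 0)
    (h2 : A' * D' - B' * C' ≠ 0) :
    (A' * A + B' * C) * (C' * B + D' * D) - (A' * B + B' * D) * (C' * A + D' * C) ≠ 0 := by
  have : (A' * A + B' * C) * (C' * B + D' * D) - (A' * B + B' * D) * (C' * A + D' * C) =
      (A * D - B * C) * (A' * D' - B' * C') := by ring
  rw [this]
  exact mul_ne_zero h1 h2

theorem sg1_inv {A B C D x y : l} (h1 : MobRel A B C D x y) : MobRel D (-B) (-C) A y x := by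
  unfold MobRel at *
  linear_combination -h1

theorem sg1_inv_det {A B C D : l} (h1 : A * D - B * C ≠ 0) : D * A - (-B) * (-C) ≠ 0 := by
  have : D * A - (-B) * (-C) = A * D - B * C := by ring
  rwa [this]

theorem sg1_det_pow (A B C D : l) (n : ℕ) :
    A ^ (ringExpChar l) ^ n * D ^ (ringExpChar l) ^ n -
      B ^ (ringExpChar l) ^ n * C ^ (ringExpChar l) ^ n =
      (A * D - B * C) ^ (ringExpChar l) ^ n := by
  rw [sub_pow_q, mul_pow, mul_pow]

theorem sg1_pow {A B C D x y : l} (n : ℕ) (h : MobRel A B C D x y) :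
    MobRel (A ^ (ringExpChar l) ^ n) (B ^ (ringExpChar l) ^ n) (C ^ (ringExpChar l) ^ n)
      (D ^ (ringExpChar l) ^ n) (x ^ (ringExpChar l) ^ n) (y ^ (ringExpChar l) ^ n) := by
  unfold MobRel at *
  have h1 := congrArg (fun z : l => z ^ (ringExpChar l) ^ n) h
  simp only [mul_pow, add_pow_q] at h1
  exact h1

theorem sg1_unpow {A B C D x y : l} (n : ℕ)
    (h : MobRel (A ^ (ringExpChar l) ^ n) (B ^ (ringExpChar l) ^ n) (C ^ (ringExpChar l) ^ n)
      (D ^ (ringExpChar l) ^ n) (x ^ (ringExpChar l) ^ n) (y ^ (ringExpChar l) ^ n)) :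
    MobRel A B C D x y := by
  unfold MobRel at *
  apply pow_q_inj (n := n)
  simp only [mul_pow, add_pow_q]
  exact h

/-- the twisted relation between `ψ b` and `ψ' b`. -/
def Sg1R (ψ ψ' : k → l) (i j : ℕ) : Prop :=
  ∃ A B C D : l, A * D - B * C ≠ 0 ∧ ∀ᶠ b in cofinite,
    MobRel A B C D (ψ b ^ (ringExpChar l) ^ j) (ψ' b ^ (ringExpChar l) ^ i)

theorem Sg1R.raise {ψ ψ' : k → l} {i j : ℕ} (h : Sg1R ψ ψ' i j) (n : ℕ) :
    Sg1R ψ ψ' (i + n) (j + n) := by
  obtain ⟨A, B, C, D, hd, h⟩ := h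
  refine ⟨A ^ (ringExpChar l) ^ n, B ^ (ringExpChar l) ^ n, C ^ (ringExpChar l) ^ n,
    D ^ (ringExpChar l) ^ n, ?_, ?_⟩
  · rw [sg1_det_pow]
    exact pow_ne_zero _ hd
  · filter_upwards [h] with b hb
    have h1 := sg1_pow n hb
    rwa [← pow_mul, ← pow_mul, ← pow_add, ← pow_add] at h1

theorem Sg1R.symm {ψ ψ' : k → l} {i j : ℕ} (h : Sg1R ψ ψ' i j) : Sg1R ψ' ψ j i := by
  obtain ⟨A, B, C, D, hd, h⟩ := h
  exact ⟨D, -B, -C, A, sg1_inv_det hd, h.mono fun b hb => sg1_inv hb⟩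

/-- composition with matching exponents. -/
theorem Sg1R.comp0 {ψ ψ' ψ'' : k → l} {i j m : ℕ} (h : Sg1R ψ ψ' i j) (h' : Sg1R ψ' ψ'' m i) :
    Sg1R ψ ψ'' m j := by
  obtain ⟨A, B, C, D, hd, h⟩ := h
  obtain ⟨A', B', C', D', hd', h'⟩ := h'
  refine ⟨_, _, _, _, sg1_comp_det hd hd', ?_⟩
  filter_upwards [h, h'] with b hb hb'
  exact sg1_comp hb hb'

theorem Sg1R.comp {ψ ψ' ψ'' : k → l} {i j i' j' : ℕ} (h : Sg1R ψ ψ' i j)
    (h' : Sg1R ψ' ψ'' i' j') : Sg1R ψ ψ'' (i + i') (j + j') := by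
  have h1 := h.raise j'
  have h2 := h'.raise i
  rw [add_comm j' i, add_comm i' i] at h2
  exact h1.comp0 h2

theorem Sg1R.pull {ψ ψ' : k → l} {i j : ℕ} (h : Sg1R ψ ψ' i j) {τ : k → k}
    (hτ : Function.Injective τ) : Sg1R (ψ ∘ τ) (ψ' ∘ τ) i j := by
  obtain ⟨A, B, C, D, hd, h⟩ := h
  exact ⟨A, B, C, D, hd, hτ.tendsto_cofinite.eventually h⟩

theorem Sg1R.refl (ψ : k → l) : Sg1R ψ ψ 0 0 :=
  ⟨1, 0, 0, 1, by simp, Eventually.of_forall fun b => by simp [MobRel]⟩

theorem Sg1R.descend [IsAlgClosed l] {ψ ψ' : k → l} {i : ℕ} (h : Sg1R ψ ψ' i i) :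
    ∃ A B C D : l, A * D - B * C ≠ 0 ∧ ∀ᶠ b in cofinite, MobRel A B C D (ψ b) (ψ' b) := by
  obtain ⟨A, B, C, D, hd, h⟩ := h
  obtain ⟨A', rfl⟩ := exists_root A i
  obtain ⟨B', rfl⟩ := exists_root B i
  obtain ⟨C', rfl⟩ := exists_root C i
  obtain ⟨D', rfl⟩ := exists_root D i
  refine ⟨A', B', C', D', ?_, ?_⟩
  · intro h0
    apply hd
    rw [sg1_det_pow, h0]
    exact zero_pow (qn_ne_zero l i)
  · filter_upwards [h] with b hb
    exact sg1_unpow i hb

/-- a property which holds for almost all `b` in terms of `ψ b` holds for infinitely many `x`. -/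
theorem sg1_infinite [Infinite k] {ψ : k → l}
    (hinj : ∃ S : Set k, S.Finite ∧ Set.InjOn ψ Sᶜ) {P : l → Prop}
    (h : ∀ᶠ b in cofinite, P (ψ b)) : {x : l | P x}.Infinite := by
  obtain ⟨S, hS, hinj⟩ := hinj
  have h1 : {b : k | b ∈ Sᶜ ∧ P (ψ b)}.Infinite := by
    have h2 : {b : k | b ∈ Sᶜ ∧ P (ψ b)}ᶜ.Finite := by
      have h3 : ∀ᶠ b in cofinite, b ∈ Sᶜ ∧ P (ψ b) := by
        refine Filter.Eventually.and ?_ h
        exact hS.compl_mem_cofinite
      exact h3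
    exact (Set.Finite.infinite_compl h2).mono (by rw [compl_compl])
  have h4 : (ψ '' {b : k | b ∈ Sᶜ ∧ P (ψ b)}).Infinite :=
    h1.image (hinj.mono fun b hb => hb.1)
  refine h4.mono ?_
  rintro x ⟨b, hb, rfl⟩
  exact hb.2

/-- the exponent is unique. -/
theorem Sg1R.uniq0 [Infinite k] {ψ : k → l}
    (hinj : ∃ S : Set k, S.Finite ∧ Set.InjOn ψ Sᶜ) {i j : ℕ} (h : Sg1R ψ ψ i j) :
    (ringExpChar l) ^ i = (ringExpChar l) ^ j := by
  obtain ⟨A, B, C, D, hd, h⟩ := h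
  have h1 : {x : l | ((1 : l) * x ^ (ringExpChar l) ^ i + 0) * (C * x ^ (ringExpChar l) ^ j + D) =
      A * x ^ (ringExpChar l) ^ j + B}.Infinite := by
    refine sg1_infinite hinj (P := fun x => ((1 : l) * x ^ (ringExpChar l) ^ i + 0) *
      (C * x ^ (ringExpChar l) ^ j + D) = A * x ^ (ringExpChar l) ^ j + B) ?_
    filter_upwards [h] with b hb
    unfold MobRel at hb
    rw [one_mul, add_zero]
    exact hb
  exact (twist_mob one_ne_zero hd h1).1

/-- the abstract untwisting lemma. -/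
theorem sg1_main [Infinite k] [IsAlgClosed l] {G : Type*} (ψ : k → l)
    (hinj : ∃ S : Set k, S.Finite ∧ Set.InjOn ψ Sᶜ) (τ : G → k → k)
    (hτ : ∀ c, Function.Injective (τ c)) (h : ∀ c, ∃ i j, Sg1R ψ (ψ ∘ τ c) i j) (c : G)
    (hdiv : (∀ m : ℕ, 0 < m → ∃ d : G, τ c = (τ d)^[m]) ∨ ∃ m : ℕ, 0 < m ∧ (τ c)^[m] = id) :
    ∃ A B C D : l, A * D - B * C ≠ 0 ∧ ∀ᶠ b in cofinite, MobRel A B C D (ψ b) (ψ (τ c b)) := by
  obtain ⟨i, j, hij⟩ := h c
  -- iterates
  have hiter : ∀ (d : G) (i j : ℕ), Sg1R ψ (ψ ∘ τ d) i j → ∀ m : ℕ,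
      Sg1R ψ (ψ ∘ (τ d)^[m]) (m * i) (m * j) := by
    intro d i j hd m
    induction m with
    | zero => simpa using Sg1R.refl ψ
    | succ m ih =>
      have h1 := hd.comp (ih.pull (hτ d))
      rw [Function.iterate_succ]
      have e1 : (m + 1) * i = i + m * i := by ring
      have e2 : (m + 1) * j = j + m * j := by ring
      rw [e1, e2]
      exact h1
  suffices hq : (ringExpChar l) ^ i = (ringExpChar l) ^ j by
    have h2 : Sg1R ψ (ψ ∘ τ c) i i := by
      obtain ⟨A, B, C, D, hd, h3⟩ := hij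
      refine ⟨A, B, C, D, hd, ?_⟩
      rw [← hq] at h3
      exact h3
    exact h2.descend
  by_cases hq1 : ringExpChar l = 1
  · rw [hq1]; simp
  have hq2 : 1 < ringExpChar l := by
    have := expChar_pos l (ringExpChar l)
    omega
  suffices hij' : i = j by rw [hij']
  rcases hdiv with hdiv | ⟨m, hm, hmid⟩
  · -- divisible case
    by_contra hne
    obtain ⟨d, hd⟩ := hdiv (i + j + 1) (by omega)
    obtain ⟨i', j', hd'⟩ := h d
    have h1 := hiter d i' j' hd' (i + j + 1)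
    rw [← hd] at h1
    have h2 := Sg1R.uniq0 hinj (h1.comp hij.symm)
    have h3 : (i + j + 1) * i' + j = (i + j + 1) * j' + i := Nat.pow_right_injective hq2 h2
    rcases lt_trichotomy i' j' with hlt | heq | hgt
    · obtain ⟨t, rfl⟩ := Nat.exists_eq_add_of_lt hlt
      have h4 : (i + j + 1) * (i' + t + 1) = (i + j + 1) * i' + (i + j + 1) * t + (i + j + 1) := by
        ring
      rw [h4] at h3
      have h5 : 0 ≤ (i + j + 1) * t := Nat.zero_le _
      omega
    · rw [heq] at h3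
      exact hne (by omega)
    · obtain ⟨t, rfl⟩ := Nat.exists_eq_add_of_lt hgt
      have h4 : (i + j + 1) * (j' + t + 1) = (i + j + 1) * j' + (i + j + 1) * t + (i + j + 1) := by
        ring
      rw [h4] at h3
      have h5 : 0 ≤ (i + j + 1) * t := Nat.zero_le _
      omega
  · have h1 := hiter c i j hij m
    rw [hmid] at h1
    have h2 := Sg1R.uniq0 hinj h1
    have h3 : m * i = m * j := Nat.pow_right_injective hq2 h2
    exact Nat.eq_of_mul_eq_mul_left hm h3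

/-- the twist is constant along an additive group: removal of the Frobenius twist. -/
theorem untwist_add [IsAlgClosed k] [IsAlgClosed l] (ψ₁ ψ₂ : k → l)
    (hinj₁ : ∃ S : Set k, S.Finite ∧ Set.InjOn ψ₁ Sᶜ) (hsurj₁ : (Set.range ψ₁)ᶜ.Finite)
    (hadd : ∀ᶠ a in cofinite, ∃ (i j : ℕ) (A B C D : l), A * D - B * C ≠ 0 ∧
      ∀ᶠ b in cofinite, MobRel A B C D (ψ₁ b ^ (ringExpChar l) ^ j)
        (ψ₂ (a + b) ^ (ringExpChar l) ^ i)) :
    ∀ c : k, ∃ A B C D : l, A * D - B * C ≠ 0 ∧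
      ∀ᶠ b in cofinite, MobRel A B C D (ψ₁ b) (ψ₁ (b + c)) := by
  intro c
  have hτ : ∀ c : k, Function.Injective fun b : k => b + c := fun c => add_left_injective c
  have hit : ∀ (c : k) (m : ℕ), (fun b : k => b + c)^[m] = fun b => b + m * c := by
    intro c m
    induction m with
    | zero => funext b; simp
    | succ m ih =>
      rw [Function.iterate_succ, ih]
      funext b
      simp only [Function.comp, Nat.cast_succ]
      ring
  refine sg1_main ψ₁ hinj₁ (fun (c : k) b => b + c) hτ ?_ c ?_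
  · intro c
    obtain ⟨a, ⟨i, j, h1⟩, ⟨i', j', h2⟩⟩ := (hadd.and (Sg.ae_add c hadd)).exists
    have h1' : Sg1R ψ₁ (ψ₂ ∘ fun b => a + b) i j := h1
    have h2' : Sg1R ψ₁ (ψ₂ ∘ fun b => a + c + b) i' j' := h2
    have h3 := h1'.pull (hτ c)
    have h4 : ((ψ₂ ∘ fun b => a + b) ∘ fun b => b + c) = (ψ₂ ∘ fun b => a + c + b) := by
      funext b
      simp only [Function.comp]
      congr 1
      ring
    rw [h4] at h3
    exact ⟨_, _, h2'.comp h3.symm⟩
  · obtain ⟨p, hp⟩ := ExpChar.exists k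
    rcases hp with _ | hp
    · left
      intro m hm
      refine ⟨c / m, ?_⟩
      rw [hit]
      funext b
      have : (m : k) ≠ 0 := Nat.cast_ne_zero.2 (by omega)
      field_simp
    · right
      refine ⟨p, hp.pos, ?_⟩
      rw [hit]
      funext b
      simp

theorem untwist_mul [IsAlgClosed k] [IsAlgClosed l] (ψ₁ ψ₃ : k → l)
    (hinj₁ : ∃ S : Set k, S.Finite ∧ Set.InjOn ψ₁ Sᶜ) (hsurj₁ : (Set.range ψ₁)ᶜ.Finite)
    (hmul : ∀ᶠ a in cofinite, ∃ (i j : ℕ) (A B C D : l), A * D - B * C ≠ 0 ∧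
      ∀ᶠ b in cofinite, MobRel A B C D (ψ₁ b ^ (ringExpChar l) ^ j)
        (ψ₃ (a * b) ^ (ringExpChar l) ^ i)) :
    ∀ c : k, c ≠ 0 → ∃ A B C D : l, A * D - B * C ≠ 0 ∧
      ∀ᶠ b in cofinite, MobRel A B C D (ψ₁ b) (ψ₁ (c * b)) := by
  intro c hc
  have hτ : ∀ c : kˣ, Function.Injective fun b : k => (c : k) * b :=
    fun c => mul_right_injective₀ c.ne_zero
  have hit : ∀ (c : k) (m : ℕ), (fun b : k => c * b)^[m] = fun b => c ^ m * b := by
    intro c m
    induction m with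
    | zero => funext b; simp
    | succ m ih =>
      rw [Function.iterate_succ, ih]
      funext b
      simp only [Function.comp]
      ring
  refine sg1_main ψ₁ hinj₁ (fun (c : kˣ) (b : k) => (c : k) * b) hτ ?_ (Units.mk0 c hc) ?_
  · intro c
    have hmul2 : ∀ᶠ a in cofinite, ∃ (i j : ℕ) (A B C D : l), A * D - B * C ≠ 0 ∧
      ∀ᶠ b in cofinite, MobRel A B C D (ψ₁ b ^ (ringExpChar l) ^ j)
        (ψ₃ ((c : k) * a * b) ^ (ringExpChar l) ^ i) := Sg.ae_mul c.ne_zero hmul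
    obtain ⟨a, ⟨i, j, h1⟩, ⟨i', j', h2⟩⟩ := (hmul.and hmul2).exists
    have h1' : Sg1R ψ₁ (ψ₃ ∘ fun b => a * b) i j := h1
    have h2' : Sg1R ψ₁ (ψ₃ ∘ fun b => (c : k) * a * b) i' j' := h2
    have h3 := h1'.pull (hτ c)
    have h4 : ((ψ₃ ∘ fun b => a * b) ∘ fun b => (c : k) * b) =
        (ψ₃ ∘ fun b => (c : k) * a * b) := by
      funext b
      simp only [Function.comp]
      congr 1
      ring
    rw [h4] at h3
    exact ⟨_, _, h2'.comp h3.symm⟩
  · left
    intro m hm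
    obtain ⟨d, hd⟩ := IsAlgClosed.exists_pow_nat_eq c hm
    have hd0 : d ≠ 0 := by
      rintro rfl
      apply hc
      rw [← hd, zero_pow (by omega)]
    refine ⟨Units.mk0 d hd0, ?_⟩
    simp only [Units.val_mk0]
    rw [hit, hd]

end sg1

end Vale.Agent.P019P
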