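import Vale.Agent.P019.Sigma

/-!
# The affine case, any characteristic
-/

namespace Vale.Agent.P019P

open Vale.Agent.P019

set_option linter.style.haveILetI false
set_option linter.unusedSectionVars false

open Filter

section alg

variable {k l : Type*} [Field k] [Field l]

open Sg in
/-- Lemma A: the affine case, any characteristic. -/
theorem affine_case [IsAlgClosed k] [Uncountable k] (φ : k → l)
    (hinj : ∃ S : Set k, S.Finite ∧ Set.InjOn φ Sᶜ)
    (hadd : ∀ c, ∃ α β : l, α ≠ 0 ∧ ∀ᶠ b in cofinite, φ (b + c) = α * φ b + β)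
    (hmul : ∀ c, c ≠ 0 → ∃ α β : l, α ≠ 0 ∧ ∀ᶠ b in cofinite, φ (c * b) = α * φ b + β) :
    ∃ (σ : k →+* l) (p q : l), p ≠ 0 ∧ ∀ᶠ b in cofinite, φ b = p * σ b + q := by
  classical
  -- uniqueness of the affine map
  have huniq : ∀ (α β α' β' : l), (∀ᶠ b in cofinite, α * φ b + β = α' * φ b + β') →
      α = α' ∧ β = β' := by
    intro α β α' β' h
    obtain ⟨b₁, b₂, b₃, p1, p2, p3, n12, n13, n32⟩ := three_pts hinj h
    have h1 : (α - α') * (φ b₁ - φ b₂) = 0 := by linear_combination p1 - p2
    have h2 : α = α' := by
      rcases mul_eq_zero.1 h1 with h | h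
      · exact sub_eq_zero.1 h
      · exact absurd (sub_eq_zero.1 h) n12
    refine ⟨h2, ?_⟩
    rw [h2] at p1
    linear_combination p1
  choose al be hal0 hab using hadd
  have hmul' : ∀ c, ∃ α β : l, c ≠ 0 → (α ≠ 0 ∧ ∀ᶠ b in cofinite, φ (c * b) = α * φ b + β) := by
    intro c
    by_cases hc : c = 0
    · exact ⟨0, 0, fun h => absurd hc h⟩
    · obtain ⟨α, β, h⟩ := hmul c hc
      exact ⟨α, β, fun _ => h⟩
  choose m n hmn using hmul'
  -- composition of translations
  have hcomp : ∀ c c', al (c + c') = al c' * al c ∧ be (c + c') = al c' * be c + be c' := by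
    intro c c'
    apply huniq
    filter_upwards [hab (c + c'), hab c, ae_add c (hab c')] with b h1 h2 h3
    rw [← h1, ← add_assoc, h3, h2]
    ring
  -- conjugation by dilations
  have hconj0 : ∀ lam c, lam ≠ 0 → al (lam * c) = al c ∧
      al (lam * c) * n lam + be (lam * c) = m lam * be c + n lam := by
    intro lam c hlam
    have h1 := (hmn lam hlam).2
    have h2 : al (lam * c) * m lam = m lam * al c ∧
        al (lam * c) * n lam + be (lam * c) = m lam * be c + n lam := by
      apply huniq
      filter_upwards [h1, ae_mul hlam (hab (lam * c)), hab c, ae_add c h1] with b e1 e2 e3 e4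
      rw [e1] at e2
      rw [mul_add, e2, e3] at e4
      linear_combination e4
    refine ⟨?_, h2.2⟩
    apply mul_right_cancel₀ (hmn lam hlam).1
    rw [h2.1, mul_comm]
  have hal : ∀ d, al d = 1 := by
    have h01 : ∀ d, d ≠ 0 → al d = al 1 := by
      intro d hd
      have := (hconj0 d 1 hd).1
      rwa [mul_one] at this
    have h1 : al 1 = 1 := by
      obtain ⟨c', hc'⟩ : ∃ c' : k, c' ∉ ({0, -1} : Finset k) := Infinite.exists_notMem_finset _
      simp only [Finset.mem_insert, Finset.mem_singleton, not_or] at hc'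
      have h5 := (hcomp 1 c').1
      have hne : (1 : k) + c' ≠ 0 := by
        intro h
        exact hc'.2 (eq_neg_of_add_eq_zero_right h)
      rw [h01 _ hne, h01 _ hc'.1] at h5
      have h6 : al 1 * al 1 = 1 * al 1 := by rw [← h5, one_mul]
      exact mul_right_cancel₀ (hal0 1) h6
    intro d
    by_cases hd : d = 0
    · subst hd
      have h5 := (hcomp 0 0).1
      rw [add_zero] at h5
      have h6 : al 0 * al 0 = 1 * al 0 := by rw [← h5, one_mul]
      exact mul_right_cancel₀ (hal0 0) h6
    · rw [h01 d hd, h1]
  have hconj : ∀ lam c, lam ≠ 0 → al (lam * c) = al c ∧ be (lam * c) = m lam * be c := by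
    intro lam c hlam
    obtain ⟨h1, h2⟩ := hconj0 lam c hlam
    refine ⟨h1, ?_⟩
    rw [hal (lam * c)] at h2
    linear_combination h2
  have hbe_add : ∀ c c', be (c + c') = be c + be c' := by
    intro c c'
    rw [(hcomp c c').2, hal, one_mul]
  have htr : ∀ c, ∀ᶠ b in cofinite, φ (b + c) = φ b + be c := by
    intro c
    filter_upwards [hab c] with b hb
    rw [hb, hal, one_mul]
  have hbe_ne : ∀ c, c ≠ 0 → be c ≠ 0 := by
    intro c hc h0
    obtain ⟨S, hS, hinj'⟩ := hinj
    have h1 : ∀ᶠ b in cofinite, b ∈ Sᶜ := hS.compl_mem_cofinite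
    obtain ⟨b, h2, h3, h4⟩ := ((htr c).and (h1.and (ae_add c h1))).exists
    rw [h0, add_zero] at h2
    have := hinj' h4 h3 h2
    exact hc (by simpa using this)
  have hbe1 : be 1 ≠ 0 := hbe_ne 1 one_ne_zero
  have hm : ∀ lam, lam ≠ 0 → m lam = be lam / be 1 := by
    intro lam hlam
    have := (hconj lam 1 hlam).2
    rw [mul_one] at this
    rw [this]
    field_simp
  have hbe0 : be 0 = 0 := by
    have := hbe_add 0 0
    simpa using this
  let σ : k →+* l :=
    { toFun := fun c => be c / be 1
      map_one' := div_self hbe1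
      map_mul' := by
        intro x y
        by_cases hx : x = 0
        · simp [hx, hbe0]
        · rw [(hconj x y hx).2, hm x hx]
          ring
      map_zero' := by simp [hbe0]
      map_add' := by
        intro x y
        rw [hbe_add]
        ring }
  have hσ : ∀ c, be c = be 1 * σ c := by
    intro c
    change be c = be 1 * (be c / be 1)
    field_simp
  -- the difference is a.e. constant
  let δ : k → l := fun b => φ b - be 1 * σ b
  have hδ : ∀ c, ∀ᶠ b in cofinite, δ (b + c) = δ b := by
    intro c
    filter_upwards [htr c] with b hb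
    simp only [δ]
    rw [hb, map_add, hσ c]
    ring
  have hcount : ∀ S : Set k, S.Countable → ∃ d, {s ∈ S | δ s ≠ d}.Finite := by
    intro S hS
    have h1 : (⋃ s ∈ S, {b | δ (b + s) ≠ δ b}).Countable := by
      refine hS.biUnion fun s _ => ?_
      exact Set.Finite.countable (hδ s)
    have h2 : ∃ a, a ∉ (⋃ s ∈ S, {b | δ (b + s) ≠ δ b}) := by
      by_contra hcon
      push Not at hcon
      have : (Set.univ : Set k).Countable := h1.mono (fun a _ => hcon a)
      exact Set.not_countable_univ this
    obtain ⟨a, ha⟩ := h2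
    simp only [Set.mem_iUnion, Set.mem_ofPred_eq, not_exists, not_not] at ha
    refine ⟨δ a, ?_⟩
    refine Set.Finite.subset (hδ a) ?_
    intro s hs h
    simp only [Set.mem_ofPred_eq] at hs
    apply hs.2
    rw [← h, add_comm s a]
    exact ha s hs.1
  have hconst : ∃ d, ∀ᶠ b in cofinite, δ b = d := by
    have hZ : (Set.range (Infinite.natEmbedding k)).Infinite :=
      Set.infinite_range_of_injective (Infinite.natEmbedding k).injective
    obtain ⟨d, hd⟩ := hcount (Set.range (Infinite.natEmbedding k)) (Set.countable_range _)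
    refine ⟨d, ?_⟩
    by_contra hcon
    have hinf : {b | δ b ≠ d}.Infinite := by
      intro hfin
      exact hcon hfin
    obtain ⟨T, hT, hTi, hTc⟩ : ∃ T ⊆ {b | δ b ≠ d}, T.Infinite ∧ T.Countable := by
      refine ⟨Set.range (fun i => ((hinf.natEmbedding _ i : {b | δ b ≠ d}) : k)), ?_, ?_,
        Set.countable_range _⟩
      · rintro _ ⟨i, rfl⟩
        exact (hinf.natEmbedding _ i).2
      · refine Set.infinite_range_of_injective ?_
        intro i j hij
        exact (hinf.natEmbedding _).injective (Subtype.ext hij)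
    obtain ⟨d', hd'⟩ := hcount (Set.range (Infinite.natEmbedding k) ∪ T)
      ((Set.countable_range _).union hTc)
    -- `d = d'`
    have h1 : d = d' := by
      by_contra hne
      apply hZ
      refine (hd.union hd').subset ?_
      intro z hz
      by_cases h : δ z = d
      · right
        exact ⟨Or.inl hz, by rw [h]; exact hne⟩
      · left
        exact ⟨hz, h⟩
    apply hTi
    refine hd'.subset ?_
    intro t ht
    exact ⟨Or.inr ht, by rw [← h1]; exact hT ht⟩
  obtain ⟨d, hd⟩ := hconst
  refine ⟨σ, be 1, d, hbe1, ?_⟩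
  filter_upwards [hd] with b hb
  simp only [δ] at hb
  linear_combination hb

end alg

end Vale.Agent.P019P
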