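import Vale.Agent.P019.Sigma

/-!
# The existence of a common fixed point on the projective line, any characteristic
-/

namespace Vale.Agent.P019P

open Vale.Agent.P019

set_option linter.style.haveILetI false
set_option linter.unusedSectionVars false

open Filter

section alg

variable {k l : Type*} [Field k] [Field l]

open Sg in
/-- the existence of a common fixed point on the projective line, any characteristic. -/
theorem exists_common [IsAlgClosed k] [IsAlgClosed l] (φ : k → l)
    (hinj : ∃ S : Set k, S.Finite ∧ Set.InjOn φ Sᶜ)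
    (g h : k → ((l × l) ≃ₗ[l] (l × l)))
    (hg : ∀ c, ∀ᶠ b in cofinite, Act (g c) (φ b) (φ (b + c)))
    (hh : ∀ c, c ≠ 0 → ∀ᶠ b in cofinite, Act (h c) (φ b) (φ (c * b))) :
    ∃ v : l × l, v ≠ 0 ∧ (∀ c, ∃ s : l, g c v = s • v) ∧
      ∀ c, c ≠ 0 → ∃ s : l, h c v = s • v := by
  -- multiplicativity up to scalars
  have gmul : ∀ c c', ∃ u : l, u ≠ 0 ∧ ∀ v, g c (g c' v) = u • g (c + c') v := by
    intro c c'
    have h1 : ∀ᶠ b in cofinite, Act ((g c').trans (g c)) (φ b) (φ (b + (c + c'))) := by
      filter_upwards [hg c', ae_add c' (hg c)] with b e1 e2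
      have := e1.comp e2
      rwa [add_assoc, add_comm c' c] at this
    exact unique_ae hinj h1 (hg (c + c'))
  have hmul : ∀ c c', c ≠ 0 → c' ≠ 0 → ∃ u : l, u ≠ 0 ∧ ∀ v, h c (h c' v) = u • h (c * c') v := by
    intro c c' hc hc'
    have h1 : ∀ᶠ b in cofinite, Act ((h c').trans (h c)) (φ b) (φ ((c * c') * b)) := by
      filter_upwards [hh c' hc', ae_mul hc' (hh c hc)] with b e1 e2
      have := e1.comp e2
      rwa [← mul_assoc] at this
    exact unique_ae hinj h1 (hh (c * c') (mul_ne_zero hc hc'))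
  have hconj : ∀ m c, m ≠ 0 → ∃ u : l, u ≠ 0 ∧ ∀ v, h m (g c v) = u • g (m * c) (h m v) := by
    intro m c hm
    have h1 : ∀ᶠ b in cofinite, Act ((g c).trans (h m)) (φ b) (φ (m * (b + c))) := by
      filter_upwards [hg c, ae_add c (hh m hm)] with b e1 e2
      exact e1.comp e2
    have h2 : ∀ᶠ b in cofinite, Act ((h m).trans (g (m * c))) (φ b) (φ (m * (b + c))) := by
      filter_upwards [hh m hm, ae_mul hm (hg (m * c))] with b e1 e2
      have := e1.comp e2
      rwa [← mul_add] at this
    exact unique_ae hinj h1 h2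
  -- the translations commute
  have hcomm0 : ∀ c c', ∃ u : l, u ^ 2 = 1 ∧ ∀ v, g c (g c' v) = u • g c' (g c v) := by
    intro c c'
    obtain ⟨u1, hu1, e1⟩ := gmul c c'
    obtain ⟨u2, hu2, e2⟩ := gmul c' c
    have e3 : ∀ v, g c (g c' v) = (u1 * u2⁻¹) • g c' (g c v) := by
      intro v
      rw [e1, e2, add_comm c' c, smul_smul, mul_assoc, inv_mul_cancel₀ hu2, mul_one]
    refine ⟨u1 * u2⁻¹, ?_, e3⟩
    have e4 : (g c).toLinearMap ∘ₗ (g c').toLinearMap =
        (u1 * u2⁻¹) • ((g c').toLinearMap ∘ₗ (g c).toLinearMap) := by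
      apply LinearMap.ext
      intro v
      exact e3 v
    have e5 := congrArg LinearMap.det e4
    rw [LinearMap.det_smul, LinearMap.det_comp, LinearMap.det_comp] at e5
    have e6 : Module.finrank l (l × l) = 2 := by simp
    rw [e6] at e5
    have e7 : LinearMap.det (g c).toLinearMap ≠ 0 := (LinearEquiv.isUnit_det' (g c)).ne_zero
    have e8 : LinearMap.det (g c').toLinearMap ≠ 0 := (LinearEquiv.isUnit_det' (g c')).ne_zero
    have e9 : (u1 * u2⁻¹) ^ 2 * (LinearMap.det (g c').toLinearMap *
        LinearMap.det (g c).toLinearMap) = 1 * (LinearMap.det (g c').toLinearMap *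
        LinearMap.det (g c).toLinearMap) := by
      rw [← e5]; ring
    exact mul_right_cancel₀ (mul_ne_zero e8 e7) e9
  have hcomm : ∀ c c' v, g c (g c' v) = g c' (g c v) := by
    choose μ hμ2 hμ using hcomm0
    have hne : ∀ c (v : l × l), v ≠ 0 → g c v ≠ 0 := fun c v hv h0 =>
      hv ((LinearEquiv.map_eq_zero_iff _).1 h0)
    have hv1 : ((1, 1) : l × l) ≠ 0 := fun h0 => one_ne_zero (congrArg Prod.fst h0)
    have hμu : ∀ c c' u, (∀ v, g c (g c' v) = u • g c' (g c v)) → μ c c' = u := by
      intro c c' u hu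
      have e1 := hμ c c' (1, 1)
      rw [hu] at e1
      exact (smul_left_injective l (hne _ _ (hne _ _ hv1)) e1).symm
    have hμ0 : ∀ c c', μ c c' ≠ 0 := fun c c' h0 => by
      have := hμ2 c c'
      rw [h0] at this
      simp at this
    -- it is enough to prove `μ = 1`
    suffices hone : ∀ c c', μ c c' = 1 by
      intro c c' v
      rw [hμ c c' v, hone, one_smul]
    -- bimultiplicativity
    have hadd' : ∀ x y y', μ x (y + y') = μ x y * μ x y' := by
      intro x y y'
      apply hμu
      intro v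
      obtain ⟨u, hu, e⟩ := gmul y y'
      have h1 : u • g x (g (y + y') v) = u • ((μ x y * μ x y') • g (y + y') (g x v)) := by
        rw [← map_smul, ← e, hμ x y, hμ x y', map_smul, e, smul_smul, smul_comm]
      exact smul_right_injective _ hu h1
    have hsym : ∀ x y, μ y x = μ x y := by
      intro x y
      apply hμu
      intro v
      rw [hμ x y v, smul_smul, ← pow_two, hμ2, one_smul]
    have hself : ∀ x, μ x x = 1 := fun x => hμu x x 1 fun v => by rw [one_smul]
    have hdil : ∀ m x y, m ≠ 0 → μ (m * x) (m * y) = μ x y := by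
      intro m x y hm
      apply hμu
      intro v
      obtain ⟨w, rfl⟩ := (h m).surjective v
      obtain ⟨u1, hu1, e1⟩ := hconj m x hm
      obtain ⟨u2, hu2, e2⟩ := hconj m y hm
      have h1 : (u1 * u2) • g (m * x) (g (m * y) (h m w)) =
          (u1 * u2) • (μ x y • g (m * y) (g (m * x) (h m w))) := by
        have a1 : h m (g x (g y w)) = (u1 * u2) • g (m * x) (g (m * y) (h m w)) := by
          rw [e1, e2, map_smul, smul_smul]
        have a2 : h m (g y (g x w)) = (u1 * u2) • g (m * y) (g (m * x) (h m w)) := by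
          rw [e2, e1, map_smul, smul_smul, mul_comm u2 u1]
        rw [← a1, smul_comm, ← a2, hμ x y w, map_smul]
      exact smul_right_injective _ (mul_ne_zero hu1 hu2) h1
    by_cases hl2 : (2 : l) = 0
    · -- characteristic two
      intro c c'
      have h1 : (μ c c' - 1) ^ 2 = 0 := by
        linear_combination hμ2 c c' - (μ c c' - 1) * hl2
      exact sub_eq_zero.1 (pow_eq_zero_iff (two_ne_zero)|>.1 h1)
    by_cases hk2 : (2 : k) = 0
    swap
    · intro c c'
      have h1 : μ c' c = μ c' (c / 2) * μ c' (c / 2) := by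
        rw [← hadd']
        congr 1
        field_simp
        ring
      rw [hsym c' c, h1, ← pow_two, hμ2]
    -- characteristic two in `k`
    have hμz : ∀ x, μ x 0 = 1 := by
      intro x
      have h1 := hadd' x 0 0
      rw [add_zero] at h1
      have h2 : μ x 0 * 1 = μ x 0 * μ x 0 := by rw [mul_one]; exact h1
      exact (mul_left_cancel₀ (hμ0 x 0) h2).symm
    have hinv : ∀ y, y ≠ 0 → μ 1 y⁻¹ = μ 1 y := by
      intro y hy
      have h1 := hdil y⁻¹ 1 y (inv_ne_zero hy)
      rw [mul_one, inv_mul_cancel₀ hy, hsym] at h1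
      exact h1
    have hβ : ∀ y, μ 1 y = 1 := by
      intro y
      by_cases hy : y = 0
      · rw [hy, hμz]
      obtain ⟨x, hx⟩ : ∃ x : k, x ^ 2 + x = y := by
        have hdeg : (Polynomial.X ^ 2 + Polynomial.X - Polynomial.C y : Polynomial k).degree ≠ 0 := by
          have : (Polynomial.X ^ 2 + Polynomial.X - Polynomial.C y : Polynomial k).degree = 2 := by
            compute_degree!
          rw [this]
          decide
        obtain ⟨x, hx⟩ := IsAlgClosed.exists_root _ hdeg
        refine ⟨x, ?_⟩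
        simp only [Polynomial.IsRoot.def, Polynomial.eval_sub, Polynomial.eval_add,
          Polynomial.eval_pow, Polynomial.eval_X, Polynomial.eval_C] at hx
        exact sub_eq_zero.1 hx
      have hx0 : x ≠ 0 := by
        rintro rfl
        exact hy (by rw [← hx]; ring)
      have hx1 : x + 1 ≠ 0 := by
        intro h0
        exact hy (by rw [← hx]; linear_combination x * h0)
      have h1 : y⁻¹ = x⁻¹ + (x + 1)⁻¹ := by
        rw [← hx] at hy ⊢
        field_simp
        linear_combination (-x) * hk2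
      rw [← hinv y hy, h1, hadd', hinv x hx0, hinv _ hx1, hadd', hself, mul_one, ← pow_two, hμ2]
    intro c c'
    by_cases hc : c = 0
    · rw [hc, ← hsym, hμz]
    · have h1 := hdil c 1 (c' / c) hc
      rw [mul_one, mul_div_cancel₀ c' hc, hβ] at h1
      exact h1
  -- `g 1` is not scalar
  have hns : ∀ a : l, ¬ (∀ u, g 1 u = a • u) := by
    intro a ha
    obtain ⟨b₁, b₂, b₃, ⟨p1, q1⟩, -⟩ := three_pts hinj ((hg 1).and
      (show ∀ᶠ b in cofinite, φ b ≠ φ (b + 1) by
        obtain ⟨S, hS, hinj'⟩ := hinj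
        have h1 : ∀ᶠ b in cofinite, b ∈ Sᶜ := hS.compl_mem_cofinite
        filter_upwards [h1, ae_add 1 h1] with b h2 h3 h4
        have := hinj' h2 h3 h4
        simp at this))
    apply q1
    obtain ⟨t, ht, e⟩ := p1
    rw [ha] at e
    have e2 : a = t := by simpa using congrArg Prod.snd e
    have e1 : a * φ b₁ = t * φ (b₁ + 1) := by simpa using congrArg Prod.fst e
    rw [e2] at e1
    exact mul_left_cancel₀ ht e1
  -- an eigenvector
  obtain ⟨a, ha⟩ := Module.End.exists_eigenvalue ((g 1).toLinearMap : Module.End l (l × l))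
  obtain ⟨v, hv⟩ := ha.exists_hasEigenvector
  have hv0 : v ≠ 0 := hv.2
  have hva : g 1 v = a • v := hv.apply_eq_smul
  have hcv : ∀ c, ∃ s : l, g c v = s • v := by
    intro c
    apply exists_smul_of_dt hv0
    by_contra hne
    have h1 : g 1 (g c v) = a • g c v := by
      rw [hcomm 1 c v, hva, map_smul]
    exact hns a (scalar_of_two (f := (g 1).toLinearMap) hne hva h1)
  -- stability of the set of common eigenvectors under the dilations
  have hstab : ∀ (w : l × l), (∀ c, ∃ s : l, g c w = s • w) → ∀ m, m ≠ 0 →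
      ∀ c, ∃ s : l, g c (h m w) = s • h m w := by
    intro w hw m hm c
    obtain ⟨u, hu, e⟩ := hconj m (c / m) hm
    obtain ⟨s, hs⟩ := hw (c / m)
    have e1 := e w
    rw [mul_div_cancel₀ c hm, hs, map_smul] at e1
    refine ⟨u⁻¹ * s, ?_⟩
    rw [mul_smul, e1, smul_smul, inv_mul_cancel₀ hu, one_smul]
  have hsq : ∀ m, m ≠ 0 → ∃ s : l, h m (h m v) = s • v := by
    intro m hm
    have hw0 : h m v ≠ 0 := fun h0 => hv0 ((LinearEquiv.map_eq_zero_iff _).1 h0)
    have hu0 : h m (h m v) ≠ 0 := fun h0 => hw0 ((LinearEquiv.map_eq_zero_iff _).1 h0)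
    by_cases h1 : dt v (h m v) = 0
    · obtain ⟨s, hs⟩ := exists_smul_of_dt hv0 h1
      refine ⟨s * s, ?_⟩
      rw [hs, map_smul, hs, smul_smul]
    by_cases h2 : dt v (h m (h m v)) = 0
    · exact exists_smul_of_dt hv0 h2
    by_cases h3 : dt (h m (h m v)) (h m v) = 0
    · obtain ⟨s, hs⟩ := exists_smul_of_dt hu0 h3
      rw [← map_smul] at hs
      have h4 := (h m).injective hs
      have h5 : dt v (h m v) = 0 := by
        have h6 : dt (s • h m v) (h m v) = s * dt (h m v) (h m v) := by
          simp only [dt, Prod.smul_fst, Prod.smul_snd, smul_eq_mul]; ring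
        rw [← h4, dt_self, mul_zero] at h6
        exact h6
      exact absurd h5 h1
    · exfalso
      obtain ⟨s1, e1⟩ := hcv 1
      obtain ⟨s2, e2⟩ := hstab v hcv m hm 1
      obtain ⟨s3, e3⟩ := hstab _ (hstab v hcv m hm) m hm 1
      exact hns s1 (scal3 (f := (g 1).toLinearMap) h1 h2 h3 e1 e2 e3).2
  refine ⟨v, hv0, hcv, ?_⟩
  intro c hc
  obtain ⟨m, hm⟩ := IsAlgClosed.exists_eq_mul_self c
  have hm0 : m ≠ 0 := by
    rintro rfl
    exact hc (by simpa using hm)
  obtain ⟨u, hu, e⟩ := hmul m m hm0 hm0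
  obtain ⟨s, hs⟩ := hsq m hm0
  refine ⟨u⁻¹ * s, ?_⟩
  have e1 := e v
  rw [← hm, hs] at e1
  rw [mul_smul, e1, smul_smul, inv_mul_cancel₀ hu, one_smul]

end alg

end Vale.Agent.P019P
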