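import Vale.Agent.P019.Sigma
import Vale.Agent.P019P.MobB
import Vale.Agent.P019P.Sigma1
import Vale.Agent.P019P.Sigma2
import Vale.Agent.P019P.Sigma3

/-!
# From Moebius relations to an isomorphism of fields, twisted version, any characteristic
-/

namespace Vale.Agent.P019P

open Vale.Agent.P019

set_option linter.style.haveILetI false
set_option linter.unusedSectionVars false

open Filter



open Sg in
/-- twisted Moebius transformations along translations and dilations give a field isomorphism. -/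
theorem sigma_exists {k l : Type*} [Field k] [Field l]
    [IsAlgClosed k] [IsAlgClosed l] [Uncountable k] (ψ₁ ψ₂ ψ₃ : k → l)
    (hinj₁ : ∃ S : Set k, S.Finite ∧ Set.InjOn ψ₁ Sᶜ) (hsurj₁ : (Set.range ψ₁)ᶜ.Finite)
    (hadd : ∀ᶠ a in cofinite, ∃ (i j : ℕ) (A B C D : l), A * D - B * C ≠ 0 ∧
      ∀ᶠ b in cofinite, MobRel A B C D (ψ₁ b ^ (ringExpChar l) ^ j)
        (ψ₂ (a + b) ^ (ringExpChar l) ^ i))
    (hmul : ∀ᶠ a in cofinite, ∃ (i j : ℕ) (A B C D : l), A * D - B * C ≠ 0 ∧
      ∀ᶠ b in cofinite, MobRel A B C D (ψ₁ b ^ (ringExpChar l) ^ j)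
        (ψ₃ (a * b) ^ (ringExpChar l) ^ i)) :
    ∃ (σ : k ≃+* l) (A B C D : l), A * D - B * C ≠ 0 ∧
      ∀ᶠ b in cofinite, MobRel A B C D (σ b) (ψ₁ b) := by
  have hg : ∀ c, ∃ g : (l × l) ≃ₗ[l] (l × l),
      ∀ᶠ b in cofinite, Act g (ψ₁ b) (ψ₁ (b + c)) := by
    intro c
    obtain ⟨A, B, C, D, h0, h1⟩ := untwist_add ψ₁ ψ₂ hinj₁ hsurj₁ hadd c
    obtain ⟨g, hg⟩ := exists_of_matrix h0
    exact ⟨g, h1.mono fun b hb => hg _ _ hb⟩
  have hh : ∀ c, ∃ g : (l × l) ≃ₗ[l] (l × l),
      c ≠ 0 → ∀ᶠ b in cofinite, Act g (ψ₁ b) (ψ₁ (c * b)) := by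
    intro c
    by_cases hc : c = 0
    · exact ⟨LinearEquiv.refl _ _, fun h => absurd hc h⟩
    obtain ⟨A, B, C, D, h0, h1⟩ := untwist_mul ψ₁ ψ₃ hinj₁ hsurj₁ hmul c hc
    obtain ⟨g, hg⟩ := exists_of_matrix h0
    exact ⟨g, fun _ => h1.mono fun b hb => hg _ _ hb⟩
  choose g hg using hg
  choose h hh using hh
  obtain ⟨v, hv0, hgv, hhv⟩ := exists_common ψ₁ hinj₁ g h hg hh
  obtain ⟨M, s, hs, hM⟩ := exists_move hv0
  have hM' : M.symm (1, 0) = s⁻¹ • v := by
    rw [LinearEquiv.symm_apply_eq, map_smul, hM, smul_smul, inv_mul_cancel₀ hs, one_smul]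
  -- the moved function
  let φ : k → l := fun b => (M (ψ₁ b, 1)).1 / (M (ψ₁ b, 1)).2
  have hMφ : ∀ᶠ b in cofinite, Act M (ψ₁ b) (φ b) := by
    obtain ⟨S, hS, hinj⟩ := hinj₁
    have h1 : ∀ᶠ b in cofinite, b ∈ Sᶜ := hS.compl_mem_cofinite
    have h2 : {b | b ∈ Sᶜ ∧ (M (ψ₁ b, 1)).2 = 0}.Subsingleton := by
      rintro b ⟨hb, hb0⟩ b' ⟨hb', hb0'⟩
      apply hinj hb hb'
      have e : ∀ x : l, (M (x, 1)).2 = 0 → ((x, 1) : l × l) = ((M (x, 1)).1 * s⁻¹) • v := by
        intro x hx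
        rw [mul_smul, ← hM', ← map_smul, ← LinearEquiv.symm_apply_eq, LinearEquiv.symm_symm]
        ext
        · simp
        · simp [hx]
      have e1 := e _ hb0
      have e2 := e _ hb0'
      have f1 := congrArg Prod.snd e1
      have f2 := congrArg Prod.snd e2
      have g1 := congrArg Prod.fst e1
      have g2 := congrArg Prod.fst e2
      simp only [Prod.smul_snd, Prod.smul_fst, smul_eq_mul] at f1 f2 g1 g2
      have hv2 : v.2 ≠ 0 := by
        intro h0
        rw [h0, mul_zero] at f1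
        exact one_ne_zero f1
      have k1 : (M (ψ₁ b, 1)).1 * s⁻¹ = (M (ψ₁ b', 1)).1 * s⁻¹ := by
        apply mul_right_cancel₀ hv2
        rw [← f1, ← f2]
      rw [g1, g2, k1]
    have h3 : ∀ᶠ b in cofinite, ¬ (b ∈ Sᶜ ∧ (M (ψ₁ b, 1)).2 = 0) := by
      exact h2.finite.compl_mem_cofinite
    filter_upwards [h1, h3] with b hb1 hb3
    have hb : (M (ψ₁ b, 1)).2 ≠ 0 := fun h0 => hb3 ⟨hb1, h0⟩
    refine ⟨(M (ψ₁ b, 1)).2, hb, ?_⟩
    ext
    · simp only [φ, Prod.smul_fst, smul_eq_mul]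
      field_simp
    · simp
  have hφinj : ∃ S : Set k, S.Finite ∧ Set.InjOn φ Sᶜ := by
    obtain ⟨S, hS, hinj⟩ := hinj₁
    refine ⟨S ∪ {b | ¬ Act M (ψ₁ b) (φ b)}, hS.union hMφ, ?_⟩
    intro b hb b' hb' hbb
    simp only [Set.mem_compl_iff, Set.mem_union, Set.mem_ofPred_eq, not_or, not_not] at hb hb'
    apply hinj hb.1 hb'.1
    have := hb'.2
    rw [← hbb] at this
    exact hb.2.eq_left this
  obtain ⟨σ, p, q, hp, hσ⟩ := affine_case φ hφinj
    (by
      intro c
      obtain ⟨t, ht⟩ := hgv c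
      obtain ⟨α, β, hα, hαβ⟩ := affine_of_fix (g := (M.symm.trans (g c)).trans M) (s := t) (by
        rw [LinearEquiv.trans_apply, LinearEquiv.trans_apply, hM', map_smul, ht, map_smul,
          map_smul, hM, smul_smul, smul_smul, mul_right_comm, inv_mul_cancel₀ hs, one_mul])
      refine ⟨α, β, hα, ?_⟩
      filter_upwards [hMφ, ae_add c hMφ, hg c] with b e1 e2 e3
      exact hαβ _ _ ((e1.symm.comp e3).comp e2))
    (by
      intro c hc
      obtain ⟨t, ht⟩ := hhv c hc
      obtain ⟨α, β, hα, hαβ⟩ := affine_of_fix (g := (M.symm.trans (h c)).trans M) (s := t) (by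
        rw [LinearEquiv.trans_apply, LinearEquiv.trans_apply, hM', map_smul, ht, map_smul,
          map_smul, hM, smul_smul, smul_smul, mul_right_comm, inv_mul_cancel₀ hs, one_mul])
      refine ⟨α, β, hα, ?_⟩
      filter_upwards [hMφ, ae_mul hc hMφ, hh c hc] with b e1 e2 e3
      exact hαβ _ _ ((e1.symm.comp e3).comp e2))
  -- the composite Moebius transformation
  obtain ⟨N, hN⟩ := exists_of_matrix (A := p) (B := q) (C := 0) (D := 1) (l := l)
    (by simpa using hp)
  let K : (l × l) ≃ₗ[l] (l × l) := N.trans M.symm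
  have hK : ∀ᶠ b in cofinite, Act K (σ b) (ψ₁ b) := by
    filter_upwards [hMφ, hσ] with b e1 e2
    have : Act N (σ b) (φ b) := hN _ _ (by unfold MobRel; rw [e2]; ring)
    exact this.comp e1.symm
  -- surjectivity
  have hrange : (Set.range σ)ᶜ.Finite := by
    have hF : {b | ¬ Act K (σ b) (ψ₁ b)}.Finite := hK
    have hbad : ((Set.range ψ₁)ᶜ ∪ ψ₁ '' {b | ¬ Act K (σ b) (ψ₁ b)}).Finite :=
      hsurj₁.union (hF.image _)
    refine ((hbad.image (fun y => (K.symm (y, 1)).1 / (K.symm (y, 1)).2)).union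
      (Set.finite_singleton ((K.symm (1, 0)).1 / (K.symm (1, 0)).2))).subset ?_
    intro w hw
    by_cases hT : (K (w, 1)).2 = 0
    · right
      have e : ((w, 1) : l × l) = (K (w, 1)).1 • K.symm (1, 0) := by
        rw [← map_smul, ← LinearEquiv.symm_apply_eq, LinearEquiv.symm_symm]
        ext
        · simp
        · simp [hT]
      have e1 := congrArg Prod.fst e
      have e2 := congrArg Prod.snd e
      simp only [Prod.smul_fst, Prod.smul_snd, smul_eq_mul] at e1 e2
      have hne : (K.symm (1, 0)).2 ≠ 0 := by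
        intro h0
        rw [h0, mul_zero] at e2
        exact one_ne_zero e2
      rw [Set.mem_singleton_iff, eq_div_iff hne, e1]
      linear_combination -(K.symm (1, 0)).1 * e2
    · left
      have hact : Act K w ((K (w, 1)).1 / (K (w, 1)).2) := by
        refine ⟨(K (w, 1)).2, hT, ?_⟩
        ext
        · simp only [Prod.smul_fst, smul_eq_mul]
          field_simp
        · simp
      refine ⟨(K (w, 1)).1 / (K (w, 1)).2, ?_, ?_⟩
      · by_contra hnb
        simp only [Set.mem_union, Set.mem_compl_iff, Set.mem_image, not_or, not_not,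
          Set.mem_ofPred_eq, Set.mem_range] at hnb
        obtain ⟨⟨b, hb⟩, h2⟩ := hnb
        have hb' : Act K (σ b) (ψ₁ b) := by
          by_contra hcon
          exact h2 ⟨b, hcon, hb⟩
        rw [hb] at hb'
        exact hw ⟨b, hb'.eq_left hact⟩
      · obtain ⟨t, ht, e⟩ := hact.symm
        have e1 := congrArg Prod.fst e
        have e2 := congrArg Prod.snd e
        simp only [Prod.smul_fst, Prod.smul_snd, smul_eq_mul, mul_one] at e1 e2
        simp only
        rw [e1, e2]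
        field_simp
  have hsurj : Function.Surjective σ := by
    intro y
    by_contra hy
    have h1 : (Set.range (fun z : k => y + σ z)).Infinite :=
      Set.infinite_range_of_injective (fun a b hab => σ.injective (add_left_cancel hab))
    apply h1
    refine hrange.subset ?_
    rintro _ ⟨z, rfl⟩ ⟨w, hw⟩
    apply hy
    refine ⟨w - z, ?_⟩
    rw [map_sub, hw]
    simp
  obtain ⟨A, B, C, D, hdet, hmat⟩ := exists_matrix K
  refine ⟨RingEquiv.ofBijective σ ⟨σ.injective, hsurj⟩, A, B, C, D, hdet, ?_⟩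
  filter_upwards [hK] with b hb
  exact hmat _ _ hb

end Vale.Agent.P019P
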