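import Vale.Agent.P019.LemZ
import Vale.Agent.P019P.FrameB

/-!
# Rationality of functions that are constant on fibres (perfect version)
-/

namespace Vale.Agent.P019P

open Vale.Agent.P019

set_option linter.style.haveILetI false
set_option linter.unusedSectionVars false

open Polynomial Filter

variable {N : Type*} [Field N]

/-- the reduction argument over one point `b` : the minimal polynomial of `h` reduces to a power
of `X - c`. -/
theorem lemZ_point {G : Subfield N} {σ h b c : N} {W : ValuationSubring N}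
    (F' : Subfield N) (hGF : G ≤ F') (hσF : σ ∈ F') (hh : IsAlgebraic F' h) (hb : b ∈ G)
    (hc : c ∈ G) (hov : Over W G σ b) (hint : IntCoeff W (minpoly F' h))
    (hW : ∀ W : ValuationSubring N, Over W G σ b → W.valuation (h - c) < 1)
    (hn : 2 ≤ (minpoly F' h).natDegree) :
    W.valuation (aeval h (derivative (minpoly F' h))) < 1 := by
  set Φ := minpoly F' h with hΦdef
  have hmon : Φ.Monic := minpoly.monic hh.isIntegral
  set n := Φ.natDegree with hndef
  -- the ring of `W`-integral elements of `F'`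
  let O : Subring F' := W.toSubring.comap F'.subtype
  let ψ : O →+* W := (F'.subtype.comp O.subtype).codRestrict W.toSubring (fun x => x.2)
  let ρ : O →+* IsLocalRing.ResidueField W := (IsLocalRing.residue W).comp ψ
  have hρ : ∀ x : O, ρ x = 0 ↔ W.valuation ((x : F') : N) < 1 := fun x => residue_eq_zero (ψ x)
  let ι : O →+* F' := O.subtype
  have hι : Function.Injective ι := Subtype.val_injective
  let jj : O →+* N := F'.subtype.comp ι
  let B : Subring N := (eval₂RingHom jj h).range
  have hσW : σ ∈ W := hov.mem hb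
  have hGB : ∀ g ∈ G, g ∈ B := by
    intro g hg
    refine ⟨C (⟨⟨g, hGF hg⟩, hov.triv g hg⟩ : O), ?_⟩
    simp [jj, ι]
  have hσB : σ ∈ B := by
    refine ⟨C (⟨⟨σ, hσF⟩, hσW⟩ : O), ?_⟩
    simp [jj, ι]
  have hhB : h ∈ B := ⟨X, by simp⟩
  obtain ⟨m, β, ⟨P, hP⟩, hm⟩ := exists_pow_eq B hGB hσB hhB hb hc hW
  let σO : O := ⟨⟨σ - b, F'.sub_mem hσF (hGF hb)⟩, (W.valuation_le_one_iff _).1 hov.lt.le⟩
  let cO : O := ⟨⟨c, hGF hc⟩, hov.triv c hc⟩
  let Ψ : O[X] := (X - C cO) ^ m - C σO * P
  have hΨ : aeval h (Ψ.map ι) = 0 := by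
    rw [aeval_def, eval₂_map]
    have e1 : (algebraMap F' N).comp ι = jj := rfl
    rw [e1]
    have e2 : eval₂ jj h P = β := hP
    have e3 : jj σO = σ - b := rfl
    have e4 : jj cO = c := rfl
    simp only [Ψ, eval₂_sub, eval₂_pow, eval₂_X, eval₂_C, eval₂_mul, e2, e3, e4, hm, sub_self]
  have hdvd : Φ ∣ Ψ.map ι := minpoly.dvd F' h hΨ
  -- lift of the minimal polynomial
  obtain ⟨Φ0, hΦ0, hΦ0m⟩ : ∃ Φ0 : O[X], Φ0.map ι = Φ ∧ Φ0.Monic := by
    have h1 : Φ ∈ lifts ι := by
      rw [lifts_iff_coeff_lifts]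
      intro i
      exact ⟨⟨Φ.coeff i, hint i⟩, rfl⟩
    obtain ⟨Q, hQ1, _, hQ3⟩ := lifts_and_natDegree_eq_and_monic h1 hmon
    exact ⟨Q, hQ1, hQ3⟩
  have hdvd0 : Φ0 ∣ Ψ := by
    rw [← hΦ0] at hdvd
    exact (map_dvd_map ι hι hΦ0m).1 hdvd
  have hred : Φ0.map ρ ∣ (X - C (ρ cO)) ^ m := by
    have h1 := Polynomial.map_dvd ρ hdvd0
    have h2 : Ψ.map ρ = (X - C (ρ cO)) ^ m := by
      have h3 : ρ σO = 0 := (hρ σO).2 hov.lt
      simp only [Ψ, Polynomial.map_sub, Polynomial.map_pow, Polynomial.map_mul, map_X, map_C, h3,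
        map_zero, zero_mul, sub_zero]
    rwa [h2] at h1
  have hmρ : (Φ0.map ρ).Monic := hΦ0m.map ρ
  have hn0 : Φ0.natDegree = n := by
    rw [hndef, ← hΦ0, hΦ0m.natDegree_map]
  have hdeg : (Φ0.map ρ).natDegree = n := by rw [hΦ0m.natDegree_map, hn0]
  have hpow := eq_pow_of_dvd hmρ hred
  rw [hdeg] at hpow
  -- the element `h` is integral with residue that of `c`
  have hcW : c ∈ W := hov.triv c hc
  have hhW : h ∈ W := by
    have h1 : h = (h - c) + c := by ring
    rw [h1]
    exact add_mem ((W.valuation_le_one_iff _).1 (hW W hov).le) hcW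
  have hres : IsLocalRing.residue W ⟨h, hhW⟩ = ρ cO := by
    have h1 : IsLocalRing.residue W ((⟨h, hhW⟩ : W) - ⟨c, hcW⟩) = 0 :=
      (residue_eq_zero _).2 (hW W hov)
    rw [map_sub, sub_eq_zero] at h1
    exact h1
  -- the derivative at `h`
  have hval : aeval h (derivative Φ) = ((eval₂ ψ ⟨h, hhW⟩ (derivative Φ0) : W) : N) := by
    rw [← hΦ0, Polynomial.derivative_map, aeval_def, eval₂_map]
    have e1 : (algebraMap F' N).comp ι = W.subtype.comp ψ := rfl
    rw [e1]
    have e2 := Polynomial.hom_eval₂ (derivative Φ0) ψ W.subtype ⟨h, hhW⟩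
    exact e2.symm
  rw [hval, ← residue_eq_zero, Polynomial.hom_eval₂, hres]
  have e3 : eval₂ ((IsLocalRing.residue W).comp ψ) (ρ cO) (derivative Φ0) =
      eval (ρ cO) (derivative (Φ0.map ρ)) := by
    rw [Polynomial.derivative_map, eval_map]
  rw [e3, hpow, derivative_X_sub_C_pow, eval_mul, eval_pow, eval_sub, eval_X, eval_C, eval_C, sub_self,
    zero_pow (by omega), mul_zero]

theorem lemZ [PerfectField N] {G : Subfield N} [PerfectField G] {σ h : N}
    (hσ : ¬ IsAlgebraic G σ) (hh : IsAlgebraic (adj G σ) h)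
    (hinf : {b : N | b ∈ G ∧ ∃ c ∈ G, ∀ W : ValuationSubring N, Over W G σ b →
      W.valuation (h - c) < 1}.Infinite) : h ∈ adj G σ := by
  classical
  set P := adj G σ with hP
  have hPsep : (minpoly P h).Separable :=
    (PerfectField.separable_iff_squarefree).2
      (minpoly.irreducible hh.isIntegral).squarefree
  -- a plain field containing the coefficients
  obtain ⟨m, y, hy, hcoef⟩ := exists_common_root (E := G) (t := σ)
    ((minpoly P h).support.image fun i => ((minpoly P h).coeff i : N)) (by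
      intro z hz
      obtain ⟨i, _, rfl⟩ := Finset.mem_image.1 hz
      exact ((minpoly P h).coeff i).2)
  have hcoef' : ∀ i, ((minpoly P h).coeff i : N) ∈ Vale.Agent.P019.adj G y := by
    intro i
    by_cases hi : i ∈ (minpoly P h).support
    · exact hcoef _ (Finset.mem_image_of_mem _ hi)
    · rw [Polynomial.notMem_support_iff.1 hi]
      exact (Vale.Agent.P019.adj G y).zero_mem
  set F' := IntermediateField.adjoin G {y} with hF'
  have hFP : ∀ z ∈ F', z ∈ P := by
    intro z hz
    rw [mem_adjoin_simple] at hz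
    have h1 : adj G (y ^ ringExpChar N ^ m) = adj G y := adj_pow G y m
    rw [hP, ← hy, h1]
    exact adj0_le_adj G y hz
  -- the minimal polynomial descends
  obtain ⟨Q, hQ⟩ : ∃ Q : F'[X], Q.map (algebraMap F' N) = (minpoly P h).map (algebraMap P N) := by
    have h1 : (minpoly P h).map (algebraMap P N) ∈ lifts (algebraMap F' N) := by
      rw [lifts_iff_coeff_lifts]
      intro i
      rw [coeff_map]
      exact ⟨⟨_, mem_adjoin_simple.2 (hcoef' i)⟩, rfl⟩
    exact (mem_lifts _).1 h1
  have hQ0 : Q ≠ 0 := by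
    intro h0
    rw [h0, Polynomial.map_zero] at hQ
    exact (Polynomial.map_ne_zero (minpoly.ne_zero hh.isIntegral)) hQ.symm
  have hQroot : aeval h Q = 0 := by
    have h1 : aeval h Q = eval h (Q.map (algebraMap F' N)) := by
      rw [eval_map, aeval_def]
    rw [h1, hQ, eval_map, ← aeval_def, minpoly.aeval]
  have hh' : IsAlgebraic F' h := ⟨Q, hQ0, hQroot⟩
  have hQsep : Q.Separable := by
    have h1 : (Q.map (algebraMap F' N)).Separable := by
      rw [hQ]
      exact hPsep.map
    exact (Polynomial.separable_map _).1 h1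
  set Φ := minpoly F' h with hΦdef
  have hΦsep : Φ.Separable := hQsep.of_dvd (minpoly.dvd F' h hQroot)
  have hΦpos : 0 < Φ.natDegree := minpoly.natDegree_pos hh'.isIntegral
  by_cases hn : 2 ≤ Φ.natDegree
  · exfalso
    have hder : aeval h (derivative Φ) ≠ 0 := hΦsep.aeval_derivative_ne_zero (minpoly.aeval F' h)
    have hyG : ¬ IsAlgebraic G y := by
      intro h1
      apply hσ
      rw [← hy]
      exact h1.pow _
    have halg : IsAlgebraic F' (aeval h (derivative Φ)) := by
      have h1 : aeval h (derivative Φ) ∈ Algebra.adjoin F' {h} := aeval_mem_adjoin_singleton F' h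
      have h2 : Algebra.adjoin F' {h} ≤ integralClosure F' N :=
        Algebra.adjoin_le (Set.singleton_subset_iff.2 hh'.isIntegral)
      exact (h2 h1 : IsIntegral F' (aeval h (derivative Φ))).isAlgebraic
    have h1 := (int_ae hh').and (unit_ae halg hder)
    have h2 : {b : G | ∃ c ∈ G, ∀ W : ValuationSubring N, Over W G y b →
      W.valuation (h - c) < 1}.Infinite := by
      intro hfin
      apply hinf
      refine (hfin.image (fun b : G => (b : N) ^ ringExpChar N ^ m)).subset ?_
      rintro b ⟨hb, c, hc, hcW⟩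
      obtain ⟨b', hb', hbb⟩ := exists_root_q G hb m
      refine ⟨⟨b', hb'⟩, ⟨c, hc, fun W hW => hcW W ⟨hW.triv, ?_⟩⟩, hbb⟩
      rw [← hy, ← hbb, ← sub_pow_q, map_pow]
      exact pow_lt_one₀ zero_le hW.lt (pow_pos (expChar_pos N _) m).ne'
    obtain ⟨b, ⟨c, hc, hcW⟩, h3, h4⟩ :=
      ((frequently_cofinite_iff_infinite.2 h2).and_eventually h1).exists
    obtain ⟨W, hW⟩ := exists_over hyG b.2
    have h5 := lemZ_point (W := W) F'.toSubfield (fun g hg => F'.algebraMap_mem ⟨g, hg⟩)
      (IntermediateField.mem_adjoin_simple_self G y) hh' b.2 hc hW (h3 W hW) hcW hn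
    exact absurd (h4 W hW) (ne_of_lt h5)
  · have hn1 : Φ.natDegree = 1 := by omega
    apply hFP
    have h1 : h ∈ (algebraMap F' N).range := by
      rw [← minpoly.natDegree_eq_one_iff]
      exact hn1
    obtain ⟨z, rfl⟩ := h1
    exact z.2

end Vale.Agent.P019P
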