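import Vale.Agent.P019.RatDesc
import Vale.Agent.P019.Lur
import Vale.Agent.P019P.FrameB

/-!
# Rational functions with many values in a smaller field, Lueroth (perfect version)
-/

namespace Vale.Agent.P019P

open Vale.Agent.P019

set_option linter.style.haveILetI false
set_option linter.unusedSectionVars false

open Polynomial Filter

variable {N : Type*} [Field N]

theorem rat_descent [PerfectField N] {k G : Subfield N} [PerfectField k] [PerfectField G]
    (hkG : k ≤ G) {σ h : N} (hσ : ¬ IsAlgebraic G σ) (hh : h ∈ adj G σ)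
    (hinf : {b : N | b ∈ k ∧ ∃ c ∈ k, ∀ W : ValuationSubring N, Over W G σ b →
      W.valuation (h - c) < 1}.Infinite) : h ∈ adj k σ := by
  obtain ⟨m, y, hy, hhy⟩ := mem_adj_root.1 hh
  have hqm : 0 < ringExpChar N ^ m := pow_pos (expChar_pos N _) m
  have hyG : ¬ IsAlgebraic G y := by
    intro h0
    apply hσ
    rw [← hy]
    exact h0.pow _
  refine mem_adj_root.2 ⟨m, y, hy, Vale.Agent.P019.rat_descent hkG hyG hhy ?_⟩
  intro hfin
  apply hinf
  refine (hfin.image fun x => x ^ ringExpChar N ^ m).subset ?_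
  rintro b ⟨hb, c, hc, hW⟩
  obtain ⟨b0, hb0, hbb⟩ := exists_root_q k hb m
  refine ⟨b0, ⟨hb0, c, hc, fun W hover => hW W ⟨hover.triv, ?_⟩⟩, hbb⟩
  have e : σ - b = (y - b0) ^ ringExpChar N ^ m := by
    rw [sub_pow_q, hy, hbb]
  rw [e, map_pow]
  exact pow_lt_one₀ zero_le hover.lt hqm.ne'

theorem luroth_sub [PerfectField N] {k E : Subfield N} [PerfectField k] [PerfectField E] {σ : N}
    (hσ : ¬ IsAlgebraic k σ) (hkE : k ≤ E) (hE : E ≤ adj k σ) (hne : ¬ E ≤ k) :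
    ∃ u ∈ E, E = adj k u := by
  have hnot : ¬ E ⊓ Vale.Agent.P019.adj k σ ≤ k := by
    intro hle
    apply hne
    intro z hz
    obtain ⟨n, hn⟩ := mem_adj_iff.1 (hE hz)
    exact mem_of_pow_q (hle (Subfield.mem_inf.2 ⟨E.pow_mem hz _, hn⟩))
  obtain ⟨u, hu, hEu⟩ := Vale.Agent.P019.luroth_sub (E := E ⊓ Vale.Agent.P019.adj k σ) hσ
    (le_inf hkE (Vale.Agent.P019.le_adj k σ)) inf_le_right hnot
  refine ⟨u, (Subfield.mem_inf.1 hu).1, le_antisymm ?_ (adj_le hkE (Subfield.mem_inf.1 hu).1)⟩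
  intro z hz
  obtain ⟨n, hn⟩ := mem_adj_iff.1 (hE hz)
  refine mem_adj_iff.2 ⟨n, ?_⟩
  rw [← hEu]
  exact Subfield.mem_inf.2 ⟨E.pow_mem hz _, hn⟩

end Vale.Agent.P019P
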