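import Vale.Agent.P019.DelB
import Vale.Agent.P019P.D2

/-!
# The functionals of the points of a rational curve (perfect version)
-/

namespace Vale.Agent.P019P

open Vale.Agent.P019

set_option linter.style.haveILetI false
set_option linter.unusedSectionVars false

open Polynomial Filter

variable {K : Type*} [Field K] [PerfectField K] {ℓ : ℕ} [Fact ℓ.Prime] [NeZero (ℓ : K)]
  {k : Subfield K}

theorem cl_sub_independent (hk : IsAlgClosed k) {s : K} (hs : Good k s) :
    LinearIndependent (ZMod ℓ) (fun c : k => cl ℓ (s - (c : K))) := by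
  classical
  rw [linearIndependent_iff']
  intro T g hg c hc
  let n : K → ZMod ℓ := fun a => if h : a ∈ k then g ⟨a, h⟩ else 0
  have hn : ∀ a : k, n a = g a := by
    intro a
    change (if h : (a : K) ∈ k then g ⟨a, h⟩ else 0) = g a
    rw [dif_pos a.2]
  have h1 := good_independent (ℓ := ℓ) hk hs (T.map ⟨Subtype.val, Subtype.val_injective⟩)
    (by
      intro a ha
      obtain ⟨a', _, rfl⟩ := Finset.mem_map.1 ha
      exact a'.2) n
    (by
      rw [Finset.sum_map]
      rw [← hg]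
      refine Finset.sum_congr rfl ?_
      intro a _
      change n a • cl ℓ (s - (a : K)) = _
      rw [hn])
  have h2 := h1 c (Finset.mem_map.2 ⟨c, hc, rfl⟩)
  rw [hn] at h2
  exact h2

theorem exists_del (hk : IsAlgClosed k) {s : K} (hs : Good k s) {b : K} (hb : b ∈ k) :
    ∃ f : V ℓ K →ₗ[ZMod ℓ] ZMod ℓ, f (cl ℓ (s - b)) = 1 ∧
      ∀ c ∈ k, c ≠ b → f (cl ℓ (s - c)) = 0 := by
  classical
  have hli := cl_sub_independent (ℓ := ℓ) hk hs
  obtain ⟨g, hg⟩ := LinearMap.exists_extend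
    ((Finsupp.lapply (⟨b, hb⟩ : k)).comp hli.repr :
      Submodule.span (ZMod ℓ) (Set.range fun c : k => cl ℓ (s - (c : K))) →ₗ[ZMod ℓ] ZMod ℓ)
  have key : ∀ c : k, g (cl ℓ (s - (c : K))) = if c = ⟨b, hb⟩ then 1 else 0 := by
    intro c
    have hmem : cl ℓ (s - (c : K)) ∈
        Submodule.span (ZMod ℓ) (Set.range fun c : k => cl ℓ (s - (c : K))) :=
      Submodule.subset_span ⟨c, rfl⟩
    have h1 := LinearMap.congr_fun hg ⟨_, hmem⟩
    have h2 : hli.repr ⟨cl ℓ (s - (c : K)), hmem⟩ = Finsupp.single c 1 :=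
      hli.repr_eq_single c _ rfl
    change g (cl ℓ (s - (c : K))) = (hli.repr ⟨cl ℓ (s - (c : K)), hmem⟩) ⟨b, hb⟩ at h1
    rw [h1, h2, Finsupp.single_apply]
  refine ⟨g, ?_, ?_⟩
  · have := key ⟨b, hb⟩
    rw [if_pos rfl] at this
    exact this
  · intro c hc hcb
    have := key ⟨c, hc⟩
    rw [if_neg (fun h => hcb (congrArg Subtype.val h))] at this
    exact this

theorem del_spec (hk : IsAlgClosed k) {s : K} (hs : Good k s) {b : K} (hb : b ∈ k) :
    del ℓ k s b (cl ℓ (s - b)) = 1 ∧ ∀ c ∈ k, c ≠ b → del ℓ k s b (cl ℓ (s - c)) = 0 := by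
  have h := exists_del (ℓ := ℓ) hk hs hb
  unfold del
  rw [dif_pos h]
  exact h.choose_spec

theorem del_self (hk : IsAlgClosed k) {s : K} (hs : Good k s) {b : K} (hb : b ∈ k) :
    del ℓ k s b (cl ℓ (s - b)) = 1 := (del_spec hk hs hb).1

theorem del_ne (hk : IsAlgClosed k) {s : K} (hs : Good k s) {b c : K} (hb : b ∈ k) (hc : c ∈ k)
    (hcb : c ≠ b) : del ℓ k s b (cl ℓ (s - c)) = 0 := (del_spec hk hs hb).2 c hc hcb

open Classical in
theorem del_eval (hk : IsAlgClosed k) {s : K} (hs : Good k s) (T : Finset K)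
    (hT : ∀ c ∈ T, c ∈ k) (n : K → ZMod ℓ) {b : K} (hb : b ∈ k) :
    del ℓ k s b (∑ c ∈ T, n c • cl ℓ (s - c)) = if b ∈ T then n b else 0 := by
  rw [map_sum]
  have h1 : ∀ c ∈ T, del ℓ k s b (n c • cl ℓ (s - c)) = if b = c then n c else 0 := by
    intro c hc
    rw [map_smul]
    by_cases h : b = c
    · subst h
      rw [del_self hk hs hb, if_pos rfl, smul_eq_mul, mul_one]
    · rw [del_ne hk hs hb (hT c hc) (Ne.symm h), if_neg h, smul_zero]
  rw [Finset.sum_congr rfl h1, Finset.sum_ite_eq]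

theorem del_ae (hk : IsAlgClosed k) {s : K} (hs : Good k s) {v : V ℓ K}
    (hv : v ∈ VS ℓ (adj k s)) : ∀ᶠ b in ae k, del ℓ k s b v = 0 := by
  classical
  obtain ⟨T, n, hT, rfl⟩ := adj_factor hk hs.1 hv
  rw [ae_iff]
  refine T.finite_toSet.subset ?_
  rintro b ⟨hb, hne⟩
  rw [del_eval hk hs T hT n hb] at hne
  by_contra h
  exact hne (if_neg h)

theorem del_sum (hk : IsAlgClosed k) {s : K} (hs : Good k s) {v : V ℓ K}
    (hv : v ∈ VS ℓ (adj k s)) (S : Finset K) (hSk : ∀ b ∈ S, b ∈ k)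
    (hS : ∀ b ∈ k, b ∉ S → del ℓ k s b v = 0) :
    v = ∑ b ∈ S, del ℓ k s b v • cl ℓ (s - b) := by
  classical
  obtain ⟨T, n, hT, rfl⟩ := adj_factor hk hs.1 hv
  have hTS : ∀ b ∈ T, b ∉ S → n b = 0 := by
    intro b hb hbS
    have h1 := hS b (hT b hb) hbS
    rw [del_eval hk hs T hT n (hT b hb), if_pos hb] at h1
    exact h1
  have h1 : ∀ b ∈ S, del ℓ k s b (∑ c ∈ T, n c • cl ℓ (s - c)) • cl ℓ (s - b) =
      if b ∈ T then n b • cl ℓ (s - b) else 0 := by
    intro b hb
    rw [del_eval hk hs T hT n (hSk b hb)]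
    split_ifs
    · rfl
    · exact zero_smul _ _
  rw [Finset.sum_congr rfl h1, ← Finset.sum_filter]
  symm
  refine Finset.sum_subset (fun b hb => (Finset.mem_filter.1 hb).2) ?_
  intro b hb hb'
  have h2 : b ∉ S := fun h => hb' (Finset.mem_filter.2 ⟨h, hb⟩)
  rw [hTS b hb h2, zero_smul]

theorem del_ext (hk : IsAlgClosed k) {s : K} (hs : Good k s) {v : V ℓ K}
    (hv : v ∈ VS ℓ (adj k s)) (h : ∀ b ∈ k, del ℓ k s b v = 0) : v = 0 := by
  have h1 := del_sum hk hs hv ∅ (by simp) (fun b hb _ => h b hb)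
  rw [Finset.sum_empty] at h1
  exact h1

theorem del_finite (hk : IsAlgClosed k) {s : K} (hs : Good k s) (S : Finset K)
    (hSk : ∀ b ∈ S, b ∈ k) :
    {v : V ℓ K | v ∈ VS ℓ (adj k s) ∧ ∀ b ∈ k, b ∉ S → del ℓ k s b v = 0}.Finite := by
  classical
  have : NeZero ℓ := ⟨(Fact.out : ℓ.Prime).ne_zero⟩
  have hfin : (Set.range fun g : S → ZMod ℓ => ∑ b : S, g b • cl ℓ (s - (b : K))).Finite :=
    Set.finite_range _
  refine hfin.subset ?_
  rintro v ⟨hv, hvS⟩
  refine ⟨fun b => del ℓ k s b v, ?_⟩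
  have h1 := del_sum hk hs hv S hSk hvS
  conv_rhs => rw [h1]
  rw [← Finset.sum_coe_sort S]

/-- functionals that kill the units of a valuation, at finite distance. -/
theorem del_of_kills (hk : IsAlgClosed k) {s : K} (hs : Good k s) {O : ValuationSubring K}
    (hOk : TrivOn O k) {b : K} (hb : b ∈ k) (hsb : O.valuation (s - b) < 1)
    (f : V ℓ K →ₗ[ZMod ℓ] ZMod ℓ) (hf : ∀ z, O.valuation z = 1 → f (cl ℓ z) = 0) {v : V ℓ K}
    (hv : v ∈ VS ℓ (adj k s)) : f v = f (cl ℓ (s - b)) * del ℓ k s b v := by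
  classical
  obtain ⟨T, n, hT, rfl⟩ := adj_factor hk hs.1 hv
  rw [del_eval hk hs T hT n hb, map_sum]
  have h1 : ∀ c ∈ T, f (n c • cl ℓ (s - c)) = if b = c then n c * f (cl ℓ (s - b)) else 0 := by
    intro c hc
    rw [map_smul]
    by_cases h : b = c
    · subst h
      rw [if_pos rfl, smul_eq_mul]
    · have h2 : O.valuation (b - c) = 1 :=
        hOk.eq_one (Subfield.sub_mem _ hb (hT c hc)) (sub_ne_zero.2 h)
      have h3 : O.valuation (s - c) = 1 := by
        have h4 : s - c = (s - b) + (b - c) := by ring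
        rw [h4, Valuation.map_add_eq_of_lt_right _ (by rw [h2]; exact hsb), h2]
      rw [hf _ h3, if_neg h, smul_zero]
  rw [Finset.sum_congr rfl h1, Finset.sum_ite_eq]
  split_ifs
  · ring
  · rw [mul_zero]

/-- a valuation that is nontrivial on `k(s)` has a centre. -/
theorem exists_centre (hk : IsAlgClosed k) {s : K} (hs : Good k s) {O : ValuationSubring K}
    (hOk : TrivOn O k) (hO : ¬ TrivOn O (adj k s)) :
    (∃ b ∈ k, O.valuation (s - b) < 1) ∨ 1 < O.valuation s := by
  by_contra hcon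
  push Not at hcon
  obtain ⟨h1, h2⟩ := hcon
  have hunit : ∀ c ∈ k, O.valuation (s - c) = 1 := by
    intro c hc
    refine le_antisymm ?_ (h1 c hc)
    refine (Valuation.map_sub _ _ _).trans (max_le h2 (hOk.le_one hc))
  have hpoly : ∀ p : k[X], p ≠ 0 → O.valuation (aeval s p) = 1 := by
    intro p hp
    have e1 : p = C p.leadingCoeff * (p.roots.map fun a => X - C a).prod :=
      (IsAlgClosed.splits p).eq_prod_roots
    have h3 : ((p.leadingCoeff : k) : K) ≠ 0 := by
      intro h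
      exact hp (leadingCoeff_eq_zero.1 (Subtype.ext h))
    have key : ∀ m : Multiset k,
        O.valuation (aeval s ((m.map fun a => X - C a).prod : k[X])) = 1 := by
      intro m
      induction m using Multiset.induction_on with
      | empty => simp
      | cons a m ih =>
        have e : aeval s (((a ::ₘ m).map fun a => X - C a).prod : k[X]) =
            (s - (a : K)) * aeval s ((m.map fun a => X - C a).prod : k[X]) := by
          rw [Multiset.map_cons, Multiset.prod_cons, map_mul, map_sub, aeval_X, aeval_C]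
          rfl
        rw [e, map_mul, ih, hunit a a.2, one_mul]
    have e2 : aeval s p = ((p.leadingCoeff : k) : K) *
        aeval s ((p.roots.map fun a => X - C a).prod : k[X]) := by
      conv_lhs => rw [e1]
      rw [map_mul, aeval_C]
      rfl
    rw [e2, map_mul, key, mul_one, hOk.eq_one (p.leadingCoeff).2 h3]
  apply hO
  intro z hz
  obtain ⟨N, hN⟩ := mem_adj_iff.1 hz
  rw [← O.valuation_le_one_iff]
  have hNle : O.valuation (z ^ (ringExpChar K) ^ N) ≤ 1 := by
    by_cases hz0 : z ^ (ringExpChar K) ^ N = 0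
    · rw [hz0, map_zero]
      exact zero_le_one
    obtain ⟨p, q, hpq⟩ := line_mem hN
    rw [hpq] at hz0 ⊢
    have hp : p ≠ 0 := by
      rintro rfl
      simp at hz0
    have hq : q ≠ 0 := by
      rintro rfl
      simp at hz0
    rw [map_div₀, hpoly p hp, hpoly q hq, div_one]
  rw [map_pow] at hNle
  exact (pow_le_one_iff (qn_ne_zero K N)).1 hNle

/-- twisting the coordinate by Frobenius multiplies the functional. -/
theorem del_pow (hk : IsAlgClosed k) {s : K} (hs : Good k s) {b : K} (hb : b ∈ k) (n : ℕ)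
    {v : V ℓ K} (hv : v ∈ VS ℓ (adj k s)) :
    (((ringExpChar K) ^ n : ℕ) : ZMod ℓ) *
      del ℓ k (s ^ (ringExpChar K) ^ n) (b ^ (ringExpChar K) ^ n) v = del ℓ k s b v := by
  classical
  haveI : IsAlgClosed k := hk
  haveI : PerfectField k := inferInstance
  obtain ⟨T, m, hT, rfl⟩ := adj_factor hk hs.1 hv
  have hs' : Good k (s ^ (ringExpChar K) ^ n) := good_pow.2 hs
  have hb' : b ^ (ringExpChar K) ^ n ∈ k := k.pow_mem hb _
  rw [del_eval hk hs T hT m hb, map_sum, Finset.mul_sum]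
  have h1 : ∀ c ∈ T, (((ringExpChar K) ^ n : ℕ) : ZMod ℓ) *
      del ℓ k (s ^ (ringExpChar K) ^ n) (b ^ (ringExpChar K) ^ n) (m c • cl ℓ (s - c)) =
      if b = c then m c else 0 := by
    intro c hc
    have h2 : (((ringExpChar K) ^ n : ℕ) : ZMod ℓ) *
        del ℓ k (s ^ (ringExpChar K) ^ n) (b ^ (ringExpChar K) ^ n) (m c • cl ℓ (s - c)) =
        m c * del ℓ k (s ^ (ringExpChar K) ^ n) (b ^ (ringExpChar K) ^ n)
          (cl ℓ (s ^ (ringExpChar K) ^ n - c ^ (ringExpChar K) ^ n)) := by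
      rw [← sub_pow_q, cl_pow_q, map_smul, map_smul, smul_eq_mul, smul_eq_mul]
      ring
    rw [h2]
    by_cases h : b = c
    · subst h
      rw [del_self hk hs' hb', if_pos rfl, mul_one]
    · rw [del_ne hk hs' hb' (k.pow_mem (hT c hc) _) (fun h' => h (pow_q_inj h').symm),
        if_neg h, mul_zero]
  rw [Finset.sum_congr rfl h1, Finset.sum_ite_eq]

end Vale.Agent.P019P
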