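import Vale.Agent.P019.Gen
import Vale.Agent.P019.Im
import Vale.Agent.P019P.FinK

/-!
# Places of perfect fields: weak discreteness and the unramified lemma
-/

namespace Vale.Agent.P019P

open Vale.Agent.P019

set_option linter.style.haveILetI false

open Polynomial

section perf

variable {K L : Type*} [Field K] [Field L]

theorem ringExpChar_eq_of_hom (f : K →+* L) : ringExpChar K = ringExpChar L := by
  haveI : ExpChar K (ringExpChar L) := f.expChar f.injective _
  exact ringExpChar.eq K (ringExpChar L)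

instance perfect_map (f : K →+* L) (E : Subfield K) [PerfectField E] :
    PerfectField (E.map f) := by
  refine perfect_of_root ?_
  rintro _ ⟨z, hz, rfl⟩
  obtain ⟨y, hy, hyz⟩ := exists_root_q E hz 1
  refine ⟨f y, ⟨y, hy, rfl⟩, ?_⟩
  rw [← ringExpChar_eq_of_hom f, ← map_pow, ← hyz, pow_one]

instance perfect_fieldRange (f : K →+* L) [PerfectField K] : PerfectField f.fieldRange := by
  haveI : PerfectRing K (ringExpChar K) := PerfectField.toPerfectRing _
  refine perfect_of_root ?_
  rintro _ ⟨z, rfl⟩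
  obtain ⟨y, hy⟩ := (bijective_frobenius K (ringExpChar K)).2 z
  refine ⟨f y, ⟨y, rfl⟩, ?_⟩
  rw [← ringExpChar_eq_of_hom f, ← map_pow, ← frobenius_def, hy]

/-- some `q`-power of an algebraic element is separable. -/
theorem exists_sep_pow {E : Subfield K} {x : K} (hx : IsAlgebraic E x) :
    ∃ n : ℕ, IsSeparable E (x ^ ringExpChar K ^ n) := by
  obtain ⟨g, hg, n, hn⟩ :=
    (minpoly.irreducible hx.isIntegral).hasSeparableContraction (ringExpChar K)
  refine ⟨n, ?_⟩
  have h1 : aeval (x ^ ringExpChar K ^ n) g = 0 := by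
    rw [← expand_aeval, hn, minpoly.aeval]
  exact hg.of_dvd (minpoly.dvd E _ h1)

end perf

section gd

variable {K Ω : Type*} [Field K] [Field Ω]

/-- `P` is discrete on `F` up to `q`-power roots, with uniformizer `π` and residues in `κ`. -/
def Gd (P : Pl K Ω) (π : K) (κ : Subfield Ω) (F : Subfield K) : Prop :=
  ∀ z ∈ F, z ≠ 0 → ∃ (m : ℕ) (n : ℤ), P.U (z ^ ringExpChar K ^ m * π ^ n) ∧
    P.ev (z ^ ringExpChar K ^ m * π ^ n) ∈ κ

variable {P : Pl K Ω} {π : K} {κ : Subfield Ω} {F : Subfield K}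

theorem Gd.of_strong (h : Vale.Agent.P019.Gd P π κ F) : Gd P π κ F := by
  intro z hz hz0
  obtain ⟨n, h1, h2⟩ := h z hz hz0
  exact ⟨0, n, by simpa using h1, by simpa using h2⟩

theorem Gd.mono {F' : Subfield K} (h : F' ≤ F) (hF : Gd P π κ F) : Gd P π κ F' :=
  fun z hz hz0 => hF z (h hz) hz0

theorem Gd.pf (hF : Gd P π κ F) : Gd P π κ (pf F) := by
  intro z hz hz0
  obtain ⟨j, hj⟩ := mem_pf.1 hz
  obtain ⟨m, n, h1, h2⟩ := hF _ hj (pow_ne_zero _ hz0)
  refine ⟨j + m, n, ?_, ?_⟩
  · rwa [pow_add, pow_mul]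
  · rwa [pow_add, pow_mul]

theorem mem_of_pow_qK (P : Pl K Ω) {κ : Subfield Ω} [PerfectField κ] {y : Ω} {m : ℕ}
    (h : y ^ ringExpChar K ^ m ∈ κ) : y ∈ κ := by
  by_cases h1 : ringExpChar K = 1
  · rw [h1, one_pow, pow_one] at h
    exact h
  · have key : ∀ q : ℕ, ExpChar P.O q → q ≠ 1 → ExpChar Ω q := by
      intro q hq hq1
      rcases hq with _ | hprime
      · exact absurd rfl hq1
      · haveI : CharP Ω q := by
          have h3 : ((q : ℕ) : Ω) = 0 := by
            rw [← map_natCast P.ψ, CharP.cast_eq_zero, map_zero]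
          haveI : Fact q.Prime := ⟨hprime⟩
          rw [CharP.charP_iff_prime_eq_zero hprime]
          exact h3
        exact ExpChar.prime hprime
    have h2 : ringExpChar K = ringExpChar Ω := by
      haveI := key (ringExpChar K) ((P.O.subtype).expChar Subtype.val_injective _) h1
      exact (ringExpChar.eq Ω (ringExpChar K)).symm
    rw [h2] at h
    exact mem_of_pow_q h

theorem Gd.ev_mem [PerfectField κ] (hπO : π ∈ P.O) (hπ0 : P.ev π = 0)
    (hF : Gd P π κ F) {z : K} (hz : z ∈ F) (hzO : z ∈ P.O) : P.ev z ∈ κ := by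
  by_cases hz0 : z = 0
  · rw [hz0, P.ev_zero]; exact κ.zero_mem
  obtain ⟨m, n, hn, hn'⟩ := hF z hz hz0
  have hzm : z ^ ringExpChar K ^ m ∈ P.O := pow_mem hzO _
  rcases lt_trichotomy n 0 with h | h | h
  · -- then `ev z = 0`
    have h1 : P.ev (z ^ ringExpChar K ^ m) = 0 := by
      obtain ⟨j, hj⟩ := Int.eq_ofNat_of_zero_le (a := -n) (by omega)
      by_cases hπ : π = 0
      · rw [hπ, zero_zpow n h.ne, mul_zero] at hn
        exact absurd rfl hn.ne_zero
      have e : z ^ ringExpChar K ^ m = (z ^ ringExpChar K ^ m * π ^ n) * π ^ j := by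
        have : n = -(j : ℤ) := by omega
        rw [this, zpow_neg, zpow_natCast]
        field_simp
      rw [e, P.ev_mul hn.1 (pow_mem hπO _), P.ev_pow hπO, hπ0, zero_pow (by omega), mul_zero]
    apply mem_of_pow_qK P (m := m)
    rw [← P.ev_pow hzO, h1]
    exact κ.zero_mem
  · rw [h, zpow_zero, mul_one] at hn'
    apply mem_of_pow_qK P (m := m)
    rw [← P.ev_pow hzO]
    exact hn'
  · exfalso
    obtain ⟨j, hj⟩ := Int.eq_ofNat_of_zero_le (a := n) (by omega)
    rw [hj, zpow_natCast] at hn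
    have h3 := hn.2
    rw [P.ev_mul hzm (pow_mem hπO j), P.ev_pow hπO, hπ0, zero_pow (by omega), mul_zero] at h3
    exact h3 rfl

/-- adjoining finitely many separable constants. -/
theorem gd_finset_sep {E k : Subfield K}
    (hπ : π ≠ 0) (hπO : π ∈ P.O) (hπ0 : P.ev π = 0) (hπF : π ∈ F)
    (hF : Vale.Agent.P019.Gd P π κ F)
    (hEF : E ≤ F) (hk : ∀ x ∈ k, x ∈ P.O) (hκ : ∀ x ∈ k, P.ev x ∈ κ) (hEk : E ≤ k)
    (T : Finset K) (hT : (T : Set K) ⊆ k) (halg : ∀ x ∈ T, IsSeparable E x) :
    Vale.Agent.P019.Gd P π κ (F ⊔ Subfield.closure (T : Set K)) := by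
  classical
  induction T using Finset.induction_on with
  | empty => simpa using hF
  | insert c T hc ih =>
    have hck : c ∈ k := hT (by simp)
    have ih' := ih (fun x hx => hT (by
      simp only [Finset.coe_insert]; exact Set.mem_insert_of_mem _ hx))
      (fun x hx => halg x (Finset.mem_insert_of_mem hx))
    set F' : Subfield K := F ⊔ Subfield.closure (T : Set K) with hF'
    have hEF' : E ≤ F' := hEF.trans le_sup_left
    have hsep := halg c (Finset.mem_insert_self c T)
    have hint : IsIntegral E c := hsep.isIntegral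
    have hae : ∀ Q : E[X], aeval c (Q.map (Subfield.inclusion hEF')) = aeval c Q := by
      intro Q
      rw [aeval_def, eval₂_map]
      rfl
    have h1 : Vale.Agent.P019.Gd P π κ (Subfield.closure (F' ∪ {c})) := by
      refine ih'.adjoin hπ hπO hπ0 ?_ (hk c hck) (hκ c hck)
        ((minpoly E c).map (Subfield.inclusion hEF')) ((minpoly.monic hint).map _) ?_ ?_ ?_
      · exact (le_sup_left : F ≤ F') hπF
      · intro i
        rw [coeff_map]
        exact hk _ (hEk (SetLike.coe_mem _))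
      · rw [hae, minpoly.aeval]
      · rw [derivative_map, hae]
        refine Gn.U_of_field hk ?_ ?_
        · exact Vale.Agent.P019.adj_le hEk hck (Gn.aeval_mem_adj c _)
        · exact Separable.aeval_derivative_ne_zero hsep (minpoly.aeval E c)
    refine Gn.Gd_mono ?_ h1
    rw [sup_le_iff, Subfield.closure_le]
    refine ⟨?_, ?_⟩
    · intro x hx
      exact Subfield.subset_closure (Or.inl ((le_sup_left : F ≤ F') hx))
    · intro x hx
      simp only [Finset.coe_insert] at hx
      rcases hx with rfl | hx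
      · exact Subfield.subset_closure (Or.inr rfl)
      · exact Subfield.subset_closure (Or.inl ((le_sup_right : _ ≤ F')
          (Subfield.subset_closure hx)))

/-- **Unramified lemma** for perfect fields. -/
theorem Gd.sup {E B : Subfield K} [PerfectField B]
    (hπ : π ≠ 0) (hπO : π ∈ P.O) (hπ0 : P.ev π = 0) (hπF : π ∈ F)
    (hF : Vale.Agent.P019.Gd P π κ F)
    (hEF : E ≤ F) (hEB : E ≤ B) (hB : ∀ x ∈ B, x ∈ P.O) (hκ : ∀ x ∈ B, P.ev x ∈ κ)
    (halg : ∀ x ∈ B, IsAlgebraic E x) : Gd P π κ (Vale.Agent.P019P.pf F ⊔ B) := by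
  classical
  let Bs : Subfield K := B ⊓ (separableClosure E K).toSubfield
  have hBs : B ≤ Vale.Agent.P019P.pf Bs := by
    intro x hx
    obtain ⟨n, hn⟩ := exists_sep_pow (halg x hx)
    exact mem_pf.2 ⟨n, Subfield.mem_inf.2 ⟨pow_mem hx _, mem_separableClosure_iff.2 hn⟩⟩
  have h1 : Vale.Agent.P019P.pf F ⊔ B ≤ Vale.Agent.P019P.pf (F ⊔ Bs) :=
    sup_le (pf_mono le_sup_left) (hBs.trans (pf_mono le_sup_right))
  refine Gd.mono h1 (Gd.pf (Gd.of_strong ?_))
  intro z hz hz0
  obtain ⟨T, hT, hzT⟩ := Gn.exists_finset_sup hz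
  refine gd_finset_sep hπ hπO hπ0 hπF hF hEF hB hκ hEB T ?_ ?_ z hzT hz0
  · exact fun x hx => (Subfield.mem_inf.1 (hT hx)).1
  · exact fun x hx => mem_separableClosure_iff.1 (Subfield.mem_inf.1 (hT hx)).2

end gd

end Vale.Agent.P019P
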