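import Vale.Agent.P019.LemX
import Vale.Agent.P019P.LemZ
import Vale.Agent.P019P.RatDesc
import Vale.Agent.P019P.Unr

/-!
# Elements with all translates in a rational subspace (perfect version)
-/

namespace Vale.Agent.P019P

open Vale.Agent.P019

set_option linter.style.haveILetI false
set_option linter.unusedSectionVars false

open Polynomial Filter

/-- the value of a class on the order functional of a fibre. -/
theorem lemX_fn {N : Type*} [Field N] {ℓ : ℕ} [Fact ℓ.Prime] [NeZero (ℓ : N)] {k : Subfield N}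
    {W : ValuationSubring N} (hW : TrivOn W k) {σ b : N} (hb : b ∈ k)
    (hU : IsUnif W (σ - b)) (s : Finset N) (hs : ∀ c ∈ s, c ∈ k) (n : N → ZMod ℓ)
    (hbs : b ∈ s) : hU.fn ℓ (∑ c ∈ s, n c • cl ℓ (σ - c)) = n b := by
  classical
  rw [map_sum, Finset.sum_eq_single b]
  · rw [map_smul, hU.fn_self ℓ, smul_eq_mul, mul_one]
  · intro c hc hcb
    rw [map_smul]
    have h1 : W.valuation (σ - c) = 1 := by
      have h2 : σ - c = (b - c) + (σ - b) := by ring
      have h3 : W.valuation (b - c) = 1 :=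
        hW.eq_one (k.sub_mem hb (hs c hc)) (sub_ne_zero.2 (Ne.symm hcb))
      rw [h2, Valuation.map_add_eq_of_lt_left, h3]
      rw [h3]
      exact hU.lt
    rw [hU.fn_unit ℓ _ h1, smul_zero]
  · intro h
    exact absurd hbs h

/-- a separable generator up to `q`-powers. -/
theorem lemX_gen {N : Type*} [Field N] {k G : Subfield N} (hkG : k ≤ G)
    (hfg : FG k (⊤ : Subfield N)) {σ : N} (halg : ∀ z : N, IsAlgebraic (adj G σ) z) :
    ∃ θ : N, IsSeparable (IntermediateField.adjoin G {σ}) θ ∧ ∀ z : N, ∃ m : ℕ,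
      z ^ ringExpChar N ^ m ∈
        IntermediateField.adjoin (IntermediateField.adjoin G {σ}) {θ} := by
  classical
  obtain ⟨S, hS⟩ := hfg
  set F' := IntermediateField.adjoin G {σ} with hF'
  have hsep : ∀ s : N, ∃ n : ℕ, IsSeparable F' (s ^ ringExpChar N ^ n) := by
    intro s
    have h1 : IsAlgebraic F'.toSubfield s :=
      isAlgebraic_adjoin_simple.2 (isAlgebraic_adj.1 (halg s))
    exact exists_sep_pow h1
  choose e he using hsep
  set n := S.sup e with hn
  have hsep' : ∀ s ∈ S, IsSeparable F' (s ^ ringExpChar N ^ n) := by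
    intro s hs
    have h1 : e s ≤ n := Finset.le_sup hs
    obtain ⟨d, hd⟩ := Nat.exists_eq_add_of_le h1
    rw [hd, pow_add, pow_mul]
    have h2 := mem_separableClosure_iff.2 (he s)
    exact mem_separableClosure_iff.1 (pow_mem h2 _)
  set T : Finset N := S.image (fun s => s ^ ringExpChar N ^ n) with hT
  have hTsep : ∀ x ∈ (T : Set N), IsSeparable F' x := by
    intro x hx
    rw [hT, Finset.coe_image] at hx
    obtain ⟨s, hs, rfl⟩ := hx
    exact hsep' s hs
  set L := IntermediateField.adjoin F' (T : Set N) with hL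
  haveI : Algebra.IsSeparable F' L :=
    (IntermediateField.isSeparable_adjoin_iff_isSeparable F' N).2 hTsep
  haveI : FiniteDimensional F' L :=
    IntermediateField.finiteDimensional_adjoin fun x hx => (hTsep x hx).isIntegral
  obtain ⟨α, hα⟩ := Field.exists_primitive_element F' L
  have hLα : IntermediateField.adjoin F' {(α : N)} = L := by
    rw [← IntermediateField.lift_adjoin_simple, hα, IntermediateField.lift_top]
  refine ⟨α, ?_, fun z => ?_⟩
  · refine (IntermediateField.isSeparable_adjoin_iff_isSeparable F' N (S := {(α : N)})).1 ?_ α rfl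
    rw [hLα]
    infer_instance
  · rw [hLα]
    have hz : z ∈ pf (k ⊔ Subfield.closure (S : Set N)) := by
      rw [← hS]
      exact Subfield.mem_top z
    obtain ⟨m, hm⟩ := mem_pf.1 hz
    have h1 : k ⊔ Subfield.closure (S : Set N) ≤
        L.toSubfield.comap (iterateFrobenius N (ringExpChar N) n) := by
      refine sup_le ?_ (Subfield.closure_le.2 ?_)
      · intro x hx
        rw [Subfield.mem_comap, iterateFrobenius_def]
        refine pow_mem ?_ _
        exact L.algebraMap_mem ⟨x, F'.algebraMap_mem ⟨x, hkG hx⟩⟩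
      · intro x hx
        rw [SetLike.mem_coe, Subfield.mem_comap, iterateFrobenius_def]
        refine IntermediateField.subset_adjoin _ _ ?_
        rw [hT, Finset.coe_image]
        exact ⟨x, hx, rfl⟩
    have h2 := h1 hm
    rw [Subfield.mem_comap, iterateFrobenius_def, ← pow_mul, ← pow_add] at h2
    exact ⟨m + n, h2⟩

/-- for almost all `b`, every valuation over `σ = b` has uniformizer `σ - b` up to roots. -/
theorem lemX_unif_ae {N : Type*} [Field N] {G : Subfield N} {σ θ : N}
    (hσ : Transcendental G σ) (hsep : IsSeparable (IntermediateField.adjoin G {σ}) θ)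
    (htop : ∀ z : N, ∃ m : ℕ, z ^ ringExpChar N ^ m ∈
      IntermediateField.adjoin (IntermediateField.adjoin G {σ}) {θ}) :
    ∀ᶠ b : G in cofinite, ∀ W : ValuationSubring N, Over W G σ b → IsUnif W (σ - b) := by
  set F' := IntermediateField.adjoin G {σ} with hF'
  have hθ : IsAlgebraic F' θ := hsep.isIntegral.isAlgebraic
  have hder0 : aeval θ (derivative (minpoly F' θ)) ≠ 0 :=
    Separable.aeval_derivative_ne_zero hsep (minpoly.aeval _ _)
  have halg : IsAlgebraic F' (aeval θ (derivative (minpoly F' θ))) := by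
    have := isAlgebraic_aeval (F := F'.toSubfield) (θ := θ) hθ (derivative (minpoly F' θ))
    exact this
  filter_upwards [int_ae hθ, unit_ae halg hder0] with b hb1 hb2 W hW
  have hX0 : σ - (b : N) ≠ 0 := by
    intro h
    rw [sub_eq_zero] at h
    apply hσ
    rw [h]
    exact isAlgebraic_algebraMap b
  have hFb : F' = IntermediateField.adjoin G {σ - (b : N)} := by rw [hF', adjoin_sub]
  let π : F' := ⟨σ - (b : N), by
    rw [hFb]; exact IntermediateField.mem_adjoin_simple_self G _⟩
  have hπ0 : π ≠ 0 := fun h => hX0 (congrArg Subtype.val h)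
  have hFrep : ∀ z : F', z ≠ 0 → ∃ n : ℤ, W.valuation (algebraMap F' N (z * π ^ n)) = 1 := by
    intro z hz
    have hzF : (z : N) ∈ IntermediateField.adjoin G {σ - (b : N)} := by rw [← hFb]; exact z.2
    obtain ⟨n, c, hc, hc0, h⟩ := exists_residue hW.triv hW.lt hX0 hzF
      (fun h => hz (Subtype.ext h))
    refine ⟨n, ?_⟩
    rw [map_mul, map_zpow₀]
    exact val_of_sub (hW.triv.eq_one hc hc0) h
  refine ⟨hX0, hW.lt, fun z hz0 => ?_⟩
  obtain ⟨m, hm⟩ := htop z
  obtain ⟨n, P, Q, -, -, hQ, hP, h⟩ := unr_core W π hπ0 hW.lt hFrep θ (minpoly F' θ)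
    (minpoly.monic hθ.isIntegral) (hb1 W hW) (minpoly.aeval _ _) (hb2 W hW)
    (z ^ ringExpChar N ^ m) hm (pow_ne_zero _ hz0)
  refine ⟨m, n, ?_⟩
  have := congrArg W.valuation h
  rw [map_mul, hQ, hP, mul_one] at this
  exact this

theorem lemX {N : Type*} [Field N] [PerfectField N] {ℓ : ℕ} [Fact ℓ.Prime] [NeZero (ℓ : N)]
    {k G : Subfield N} [PerfectField G] (hk : IsAlgClosed k) (hkG : k ≤ G)
    (hfg : FG k (⊤ : Subfield N)) {σ h : N}
    (hσ : ¬ IsAlgebraic G σ) (halg : ∀ z : N, IsAlgebraic (adj G σ) z) (hh : h ∉ k)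
    (hcl : ∀ c ∈ k, cl ℓ (h - c) ∈ VS ℓ (adj k σ)) : h ∈ adj k σ := by
  classical
  haveI := hk
  haveI : PerfectField k := inferInstance
  have hσk : σ ∉ k := fun h => hσ (isAlgebraic_of_mem (hkG h))
  obtain ⟨θ, hθ, hθ'⟩ := lemX_gen hkG hfg halg
  have hhalg : IsAlgebraic (IntermediateField.adjoin G {σ}) h :=
    isAlgebraic_adjoin_simple.2 (isAlgebraic_adj.1 (halg h))
  have hB := (lemX_unif_ae hσ hθ hθ').and (mem_ae hhalg)
  rw [eventually_cofinite] at hB
  set bad : Set N := Subtype.val '' {b : G | ¬ ((∀ W : ValuationSubring N, Over W G σ b →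
      IsUnif W (σ - b)) ∧
      ∀ W : ValuationSubring N, Over W G σ b → h ∈ W)} with hbad
  have hbadfin : bad.Finite := hB.image _
  have hgood : ∀ b ∈ G, b ∉ bad → ∀ W : ValuationSubring N, Over W G σ b →
      IsUnif W (σ - b) ∧ h ∈ W := by
    intro b hb hbb W hW
    by_contra hcon
    apply hbb
    refine ⟨⟨b, hb⟩, ?_, rfl⟩
    intro h1
    exact hcon ⟨h1.1 W hW, h1.2 W hW⟩
  -- factorizations
  have hfac : ∀ c : N, ∃ (s : Finset N) (n : N → ZMod ℓ), c ∈ k → (∀ b ∈ s, b ∈ k) ∧
      cl ℓ (h - c) = ∑ b ∈ s, n b • cl ℓ (σ - b) := by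
    intro c
    by_cases hc : c ∈ k
    · obtain ⟨s, n, h1, h2⟩ := adj_factor hk hσk (hcl c hc)
      exact ⟨s, n, fun _ => ⟨h1, h2⟩⟩
    · exact ⟨∅, 0, fun h => absurd h hc⟩
  choose s n hsn using hfac
  -- exceptional constants
  set D : Set N := {c : N | c ∈ k ∧ ∀ b ∈ s c, n c b ≠ 0 → b ∈ bad} with hD
  have hDfin : D.Finite := by
    have : NeZero ℓ := ⟨(Fact.out : ℓ.Prime).ne_zero⟩
    let Φ : (hbadfin.toFinset → ZMod ℓ) → V ℓ N := fun m => ∑ b, m b • cl ℓ (σ - (b : N))
    have hT : (Set.range Φ).Finite := Set.finite_range Φ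
    refine (hT.biUnion (fun v _ => dist_top (ℓ := ℓ) hk hfg hh v)).subset ?_
    intro c hc
    rw [hD, Set.mem_ofPred_eq] at hc
    rw [Set.mem_iUnion₂]
    refine ⟨cl ℓ (h - c), ⟨fun b => if (b : N) ∈ s c then n c b else 0, ?_⟩, hc.1, rfl⟩
    change ∑ b : hbadfin.toFinset, (if (b : N) ∈ s c then n c b else 0) • cl ℓ (σ - (b : N)) = _
    rw [(hsn c hc.1).2, Finset.sum_coe_sort hbadfin.toFinset
      (fun b => (if b ∈ s c then n c b else 0) • cl ℓ (σ - b))]
    have h1 : ∑ b ∈ s c, n c b • cl ℓ (σ - b) =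
        ∑ b ∈ (s c).filter (fun b => b ∈ hbadfin.toFinset), n c b • cl ℓ (σ - b) := by
      rw [Finset.sum_filter]
      refine Finset.sum_congr rfl (fun b hb => ?_)
      split_ifs with h2
      · rfl
      · have h3 : n c b = 0 := by
          by_contra h4
          exact h2 (hbadfin.mem_toFinset.2 (hc.2 b hb h4))
        rw [h3, zero_smul]
    rw [h1]
    have h2 : ∀ b, (if b ∈ s c then n c b else 0) • cl ℓ (σ - b) =
        if b ∈ s c then n c b • cl ℓ (σ - b) else 0 := by
      intro b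
      split_ifs
      · rfl
      · rw [zero_smul]
    simp only [h2]
    rw [← Finset.sum_filter]
    refine Finset.sum_congr ?_ (fun _ _ => rfl)
    ext b
    rw [Finset.mem_filter, Finset.mem_filter, and_comm]
  have hkinf : (k : Set N).Infinite := infinite_of_isAlgClosed hk
  have hinf : ((k : Set N) \ D).Infinite := hkinf.sdiff hDfin
  -- the points
  have hpt : ∀ c : N, ∃ b : N, c ∈ (k : Set N) \ D → b ∈ k ∧
      ∀ W : ValuationSubring N, Over W G σ b → W.valuation (h - c) < 1 := by
    intro c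
    by_cases hc : c ∈ (k : Set N) \ D
    · have hck : c ∈ k := hc.1
      have h1 : ∃ b ∈ s c, n c b ≠ 0 ∧ b ∉ bad := by
        by_contra hcon
        apply hc.2
        refine ⟨hck, fun b hb hnb => ?_⟩
        by_contra hbb
        exact hcon ⟨b, hb, hnb, hbb⟩
      obtain ⟨b, hb, hnb, hbb⟩ := h1
      have hbk := (hsn c hck).1 b hb
      refine ⟨b, fun _ => ⟨hbk, fun W hW => ?_⟩⟩
      obtain ⟨hU, hhW⟩ := hgood b (hkG hbk) hbb W hW
      have h2 : h - c ∈ W := sub_mem hhW (hW.triv c (hkG hck))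
      rcases lt_or_eq_of_le ((W.valuation_le_one_iff _).2 h2) with h3 | h3
      · exact h3
      · exfalso
        have h4 := hU.fn_unit ℓ _ h3
        rw [(hsn c hck).2, lemX_fn (hW.triv.mono hkG) hbk hU (s c) (hsn c hck).1 (n c) hb] at h4
        exact hnb h4
    · exact ⟨0, fun h => absurd h hc⟩
  choose β hβ using hpt
  have hSinf : {b : N | b ∈ k ∧ ∃ c ∈ k, ∀ W : ValuationSubring N, Over W G σ b →
      W.valuation (h - c) < 1}.Infinite := by
    refine Set.infinite_of_injOn_mapsTo (f := β) ?_ ?_ hinf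
    · intro c hc c' hc' hcc
      obtain ⟨W, hW⟩ := exists_over hσ (hkG (hβ c hc).1)
      have h1 := (hβ c hc).2 W hW
      rw [hcc] at hW
      have h2 := (hβ c' hc').2 W hW
      have h3 : W.valuation (c - c') < 1 := by
        have h4 : c - c' = (h - c') - (h - c) := by ring
        rw [h4]
        exact lt_of_le_of_lt (W.valuation.map_sub _ _) (max_lt h2 h1)
      have h4 := hW.triv.eq_zero (hkG (k.sub_mem hc.1 hc'.1)) h3
      exact sub_eq_zero.1 h4
    · intro c hc
      exact ⟨(hβ c hc).1, c, hc.1, (hβ c hc).2⟩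
  refine rat_descent hkG hσ (lemZ hσ (halg h) (hSinf.mono ?_)) hSinf
  rintro b ⟨hb, c, hc, hW⟩
  exact ⟨hkG hb, c, hkG hc, hW⟩

end Vale.Agent.P019P
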