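import Vale.Agent.P019.CoreB
import Vale.Agent.P019P.LemX

/-!
# The core rationality lemma (perfect version)

`cl_mem_U1_iff`, `rs_aeval_mem`, `aeval_mem_W` are those of the old file.
-/

namespace Vale.Agent.P019P

open Vale.Agent.P019

set_option linter.style.haveILetI false
set_option linter.unusedSectionVars false

open Polynomial Filter

variable {K : Type*} [Field K]

theorem FG.adj_right [PerfectField K] {k G : Subfield K} (h : FG k G) (s : K) :
    FG k (adj G s) := by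
  classical
  obtain ⟨S, hS⟩ := h
  refine ⟨S ∪ {s}, ?_⟩
  have h1 : k ⊔ Subfield.closure (S : Set K) ≤ G := by
    rw [hS]
    exact le_pf _
  rw [Finset.coe_union, Finset.coe_singleton, Subfield.closure_union, ← sup_assoc]
  apply le_antisymm
  · rw [← pf_pf (k ⊔ Subfield.closure (S : Set K) ⊔ Subfield.closure {s})]
    refine pf_mono (sup_le ?_ (le_sup_right.trans (le_pf _)))
    conv_lhs => rw [hS]
    exact pf_mono le_sup_left
  · exact pf_mono (sup_le_sup_right h1 _)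

/-- residues are quotients of values of polynomials at the residue of `θ`. -/
theorem Nice.rs_eq_div {F : Subfield K} {W : ValuationSubring K} {π θ : K}
    (hW : Nice W F π θ) (c : IsLocalRing.ResidueField W) :
    ∃ P Q : F[X], rs W (aeval θ Q) ≠ 0 ∧ c = rs W (aeval θ P) / rs W (aeval θ Q) := by
  obtain ⟨z, hz, rfl⟩ := rs_surj c
  obtain ⟨P, Q, hQ, hPQ⟩ := hW.res z ((W.valuation_le_one_iff _).2 hz)
  have hP' := aeval_mem_W hW.triv hW.mem P
  have hQ' := aeval_mem_W hW.triv hW.mem Q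
  have hQ0 : rs W (aeval θ Q) ≠ 0 := (rs_ne_zero hQ').2 hQ
  refine ⟨P, Q, hQ0, ?_⟩
  rw [eq_div_iff hQ0, ← rs_mul hz hQ']
  exact (rs_eq (mul_mem hz hQ') hP').2 hPQ

/-- finite generation of the residue field. -/
theorem Nice.fg [PerfectField K] {k F : Subfield K} (hkF : k ≤ F) (hfg : FG k F)
    {W : ValuationSubring K} {π θ : K} (hW : Nice W F π θ) (hk : TrivOn W k) :
    FG (bar hk) (⊤ : Subfield (IsLocalRing.ResidueField W)) := by
  classical
  obtain ⟨S, hS⟩ := hfg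
  refine ⟨(insert θ S).image (rs W), ?_⟩
  set R := bar hk ⊔ Subfield.closure (((insert θ S).image (rs W) : Finset _) : Set _) with hR
  have hSR : ∀ z ∈ insert θ S, rs W z ∈ R := by
    intro z hz
    refine (le_sup_right : Subfield.closure _ ≤ R) (Subfield.subset_closure ?_)
    exact Finset.mem_coe.2 (Finset.mem_image_of_mem _ hz)
  have hkSF : k ⊔ Subfield.closure (S : Set K) ≤ F := by
    rw [hS]
    exact le_pf _
  have h1 : bar hW.triv ≤ P019P.pf R := by
    intro c hc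
    obtain ⟨e, he, rfl⟩ := (mem_bar hW.triv).1 hc
    have h3 : k ⊔ Subfield.closure (S : Set K) ≤
        (R.comap (barHom hW.triv)).map F.subtype := by
      refine sup_le ?_ (Subfield.closure_le.2 ?_)
      · intro c hc
        exact ⟨⟨c, hkF hc⟩, (le_sup_left : bar hk ≤ R) (rs_mem_bar hk hc), rfl⟩
      · intro c hc
        have hcF : c ∈ F := hkSF
          ((le_sup_right : Subfield.closure _ ≤ k ⊔ Subfield.closure (S : Set K))
            (Subfield.subset_closure hc))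
        exact ⟨⟨c, hcF⟩, hSR c (Finset.mem_insert_of_mem hc), rfl⟩
    have he' : e ∈ P019P.pf (k ⊔ Subfield.closure (S : Set K)) := by
      rw [← hS]
      exact he
    obtain ⟨n, hn⟩ := mem_pf.1 he'
    obtain ⟨⟨c, hc'⟩, hc'', hce⟩ := h3 hn
    refine mem_pf.2 ⟨n, ?_⟩
    rw [rs_ringExpChar hk, ← rs_pow (hW.triv _ he), ← hce]
    exact hc''
  have hθ : rs W θ ∈ P019P.pf R := le_pf R (hSR θ (Finset.mem_insert_self _ _))
  symm
  rw [eq_top_iff]
  intro c _
  obtain ⟨P, Q, -, rfl⟩ := hW.rs_eq_div c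
  exact div_mem (rs_aeval_mem hW.triv hW.mem h1 hθ P) (rs_aeval_mem hW.triv hW.mem h1 hθ Q)

/-- the residue field is algebraic over the image of `F`. -/
theorem Nice.alg_bar {F : Subfield K} {W : ValuationSubring K} {π θ : K}
    (hW : Nice W F π θ) (c : IsLocalRing.ResidueField W) : IsAlgebraic (bar hW.triv) c := by
  obtain ⟨P, hP, hPW⟩ := hW.alg
  have h1 : IsAlgebraic (bar hW.triv) (rs W θ) := by
    refine ⟨P.map (barEquiv hW.triv).toRingHom, (hP.map _).ne_zero, ?_⟩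
    rw [← rs_aeval hW.triv hW.mem]
    exact (rs_eq_zero (aeval_mem_W hW.triv hW.mem P)).2 hPW
  obtain ⟨P, Q, -, rfl⟩ := hW.rs_eq_div c
  rw [rs_aeval hW.triv hW.mem, rs_aeval hW.triv hW.mem, div_eq_mul_inv]
  exact (isAlgebraic_aeval h1 _).mul (isAlgebraic_aeval h1 _).inv

theorem core [PerfectField K] {ℓ : ℕ} [Fact ℓ.Prime] [NeZero (ℓ : K)] {k G : Subfield K}
    (hk : IsAlgClosed k)
    (hkG : k ≤ G) (hfg : FG k G) {s : K} (hs : ¬ IsAlgebraic G s) {W : ValuationSubring K}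
    {π θ : K} (hW : Nice W (adj G s) π θ) {E : Subfield K} (hkE : k ≤ E) (hEW : TrivOn W E)
    (hV : VS ℓ E ≤ VS ℓ (adj k s) ⊔ U1 ℓ W) :
    ∀ h ∈ E, ∃ e ∈ adj k s, W.valuation (h - e) < 1 := by
  intro h hhE
  by_cases hhk : h ∈ k
  · exact ⟨h, le_adj k s hhk, by rw [sub_self, map_zero]; exact zero_lt_one⟩
  have hF := hW.triv
  have hG : TrivOn W G := hF.mono (le_adj G s)
  have hkW : TrivOn W k := hG.mono hkG
  have hks : TrivOn W (adj k s) := hF.mono (adj_mono hkG s)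
  haveI : PerfectField (IsLocalRing.ResidueField W) := rs_perfect hG
  haveI : NeZero (ℓ : IsLocalRing.ResidueField W) := rs_neZero hG
  haveI : PerfectField G := hfg.perfect
  haveI : PerfectField (bar hG) := bar_perfect hG
  have hk' : IsAlgClosed (bar hkW) := bar_isAlgClosed hkW hk
  have hfg' : FG (bar hkW) (⊤ : Subfield (IsLocalRing.ResidueField W)) :=
    hW.fg (hkG.trans (le_adj G s)) (hfg.adj_right s) hkW
  have hσ : ¬ IsAlgebraic (bar hG) (rs W s) := fun h' => hs (isAlgebraic_of_bar hG hF h')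
  have halg : ∀ z : IsLocalRing.ResidueField W, IsAlgebraic (adj (bar hG) (rs W s)) z := by
    intro z
    rw [← bar_adj hG hF]
    exact hW.alg_bar z
  have hh : rs W h ∉ bar hkW := by
    intro h'
    obtain ⟨c, hc, hc'⟩ := (mem_bar hkW).1 h'
    have := rs_injOn hEW (hkE hc) hhE hc'
    rw [this] at hc
    exact hhk hc
  have hcl : ∀ c ∈ bar hkW, cl ℓ (rs W h - c) ∈ VS ℓ (adj (bar hkW) (rs W s)) := by
    intro c' hc'
    obtain ⟨c, hc, rfl⟩ := (mem_bar hkW).1 hc'
    have hhc : h - c ∈ E := sub_mem hhE (hkE hc)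
    have hhc0 : h - c ≠ 0 := by
      intro h0
      rw [sub_eq_zero] at h0
      rw [h0] at hhk
      exact hhk hc
    obtain ⟨y, ⟨e, he, he0, rfl⟩, z, hz, hyz⟩ := Submodule.mem_sup.1
      (hV (cl_mem_VS (ℓ := ℓ) hhc))
    have h1 : cl ℓ ((h - c) / e) ∈ U1 ℓ W := by
      rw [cl_div ℓ hhc0 he0, ← hyz, add_sub_cancel_left]
      exact hz
    have hWhc : W.valuation (h - c) = 1 := hEW.eq_one hhc hhc0
    have hWe : W.valuation e = 1 := hks.eq_one he he0
    have hWei : W.valuation e⁻¹ = 1 := by rw [map_inv₀, hWe, inv_one]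
    have hWd : W.valuation ((h - c) / e) = 1 := by rw [map_div₀, hWhc, hWe, div_one]
    rw [cl_mem_U1_iff hWd, div_eq_mul_inv, rs_mul (mem_of_val hWhc) (mem_of_val hWei),
      rs_inv hWe, rs_sub (hEW _ hhE) (hEW _ (hkE hc))] at h1
    have hre : rs W e ≠ 0 := (rs_ne_zero (mem_of_val hWe)).2 hWe
    have hrh : rs W h - rs W c ≠ 0 := by
      rw [← rs_sub (hEW _ hhE) (hEW _ (hkE hc))]
      exact (rs_ne_zero (mem_of_val hWhc)).2 hWhc
    rw [← div_eq_mul_inv, cl_div ℓ hrh hre, sub_eq_zero] at h1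
    rw [h1, ← bar_adj hkW hks]
    exact cl_mem_VS (rs_mem_bar hks he)
  have hmem := lemX hk' (bar_mono hkW hG hkG) hfg' hσ halg hh hcl
  rw [← bar_adj hkW hks] at hmem
  obtain ⟨e, he, he'⟩ := (mem_bar hks).1 hmem
  exact ⟨e, he, (rs_eq (hEW _ hhE) (hks _ he)).1 he'.symm⟩

theorem core_rat [PerfectField K] {ℓ : ℕ} [Fact ℓ.Prime] [NeZero (ℓ : K)] {k G : Subfield K}
    (hk : IsAlgClosed k)
    (hkG : k ≤ G) (hfg : FG k G) {s : K} (hs : ¬ IsAlgebraic G s) {W : ValuationSubring K}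
    {π θ : K} (hW : Nice W (adj G s) π θ) {E : Subfield K} [PerfectField E] (hkE : k ≤ E)
    (hEW : TrivOn W E) (hV : VS ℓ E ≤ VS ℓ (adj k s) ⊔ U1 ℓ W) (hE : ¬ E ≤ k) :
    ∃ u ∈ E, E = adj k u := by
  have hF := hW.triv
  have hG : TrivOn W G := hF.mono (le_adj G s)
  have hkW : TrivOn W k := hG.mono hkG
  have hks : TrivOn W (adj k s) := hF.mono (adj_mono hkG s)
  haveI : PerfectField (IsLocalRing.ResidueField W) := rs_perfect hG
  haveI : IsAlgClosed (bar hkW) := bar_isAlgClosed hkW hk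
  haveI : PerfectField (bar hEW) := bar_perfect hEW
  have hσ : ¬ IsAlgebraic (bar hkW) (rs W s) := fun h' => hs (isAlgebraic_of_bar hG hF
    (isAlgebraic_mono (bar_mono hkW hG hkG) h'))
  have h1 : bar hEW ≤ adj (bar hkW) (rs W s) := by
    intro c hc
    obtain ⟨h, hh, rfl⟩ := (mem_bar hEW).1 hc
    obtain ⟨e, he, he'⟩ := core hk hkG hfg hs hW hkE hEW hV h hh
    rw [(rs_eq (hEW _ hh) (hks _ he)).2 he', ← bar_adj hkW hks]
    exact rs_mem_bar hks he
  have h2 : ¬ bar hEW ≤ bar hkW := by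
    intro h'
    apply hE
    intro e he
    obtain ⟨c, hc, hc'⟩ := (mem_bar hkW).1 (h' (rs_mem_bar hEW he))
    rw [← rs_injOn hEW (hkE hc) he hc']
    exact hc
  obtain ⟨u', hu', hEu⟩ := luroth_sub hσ (bar_mono hkW hEW hkE) h1 h2
  obtain ⟨u, hu, rfl⟩ := (mem_bar hEW).1 hu'
  refine ⟨u, hu, le_antisymm ?_ (adj_le hkE hu)⟩
  intro z hz
  have hku : TrivOn W (adj k u) := hEW.mono (adj_le hkE hu)
  have h3 : rs W z ∈ bar hku := by
    rw [bar_adj hkW hku, ← hEu]
    exact rs_mem_bar hEW hz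
  obtain ⟨z', hz', hzz⟩ := (mem_bar hku).1 h3
  rw [← rs_injOn hEW (adj_le hkE hu hz') hz hzz]
  exact hz'

end Vale.Agent.P019P
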