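import Vale.Agent.P019.FinB
import Vale.Agent.P019P.CoreB

/-!
# Finiteness (perfect version)

`rk2_of_finite`, `Rk2.mono`, `finB_cl_neg` are those of the old file.
-/

namespace Vale.Agent.P019P

open Vale.Agent.P019

set_option linter.style.haveILetI false
set_option linter.unusedSectionVars false

open Polynomial Filter

variable {K : Type*} [Field K] [PerfectField K] {ℓ : ℕ} [Fact ℓ.Prime] [NeZero (ℓ : K)]

theorem Nice.finite {k F E : Subfield K} (hk : IsAlgClosed k) (hkF : k ≤ F)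
    (hfg : FG k F) {W : ValuationSubring K} {π θ : K} (hW : Nice W F π θ) (hkE : k ≤ E)
    (hEW : TrivOn W E) :
    ((U1 ℓ W ⊓ VS ℓ E : Submodule (ZMod ℓ) (V ℓ K)) : Set (V ℓ K)).Finite := by
  have hkW : TrivOn W k := hW.triv.mono hkF
  haveI : PerfectField k := inferInstance
  haveI : PerfectField (IsLocalRing.ResidueField W) := rs_perfect hkW
  haveI : NeZero (ℓ : IsLocalRing.ResidueField W) := rs_neZero hkW
  have hfgN : FG (bar hkW) (⊤ : Subfield (IsLocalRing.ResidueField W)) :=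
    hW.fg hkF hfg hkW
  have hfgE : FG (bar hEW) (⊤ : Subfield (IsLocalRing.ResidueField W)) :=
    hfgN.mono (bar_mono hkW hEW hkE) le_top
  obtain ⟨ζ, hζk, hζ⟩ := finK_prim (bar_isAlgClosed hkW hk) ℓ
  obtain ⟨N, hN⟩ := fk ℓ hfgE (bar_mono hkW hEW hkE hζk) hζ
  by_contra hinf
  have hinf' : ((U1 ℓ W ⊓ VS ℓ E : Submodule (ZMod ℓ) (V ℓ K)) : Set (V ℓ K)).Infinite := hinf
  let f := hinf'.natEmbedding
  have hf : ∀ n : ℕ, ∃ e ∈ E, e ≠ 0 ∧ ((f n : V ℓ K)) = cl ℓ e ∧ cl ℓ e ∈ U1 ℓ W := by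
    intro n
    obtain ⟨h1, h2⟩ := Submodule.mem_inf.1 (f n).2
    obtain ⟨e, he, he0, h⟩ := mem_VS.1 h2
    exact ⟨e, he, he0, h, h ▸ h1⟩
  choose e heE he0 hfe heU using hf
  have hval : ∀ n, W.valuation (e n) = 1 := fun n => hEW.eq_one (heE n) (he0 n)
  obtain ⟨i, j, hij, y, hy, hy0, hxy⟩ := hN (fun i => rs W (e i)) (by
    intro i
    have h1 : rs W (e i) ≠ 0 := (rs_ne_zero (hEW _ (heE i))).2 (hval i)
    refine ⟨rs_mem_bar hEW (heE i), h1, ?_⟩
    obtain ⟨w, _, hw⟩ := (cl_eq_zero_iff ℓ h1).1 ((cl_mem_U1_iff (hval i)).1 (heU i))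
    exact ⟨w, Subfield.mem_top w, hw⟩)
  obtain ⟨e', he', rfl⟩ := (mem_bar hEW).1 hy
  have he'0 : e' ≠ 0 := by
    rintro rfl
    exact hy0 rs_zero
  have h1 : e i = e j * e' ^ ℓ := by
    apply rs_injOn hEW (heE i) (E.mul_mem (heE j) (E.pow_mem he' ℓ))
    rw [rs_mul (hEW _ (heE j)) (hEW _ (E.pow_mem he' ℓ)), rs_pow (hEW _ he')]
    exact hxy
  have h2 : cl ℓ (e i) = cl ℓ (e j) := (cl_eq_iff ℓ (he0 i) (he0 j)).2 ⟨e', he'0, h1⟩
  apply hij
  apply Fin.ext
  apply f.injective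
  apply Subtype.ext
  rw [hfe, hfe, h2]

theorem VS_infinite {k E : Subfield K} (hk : IsAlgClosed k)
    (hfg : FG k (⊤ : Subfield K)) (hkE : k ≤ E) (hE : ¬ E ≤ k) :
    ((VS ℓ E : Submodule (ZMod ℓ) (V ℓ K)) : Set (V ℓ K)).Infinite := by
  intro hfin
  obtain ⟨x, hxE, hxk⟩ := SetLike.not_le_iff_exists.1 hE
  have h1 : {c : K | c ∈ k} ⊆ ⋃ v ∈ ((VS ℓ E : Submodule (ZMod ℓ) (V ℓ K)) : Set (V ℓ K)),
      {c : K | c ∈ k ∧ cl ℓ (x - c) = v} := by
    intro c hc
    refine Set.mem_biUnion (cl_mem_VS (E.sub_mem hxE (hkE hc))) ?_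
    exact ⟨hc, rfl⟩
  have h2 : {c : K | c ∈ k}.Finite :=
    (hfin.biUnion fun v _ => dist_top (ℓ := ℓ) hk hfg hxk v).subset h1
  exact infinite_of_isAlgClosed hk h2

theorem exists_nr {k : Subfield K} (hk : IsAlgClosed k) {y : K} (hy : Good k y)
    {U : Submodule (ZMod ℓ) (V ℓ K)}
    (hfin : ((U ⊓ VS ℓ (adj k y) : Submodule (ZMod ℓ) (V ℓ K)) : Set (V ℓ K)).Finite) :
    ∃ g₀ ∈ adj k y, ∀ i j : ZMod ℓ, i • cl ℓ g₀ + j • cl ℓ (1 - g₀) ∈ U → i = 0 ∧ j = 0 := by
  classical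
  by_contra hcon
  push Not at hcon
  have hyc : ∀ c ∈ k, y - c ≠ 0 := by
    intro c hc h0
    apply hy.1
    rw [sub_eq_zero.1 h0]
    exact hc
  -- the relation for a pair of constants
  have key : ∀ b₁ ∈ k, ∀ b₂ ∈ k, b₁ ≠ b₂ → ∃ i j : ZMod ℓ,
      i • cl ℓ (y - b₁) + j • cl ℓ (y - b₂) ∈ U ∧ (i = 0 → j ≠ 0) := by
    intro b₁ h1 b₂ h2 h12
    have hd : b₂ - b₁ ≠ 0 := sub_ne_zero.2 h12.symm
    have hg : (y - b₁) / (b₂ - b₁) ∈ adj k y :=
      (adj k y).div_mem ((adj k y).sub_mem (mem_adj k y) (le_adj k y h1))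
        (le_adj k y (k.sub_mem h2 h1))
    obtain ⟨i, j, hU, hne⟩ := hcon _ hg
    have e1 : cl ℓ ((y - b₁) / (b₂ - b₁)) = cl ℓ (y - b₁) := by
      rw [cl_div ℓ (hyc _ h1) hd, line_cl_const hk (k.sub_mem h2 h1), sub_zero]
    have e2 : cl ℓ (1 - (y - b₁) / (b₂ - b₁)) = cl ℓ (y - b₂) := by
      have h3 : 1 - (y - b₁) / (b₂ - b₁) = (-(y - b₂)) / (b₂ - b₁) := by
        field_simp
        ring
      rw [h3, cl_div ℓ (neg_ne_zero.2 (hyc _ h2)) hd, line_cl_const hk (k.sub_mem h2 h1),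
        sub_zero, finB_cl_neg hk]
    rw [e1, e2] at hU
    exact ⟨i, j, hU, hne⟩
  haveI : Infinite k := Set.infinite_coe_iff.2 (infinite_of_isAlgClosed hk)
  let g : ℕ ↪ k := Infinite.natEmbedding k
  let φ : ℕ ↪ K := ⟨fun n => (g n : K), fun a b h => g.injective (Subtype.ext h)⟩
  have hφ : Function.Injective φ := φ.injective
  have hnat : ∀ n : ℕ, φ n ∈ k := fun n => (g n).2
  have key2 : ∀ n : ℕ, ∃ i j : ZMod ℓ,
      i • cl ℓ (y - φ (2 * n)) + j • cl ℓ (y - φ (2 * n + 1)) ∈ U ∧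
        (i = 0 → j ≠ 0) := by
    intro n
    apply key _ (hnat _) _ (hnat _)
    intro h
    have := hφ h
    omega
  choose a b hab hne using key2
  set w : ℕ → V ℓ K := fun n =>
    a n • cl ℓ (y - φ (2 * n)) + b n • cl ℓ (y - φ (2 * n + 1)) with hw
  have hinj : Function.Injective w := by
    intro n m hnm
    by_contra hne'
    have hrel : ∑ c ∈ ({2 * n, 2 * n + 1, 2 * m, 2 * m + 1} : Finset ℕ).map
        φ,
        (fun c : K => if c = φ (2 * n) then a n else if c = φ (2 * n + 1) then b n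
          else if c = φ (2 * m) then - a m else - b m) c • cl ℓ (y - c) = 0 := by
      rw [Finset.sum_map]
      have d1 : 2 * n ∉ ({2 * n + 1, 2 * m, 2 * m + 1} : Finset ℕ) := by
        simp only [Finset.mem_insert, Finset.mem_singleton]
        omega
      have d2 : 2 * n + 1 ∉ ({2 * m, 2 * m + 1} : Finset ℕ) := by
        simp only [Finset.mem_insert, Finset.mem_singleton]
        omega
      have d3 : 2 * m ∉ ({2 * m + 1} : Finset ℕ) := by
        simp only [Finset.mem_singleton]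
        omega
      rw [Finset.sum_insert d1, Finset.sum_insert d2, Finset.sum_insert d3, Finset.sum_singleton]
      have c1 : (2 * n + 1 = 2 * n) = False := by simp
      have c2 : (2 * m = 2 * n) = False := by
        apply propext
        constructor
        · intro h; omega
        · intro h; exact h.elim
      have c3 : (2 * m = 2 * n + 1) = False := by
        apply propext
        constructor
        · intro h; omega
        · intro h; exact h.elim
      have c4 : (2 * m + 1 = 2 * n) = False := by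
        apply propext
        constructor
        · intro h; omega
        · intro h; exact h.elim
      have c5 : (2 * m + 1 = 2 * n + 1) = False := by
        apply propext
        constructor
        · intro h; omega
        · intro h; exact h.elim
      have c6 : (2 * m + 1 = 2 * m) = False := by simp
      simp only [hφ.eq_iff, if_true, c1, c2, c3, c4, c5, c6,
        if_false]
      have h1 : w n - w m = 0 := sub_eq_zero.2 hnm
      rw [hw] at h1
      simp only at h1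
      rw [neg_smul, neg_smul, ← h1]
      abel
    have h0 := good_independent hk hy _ (by
      intro c hc
      rw [Finset.mem_map] at hc
      obtain ⟨t, _, rfl⟩ := hc
      exact hnat t) _ hrel
    have m1 : φ (2 * n) ∈ ({2 * n, 2 * n + 1, 2 * m, 2 * m + 1} : Finset ℕ).map
        φ :=
      Finset.mem_map.2 ⟨2 * n, by simp, rfl⟩
    have m2 : φ (2 * n + 1) ∈ ({2 * n, 2 * n + 1, 2 * m, 2 * m + 1} : Finset ℕ).map
        φ :=
      Finset.mem_map.2 ⟨2 * n + 1, by simp, rfl⟩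
    have r1 := h0 _ m1
    have r2 := h0 _ m2
    have c1 : (2 * n + 1 = 2 * n) = False := by simp
    simp only [hφ.eq_iff, if_true, c1, if_false] at r1 r2
    exact hne n r1 r2
  refine Set.infinite_of_injective_forall_mem hinj (fun n => ?_) hfin
  refine ⟨hab n, ?_⟩
  exact (VS ℓ (adj k y)).add_mem
    ((VS ℓ (adj k y)).smul_mem _
      (cl_mem_VS ((adj k y).sub_mem (mem_adj k y) (le_adj k y (hnat _)))))
    ((VS ℓ (adj k y)).smul_mem _
      (cl_mem_VS ((adj k y).sub_mem (mem_adj k y) (le_adj k y (hnat _)))))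

end Vale.Agent.P019P
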