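import Vale.Agent.P019.HypB
import Vale.Agent.P019P.FinB
import Vale.Agent.P019P.DelB

/-!
# Transferred valuations (perfect version)

`exists_neg`, `Rk2.map` are those of the old file.
-/

namespace Vale.Agent.P019P

open Vale.Agent.P019

set_option linter.style.haveILetI false
set_option linter.unusedSectionVars false

open Polynomial Filter

variable {K L : Type*} [Field K] [Field L] [PerfectField K] [PerfectField L] {ℓ : ℕ}
  [Fact ℓ.Prime] [NeZero (ℓ : K)] [NeZero (ℓ : L)]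
  {k : Subfield K} {l : Subfield L} {Θ : V ℓ K ≃ₗ[ZMod ℓ] V ℓ L}

theorem FG.adj {K : Type*} [Field K] [PerfectField K] {k F : Subfield K} (h : FG k F) (s : K) :
    FG k (adj F s) := h.adj_right s

/-- existence of transferred valuations. -/
theorem Hyp.exists_tr (H : Hyp ℓ k l Θ) {F : Subfield K} (hkF : k ≤ F) (hfg : FG k F)
    {W : ValuationSubring K} {π θ : K} (hW : Nice W F π θ) {y : K} (hy : Good k y)
    (hyW : TrivOn W (adj k y)) : ∃ O : ValuationSubring L, TrivOn O l ∧ Tr Θ W π O := by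
  have hfin := hW.finite (ℓ := ℓ) H.ack hkF hfg (le_adj k y) hyW
  obtain ⟨g₀, -, hg₀⟩ := exists_nr H.ack hy hfin
  obtain ⟨O, hO1, hO2⟩ := transfer H.comp (exists_neg H.ack) (exists_neg H.acl) hW.unif g₀ hg₀
  refine ⟨O, H.ltr (U1 ℓ W) y hy hfin O ?_, fun _ => hO1, hO2⟩
  intro z hz
  rw [← hO2, LinearEquiv.apply_symm_apply]
  exact cl_mem_U1 hz

/-- the transferred valuation is trivial on curves corresponding to trivially valued ones. -/
theorem Hyp.triv_crv (H : Hyp ℓ k l Θ) {F : Subfield K} (hkF : k ≤ F) (hfg : FG k F)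
    {W : ValuationSubring K} {π θ : K} (hW : Nice W F π θ) {O : ValuationSubring L}
    (hOl : TrivOn O l) (hT : Tr Θ W π O) {y : K} (hy : y ∉ k) (hyW : TrivOn W (adj k y))
    {E : Subfield L} (hE : Crv l E) (hVS : ∀ v ∈ VS ℓ (adj k y), Θ v ∈ VS ℓ E) :
    TrivOn O E := by
  refine triv_of_rk2 (ℓ := ℓ) H.acl hE hOl ?_
  refine Rk2.map (Θ := Θ) (rk2_of_finite (VS_infinite H.ack H.fgk (le_adj k y)
    (fun h => hy (h (mem_adj k y))))
    (hW.finite (ℓ := ℓ) H.ack hkF hfg (le_adj k y) hyW)) hVS (fun v hv => (hT.iff v).1 hv)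

theorem Tr.not_triv {W : ValuationSubring K} {π : K} {O : ValuationSubring L}
    (hT : Tr Θ W π O) (hW : IsUnif W π) {E : Subfield L} (h : Θ (cl ℓ π) ∈ VS ℓ E) :
    ¬ TrivOn O E := by
  intro hO
  obtain ⟨x, hx, hx0, hx1⟩ := h
  have h1 := hT.unit hW x (hO.eq_one hx hx0)
  rw [← hx1, LinearEquiv.symm_apply_apply, hW.fn_self ℓ] at h1
  exact one_ne_zero h1

end Vale.Agent.P019P
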