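import Vale.Agent.P019.RatB
import Vale.Agent.P019P.HypB

/-!
# Rationality of the corresponding curves (perfect version)

`Rk2.mono`, `ne_ae` are those of the old file.
-/

namespace Vale.Agent.P019P

open Vale.Agent.P019

set_option linter.style.haveILetI false
set_option linter.unusedSectionVars false

open Polynomial Filter

section shift

variable {K : Type*} [Field K] {ℓ : ℕ} [Fact ℓ.Prime] {k : Subfield K}

theorem cl_shift {O : ValuationSubring K} {y z : K} (hyk : y ∉ k) (hy : TrivOn O (adj k y))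
    (hz : O.valuation (z - y) < 1) {b : K} (hb : b ∈ k) :
    cl ℓ (y - b) - cl ℓ (z - b) ∈ U1 ℓ O := by
  have hyb : y - b ∈ adj k y := sub_mem (mem_adj k y) (le_adj k y hb)
  have hyb0 : y - b ≠ 0 := by
    intro h
    rw [sub_eq_zero] at h
    exact hyk (h ▸ hb)
  rw [← neg_mem_iff, neg_sub]
  refine cl_sub_cl_mem_U1 (hy.eq_one hyb hyb0) ?_
  have : z - b - (y - b) = z - y := by ring
  rwa [this]

theorem VS_le_of_shift [PerfectField K] [NeZero (ℓ : K)] (hk : IsAlgClosed k) {y z : K}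
    (hy : y ∉ k)
    {U : Submodule (ZMod ℓ) (V ℓ K)} (m : K → K) (hm : ∀ b ∈ k, m b ∈ k)
    (h : ∀ b ∈ k, cl ℓ (y - b) - cl ℓ (z - m b) ∈ U) :
    VS ℓ (adj k y) ≤ VS ℓ (adj k z) ⊔ U := by
  intro v hv
  obtain ⟨s, n, hs, rfl⟩ := adj_factor hk hy hv
  refine sum_mem fun c hc => Submodule.smul_mem _ _ ?_
  have h1 : cl ℓ (y - c) = cl ℓ (z - m c) + (cl ℓ (y - c) - cl ℓ (z - m c)) := by abel
  rw [h1]
  exact Submodule.add_mem_sup (cl_mem_VS (sub_mem (mem_adj k z) (le_adj k z (hm c (hs c hc)))))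
    (h c (hs c hc))

end shift

variable {K L : Type*} [Field K] [Field L] [PerfectField K] [PerfectField L] {ℓ : ℕ}
  [Fact ℓ.Prime] [NeZero (ℓ : K)] [NeZero (ℓ : L)]
  {k : Subfield K} {l : Subfield L} {Θ : V ℓ K ≃ₗ[ZMod ℓ] V ℓ L}

/-- the situation in which the core lemma applies. -/
theorem Hyp.rat_of (H : Hyp ℓ k l Θ) {G : Subfield K} (hkG : k ≤ G) (hfg : FG k G) {s : K}
    {W : ValuationSubring K} {π θ : K}
    (hW : Nice W (adj G s) π θ) {O : ValuationSubring L} (hT : Tr Θ W π O) {y z : L}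
    (hy : y ∉ l) (h1 : VS ℓ (adj l z) ≤ VS ℓ (adj l y) ⊔ U1 ℓ O)
    (h2 : VS ℓ (adj l y) ≤ VS ℓ (adj l z) ⊔ U1 ℓ O)
    (hys : ∀ v ∈ VS ℓ (adj l y), Θ.symm v ∈ VS ℓ (adj k s)) {E : Subfield K} (hE : Crv k E)
    (hEz : ∀ v, Θ.symm v ∈ VS ℓ E ↔ v ∈ VS ℓ (adj l z)) :
    TrivOn W E ∧ VS ℓ E ≤ VS ℓ (adj k s) ⊔ U1 ℓ W := by
  have hWG : TrivOn W (adj G s) := hW.triv
  have hWs : TrivOn W (adj k s) := hWG.mono (adj_mono hkG s)
  have hWk : TrivOn W k := hWs.mono (le_adj k s)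
  constructor
  · refine triv_of_rk2 (ℓ := ℓ) H.ack hE hWk ?_
    have hfin : ((U1 ℓ O ⊓ VS ℓ (adj l y) : Submodule (ZMod ℓ) (V ℓ L)) :
        Set (V ℓ L)).Finite := by
      refine Set.Finite.of_finite_image (f := Θ.symm) ((hW.finite (ℓ := ℓ) H.ack
        (hkG.trans (le_adj G s)) (hfg.adj s) (le_adj k s) hWs).subset ?_)
        (Θ.symm.injective.injOn)
      rintro _ ⟨v, ⟨hv1, hv2⟩, rfl⟩
      refine ⟨?_, hys v hv2⟩
      refine (hT.iff _).1 ?_
      rwa [LinearEquiv.apply_symm_apply]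
    have h3 : Rk2 (VS ℓ (adj l y)) (U1 ℓ O) :=
      rk2_of_finite (VS_infinite H.acl H.fgl (le_adj l y) (fun h => hy (h (mem_adj l y)))) hfin
    refine Rk2.map (Θ := Θ.symm) (h3.mono h2) (fun v hv => (hEz v).2 hv) ?_
    intro v hv
    have := (hT.iff (Θ.symm v)).2 hv
    rwa [LinearEquiv.apply_symm_apply] at this
  · intro w hw
    have h3 : Θ w ∈ VS ℓ (adj l z) := (hEz _).1 (by rwa [LinearEquiv.symm_apply_apply])
    obtain ⟨a, ha, b, hb, hab⟩ := Submodule.mem_sup.1 (h1 h3)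
    have h4 : w = Θ.symm a + Θ.symm b := by
      rw [← map_add, hab, LinearEquiv.symm_apply_apply]
    rw [h4]
    refine Submodule.add_mem_sup (hys a ha) ((hT.iff _).1 ?_)
    rwa [LinearEquiv.apply_symm_apply]

/-- curves of alg. independent good elements are different. -/
theorem Hyp.crv_ne (H : Hyp ℓ k l Θ) {t s : K} (hs : s ∉ k) (ht : ¬ IsAlgebraic (adj k s) t)
    {E₁ E₂ : Subfield L} (h₁ : ∀ v, Θ v ∈ VS ℓ E₁ ↔ v ∈ VS ℓ (adj k t))
    (h₂ : ∀ v, Θ v ∈ VS ℓ E₂ ↔ v ∈ VS ℓ (adj k s)) : E₁ ≠ E₂ := by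
  rintro rfl
  have h3 : VS ℓ (adj k s) = VS ℓ (adj k t) := by
    ext v
    rw [← h₁, ← h₂]
  have hfin := int_top (ℓ := ℓ) H.ack H.fgk (le_adj k s) (le_adj k t) (mem_adj k t) ht
    (fun z hz => isAlgebraic_of_mem hz)
  rw [← h3, inf_idem] at hfin
  exact VS_infinite H.ack H.fgk (le_adj k s) (fun h => hs (h (mem_adj k s))) hfin

/-- there are two alg. independent good elements. -/
theorem Hyp.exists_good_pair (H : Hyp ℓ k l Θ) :
    ∃ t s, Good k t ∧ Good k s ∧ ¬ IsAlgebraic (adj k s) t := by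
  obtain ⟨x, y, hx, hy⟩ := H.trk
  have := ae_neBot_of_isAlgClosed H.ack
  have h1 := H.bert x y hx hy
  obtain ⟨c₁, hc₁, hg₁⟩ := ((ae_mem k).and h1).exists
  have h2 : ∀ᶠ c in ae k, c ≠ c₁ := by
    rw [ae_iff]
    refine (Set.finite_singleton c₁).subset ?_
    rintro c ⟨-, hc⟩
    rw [not_not] at hc
    exact hc
  obtain ⟨c₂, ⟨hc₂, hg₂⟩, hne⟩ := (((ae_mem k).and h1).and h2).exists
  refine ⟨x + c₁ * y, x + c₂ * y, hg₁, hg₂, fun halg => ?_⟩
  set s := x + c₂ * y with hs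
  have hk : RAC k := RAC_of_isAlgClosed k H.ack
  have hcr : Crv k (adj k s) := Crv.of_good hg₂
  have ht : x + c₁ * y ∈ adj k s := hcr.rac _ halg
  have hkc : c₂ - c₁ ∈ adj k s := hcr.le (k.sub_mem hc₂ hc₁)
  have hne' : c₂ - c₁ ≠ 0 := sub_ne_zero.2 hne
  have hym : y ∈ adj k s := by
    have : y = (s - (x + c₁ * y)) / (c₂ - c₁) := by
      rw [hs]; field_simp; ring
    rw [this]
    exact div_mem (sub_mem (mem_adj k s) ht) hkc
  have hxm : x ∈ adj k s := by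
    have : x = s - c₂ * y := by rw [hs]; ring
    rw [this]
    exact sub_mem (mem_adj k s) (mul_mem (hcr.le hc₂) hym)
  exact hy (hcr.alg hk hxm hx y hym)

theorem adj_mul_const {k : Subfield K} {y c : K} (hc : c ∈ k) (hc0 : c ≠ 0) :
    adj k (c * y) = adj k y := by
  apply le_antisymm
  · exact adj_le (le_adj k y) (mul_mem (le_adj k y hc) (mem_adj k y))
  · refine adj_le (le_adj k _) ?_
    have h1 : c⁻¹ * (c * y) ∈ adj k (c * y) :=
      mul_mem (le_adj k _ (k.inv_mem hc)) (mem_adj k _)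
    rwa [inv_mul_cancel_left₀ hc0] at h1

theorem adj_add_const {k : Subfield K} {y c : K} (hc : c ∈ k) :
    adj k (y + c) = adj k y := by
  apply le_antisymm
  · exact adj_le (le_adj k y) (add_mem (mem_adj k y) (le_adj k y hc))
  · refine adj_le (le_adj k _) ?_
    have : y = (y + c) - c := by ring
    rw [this]
    exact sub_mem (by rw [← this]; exact mem_adj k _) (le_adj k _ hc)

/-- from the core lemma to a rational coordinate. -/
theorem Hyp.rt_of (H : Hyp ℓ k l Θ) {G : Subfield K} (hkG : k ≤ G) (hfg : FG k G) {s : K}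
    (hs : ¬ IsAlgebraic G s) {W : ValuationSubring K} {π θ : K}
    (hW : Nice W (adj G s) π θ) {O : ValuationSubring L} (hT : Tr Θ W π O) {y z : L}
    (hy : y ∉ l) (hz : Good l z) (h1 : VS ℓ (adj l z) ≤ VS ℓ (adj l y) ⊔ U1 ℓ O)
    (h2 : VS ℓ (adj l y) ≤ VS ℓ (adj l z) ⊔ U1 ℓ O)
    (hys : ∀ v ∈ VS ℓ (adj l y), Θ.symm v ∈ VS ℓ (adj k s)) : ∃ u, Rt k l Θ u z := by
  obtain ⟨E, hE, hEz⟩ := H.stepA' z hz
  obtain ⟨hWE, hV⟩ := H.rat_of hkG hfg hW hT hy h1 h2 hys hE hEz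
  have hEk : ¬ E ≤ k := by
    obtain ⟨y₀, hy₀, hy₀k, -⟩ := hE.ex
    exact fun h => hy₀k (h hy₀)
  haveI : PerfectField E := hE.perfect
  haveI : IsAlgClosed k := H.ack
  obtain ⟨u, hu, rfl⟩ := core_rat H.ack hkG hfg hs hW hE.le hWE hV hEk
  refine ⟨u, ⟨fun huk => hEk (adj_le le_rfl huk), hE.rac⟩, hz, fun v => ?_⟩
  rw [← hEz, LinearEquiv.symm_apply_apply]

theorem Hyp.exists_rt (H : Hyp ℓ k l Θ) : ∃ s s', Rt k l Θ s s' := by
  obtain ⟨t, s, ht, hs, hts⟩ := H.exists_good_pair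
  have hk : RAC k := RAC_of_isAlgClosed k H.ack
  have hl : RAC l := RAC_of_isAlgClosed l H.acl
  obtain ⟨Et, hEt, hEt'⟩ := H.stepA t ht
  obtain ⟨Es, hEs, hEs'⟩ := H.stepA s hs
  haveI : PerfectField Et := hEt.perfect
  haveI : PerfectField Es := hEs.perfect
  have hne := H.crv_ne hs.1 hts hEt' hEs'
  obtain ⟨G, hG⟩ := exists_frame H.fgk (fun h => hs.1 (hk s h)) hts
  obtain ⟨θ, hθ⟩ := hG.nice H.fgk
  have := ae_neBot_of_isAlgClosed H.ack
  have hkF : k ≤ adj G s := hG.le.trans (le_adj G s)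
  obtain ⟨a, hak, ha⟩ := ((ae_mem k).and (hθ.filter_mono (ae_mono hkF))).exists
  obtain ⟨W, hWo⟩ := exists_over hG.tt (hkF hak)
  have hW := ha W hWo
  have hWs : TrivOn W (adj k s) := hW.triv.mono (adj_mono hG.le s)
  obtain ⟨O, hOl, hT⟩ := H.exists_tr hkF (hG.fg.adj s) hW hs hWs
  have hOs : TrivOn O Es := H.triv_crv hkF (hG.fg.adj s) hW hOl hT hs.1 hWs hEs
    (fun v hv => (hEs' v).2 hv)
  have hOt : ¬ TrivOn O Et := hT.not_triv hW.unif ((hEt' _).2
    (cl_mem_VS (sub_mem (mem_adj k t) (le_adj k t hak))))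
  obtain ⟨x₀, hx₀, hx₀O⟩ : ∃ c ∈ Et, c ∉ O := by
    by_contra hcon
    push Not at hcon
    exact hOt hcon
  have hx₀0 : x₀ ≠ 0 := by rintro rfl; exact hx₀O (zero_mem O)
  set x := x₀⁻¹ with hx
  have hxE : x ∈ Et := Et.inv_mem hx₀
  have hxO : O.valuation x < 1 := by
    rw [hx, map_inv₀]
    have h1 : 1 < O.valuation x₀ := by
      rw [← not_le, O.valuation_le_one_iff]; exact hx₀O
    exact inv_lt_one_of_one_lt₀ h1
  have hx0 : x ≠ 0 := inv_ne_zero hx₀0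
  have hxl : x ∉ l := by
    intro h
    exact hx0 (hOl.eq_zero h hxO)
  obtain ⟨y, hyE, hyl, -⟩ := hEs.ex
  have hxy : ¬ IsAlgebraic (adj l x) y := by
    intro h
    have hyt : y ∈ Et := hEt.rac y (isAlgebraic_mono (adj_le hEt.le hxE) h)
    exact hne (Crv.eq hl hEt hEs hyt hyE hyl)
  have := ae_neBot_of_isAlgClosed H.acl
  obtain ⟨c, ⟨hcl, hc0⟩, hgood⟩ := (((ae_mem l).and (ne_ae l 0)).and (H.bert' x y hxl hxy)).exists
  have hadj : adj l (c * y) = adj l y := adj_mul_const hcl hc0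
  have hcyl : c * y ∉ l := by
    intro h
    apply hyl
    have : y = c⁻¹ * (c * y) := by field_simp
    rw [this]
    exact l.mul_mem (l.inv_mem hcl) h
  have hadjE : adj l (c * y) ≤ Es := by rw [hadj]; exact adj_le hEs.le hyE
  have hOy : TrivOn O (adj l (c * y)) := hOs.mono hadjE
  have hval : O.valuation (x + c * y - c * y) < 1 := by
    rw [add_sub_cancel_right]; exact hxO
  have hsh : ∀ b ∈ l, cl ℓ (c * y - b) - cl ℓ (x + c * y - b) ∈ U1 ℓ O := fun b hb =>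
    cl_shift hcyl hOy hval hb
  obtain ⟨u, hu⟩ := H.rt_of hG.le hG.fg hG.ss hW hT hcyl hgood
    (VS_le_of_shift H.acl hgood.1 (fun b => b) (fun b hb => hb) (fun b hb => by
      rw [← neg_mem_iff, neg_sub]; exact hsh b hb))
    (VS_le_of_shift H.acl hcyl (fun b => b) (fun b hb => hb) hsh)
    (fun v hv => by
      rw [← hEs', LinearEquiv.apply_symm_apply]
      exact VS_mono hadjE hv)
  exact ⟨u, _, hu⟩

theorem fn_U1 {W : ValuationSubring K} {π : K} (hW : IsUnif W π) {v : V ℓ K}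
    (hv : v ∈ U1 ℓ W) : hW.fn ℓ v = 0 := by
  obtain ⟨m, hm, rfl⟩ := hv
  exact hW.fn_unit ℓ _ (val_one_add hm)

omit [PerfectField K] [PerfectField L] [NeZero (ℓ : K)] [NeZero (ℓ : L)] in
/-- classes at infinity. -/
theorem cl_at_infty {O : ValuationSubring K} (hOk : TrivOn O k) {t : K}
    (ht : 1 < O.valuation t) {b : K} (hb : b ∈ k) : cl ℓ (t - b) - cl ℓ t ∈ U1 ℓ O := by
  have ht0 : t ≠ 0 := by
    rintro rfl
    rw [map_zero] at ht
    exact not_lt_zero ht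
  have hm : O.valuation (-(b / t)) < 1 := by
    rw [Valuation.map_neg, map_div₀]
    have hpos : 0 < O.valuation t := lt_trans zero_lt_one ht
    rw [div_lt_one₀ hpos]
    exact lt_of_le_of_lt (hOk.le_one hb) ht
  have hb0 : t - b ≠ 0 := by
    intro h
    rw [sub_eq_zero] at h
    rw [h] at ht
    exact absurd (hOk.le_one hb) (not_le.2 ht)
  rw [← cl_div ℓ hb0 ht0]
  have : (t - b) / t = 1 + -(b / t) := by field_simp; ring
  rw [this]
  exact cl_mem_U1 hm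

/-- at most one fibre has its centre at infinity. -/
theorem two_infty {l : Subfield L} (hk : IsAlgClosed k) (hl : IsAlgClosed l)
    {t : K} {x : L} {c₁ c₂ : L}
    (htk : t ∉ k) (hc₁ : c₁ ∈ l) (hc₂ : c₂ ∈ l) (hne : c₁ ≠ c₂)
    {W₁ W₂ : ValuationSubring L} {O₁ O₂ : ValuationSubring K} (hW₁ : IsUnif W₁ (x - c₁))
    (hW₂ : IsUnif W₂ (x - c₂)) (hT₁ : Tr Θ.symm W₁ (x - c₁) O₁) (hT₂ : Tr Θ.symm W₂ (x - c₂) O₂)
    (hWl : TrivOn W₂ l)
    (hO₁ : TrivOn O₁ k) (hO₂ : TrivOn O₂ k) (hx₁ : Θ.symm (cl ℓ (x - c₁)) ∈ VS ℓ (adj k t))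
    (hx₂ : Θ.symm (cl ℓ (x - c₂)) ∈ VS ℓ (adj k t)) (h₁ : 1 < O₁.valuation t)
    (h₂ : 1 < O₂.valuation t) : False := by
  obtain ⟨S, n, hS, hv⟩ := adj_factor hk htk hx₁
  -- modulo `U1` every class of `k(t)` is a multiple of `cl t`
  have key : ∀ O : ValuationSubring K, TrivOn O k → 1 < O.valuation t →
      ∑ c ∈ S, n c • cl ℓ (t - c) - (∑ c ∈ S, n c) • cl ℓ t ∈ U1 ℓ O := by
    intro O hO ht
    rw [Finset.sum_smul, ← Finset.sum_sub_distrib]
    refine sum_mem fun c hc => ?_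
    rw [← smul_sub]
    exact Submodule.smul_mem _ _ (cl_at_infty hO ht (hS c hc))
  -- `x - c₁` is a constant modulo `W₂`
  have h3 : cl ℓ (x - c₁) ∈ U1 ℓ W₂ := by
    have hc : c₂ - c₁ ∈ l := l.sub_mem hc₂ hc₁
    have hc0 : c₂ - c₁ ≠ 0 := sub_ne_zero.2 hne.symm
    have h4 := cl_sub_cl_mem_U1 (ℓ := ℓ) (x := x - c₁) (hWl.eq_one hc hc0) (by
      have : x - c₁ - (c₂ - c₁) = x - c₂ := by ring
      rw [this]
      exact hW₂.lt)
    rwa [line_cl_const hl hc, sub_zero] at h4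
  have h4 : ∑ c ∈ S, n c • cl ℓ (t - c) ∈ U1 ℓ O₂ := by
    rw [← hv]
    exact (hT₂.iff _).2 h3
  have h5 : (∑ c ∈ S, n c) • cl ℓ t ∈ U1 ℓ O₂ := by
    have := Submodule.sub_mem _ h4 (key O₂ hO₂ h₂)
    rwa [sub_sub_cancel] at this
  by_cases hN : ∑ c ∈ S, n c = 0
  · -- then `cl (x - c₁)` is in `U1 W₁`
    have h6 := key O₁ hO₁ h₁
    rw [hN, zero_smul, sub_zero, ← hv] at h6
    have h7 := (hT₁.iff _).1 h6
    have h8 := fn_U1 hW₁ h7
    rw [hW₁.fn_self ℓ] at h8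
    exact one_ne_zero h8
  · have h6 : cl ℓ t ∈ U1 ℓ O₂ := by
      have h7 := Submodule.smul_mem (U1 ℓ O₂) (∑ c ∈ S, n c)⁻¹ h5
      rwa [smul_smul, inv_mul_cancel₀ hN, one_smul] at h7
    have h7 : ∀ b ∈ k, cl ℓ (t - b) ∈ U1 ℓ O₂ := by
      intro b hb
      have h8 := Submodule.add_mem _ (cl_at_infty (ℓ := ℓ) hO₂ h₂ hb) h6
      rwa [sub_add_cancel] at h8
    obtain ⟨S', n', hS', hv'⟩ := adj_factor hk htk hx₂
    have h8 : Θ.symm (cl ℓ (x - c₂)) ∈ U1 ℓ O₂ := by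
      rw [hv']
      exact sum_mem fun c hc => Submodule.smul_mem _ _ (h7 c (hS' c hc))
    have h9 := fn_U1 hW₂ ((hT₂.iff _).1 h8)
    rw [hW₂.fn_self ℓ] at h9
    exact one_ne_zero h9

theorem Hyp.rt_add (H : Hyp ℓ k l Θ) {s : K} {s' : L} (h : Rt k l Θ s s') {t : K}
    (ht : Good k t) (hts : ¬ IsAlgebraic (adj k s) t) (hg : Good k (t + s)) :
    ∃ z', Rt k l Θ (t + s) z' := by
  have hk : RAC k := RAC_of_isAlgClosed k H.ack
  have hl : RAC l := RAC_of_isAlgClosed l H.acl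
  obtain ⟨Et, hEt, hEt'⟩ := H.stepA t ht
  have hne := H.crv_ne h.good.1 hts hEt' h.map
  have hcs : Crv l (adj l s') := Crv.of_good h.good'
  obtain ⟨x, hxE, hxl, -⟩ := hEt.ex
  have hxs : ¬ IsAlgebraic (adj l s') x := by
    intro h1
    have hx : x ∈ adj l s' := hcs.rac x h1
    exact hne (Crv.eq hl hEt hcs hxE hx hxl)
  obtain ⟨G, hG⟩ := exists_frame H.fgl (fun h1 => h.good'.1 (hl s' h1)) hxs
  obtain ⟨θ, hθ⟩ := hG.nice H.fgl
  have := ae_neBot_of_isAlgClosed H.acl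
  have hlF : l ≤ adj G s' := hG.le.trans (le_adj G s')
  -- for almost all `c` there are `W, O`
  have hex : ∀ᶠ c in ae l, ∃ (W : ValuationSubring L) (O : ValuationSubring K),
      Nice W (adj G s') (x - c) θ ∧ TrivOn O k ∧ Tr Θ.symm W (x - c) O := by
    filter_upwards [ae_mem l, hθ.filter_mono (ae_mono hlF)] with c hcl hc
    obtain ⟨W, hWo⟩ := exists_over hG.tt (hlF hcl)
    have hW := hc W hWo
    obtain ⟨O, hO1, hO2⟩ := H.symm.exists_tr hlF (hG.fg.adj s') hW h.good'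
      (hW.triv.mono (adj_mono hG.le s'))
    exact ⟨W, O, hW, hO1, hO2⟩
  have hmem : ∀ c ∈ l, Θ.symm (cl ℓ (x - c)) ∈ VS ℓ (adj k t) := by
    intro c hc
    rw [← hEt', LinearEquiv.apply_symm_apply]
    exact cl_mem_VS (sub_mem hxE (hEt.le hc))
  -- one of them is centred at a finite point
  obtain ⟨c, hcl, W, O, hW, hOk, hT, a, ha, hta⟩ : ∃ c ∈ l, ∃ (W : ValuationSubring L)
      (O : ValuationSubring K), Nice W (adj G s') (x - c) θ ∧ TrivOn O k ∧
      Tr Θ.symm W (x - c) O ∧ ∃ a ∈ k, O.valuation (t - a) < 1 := by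
    obtain ⟨c₁, hc₁, W₁, O₁, hW₁, hO₁, hT₁⟩ := ((ae_mem l).and hex).exists
    have hn₁ : ¬ TrivOn O₁ (adj k t) := hT₁.not_triv hW₁.unif (hmem c₁ hc₁)
    rcases exists_centre H.ack ht hO₁ hn₁ with ⟨a, ha, hta⟩ | hinf₁
    · exact ⟨c₁, hc₁, W₁, O₁, hW₁, hO₁, hT₁, a, ha, hta⟩
    obtain ⟨c₂, ⟨hc₂, hne₂⟩, W₂, O₂, hW₂, hO₂, hT₂⟩ :=
      (((ae_mem l).and (ne_ae l c₁)).and hex).exists
    have hn₂ : ¬ TrivOn O₂ (adj k t) := hT₂.not_triv hW₂.unif (hmem c₂ hc₂)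
    rcases exists_centre H.ack ht hO₂ hn₂ with ⟨a, ha, hta⟩ | hinf₂
    · exact ⟨c₂, hc₂, W₂, O₂, hW₂, hO₂, hT₂, a, ha, hta⟩
    exact (two_infty H.ack H.acl ht.1 hc₁ hc₂ hne₂.symm hW₁.unif hW₂.unif hT₁ hT₂
      (hW₂.triv.mono hlF) hO₁ hO₂ (hmem c₁ hc₁) (hmem c₂ hc₂) hinf₁ hinf₂).elim
  have hWs : TrivOn W (adj l s') := hW.triv.mono (adj_mono hG.le s')
  have hOs : TrivOn O (adj k s) := H.symm.triv_crv hlF (hG.fg.adj s') hW hOk hT h.good'.1 hWs
    (Crv.of_good h.good) (fun v hv => by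
      rw [← h.map, LinearEquiv.apply_symm_apply]; exact hv)
  have hval : O.valuation (t + s - a - s) < 1 := by
    have : t + s - a - s = t - a := by ring
    rw [this]; exact hta
  have hsh : ∀ b ∈ k, cl ℓ (s - b) - cl ℓ (t + s - (a + b)) ∈ U1 ℓ O := by
    intro b hb
    have h1 := cl_shift (ℓ := ℓ) h.good.1 hOs hval hb
    have : t + s - a - b = t + s - (a + b) := by ring
    rwa [this] at h1
  obtain ⟨u, hu⟩ := H.symm.rt_of hG.le hG.fg hG.ss hW hT h.good.1 hg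
    (VS_le_of_shift H.ack hg.1 (fun b => b - a) (fun b hb => k.sub_mem hb ha) (fun b hb => by
      have h1 := hsh (b - a) (k.sub_mem hb ha)
      rw [add_sub_cancel] at h1
      rw [← neg_mem_iff, neg_sub]
      exact h1))
    (VS_le_of_shift H.ack h.good.1 (fun b => a + b) (fun b hb => k.add_mem ha hb) hsh)
    (fun v hv => by
      rw [LinearEquiv.symm_symm, h.map]; exact hv)
  refine ⟨u, hg, hu.good, fun v => ?_⟩
  have h1 := hu.map (Θ v)
  rw [LinearEquiv.symm_apply_apply] at h1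
  exact h1.symm

theorem Hyp.rt_all (H : Hyp ℓ k l Θ) {t : K} (ht : Good k t) : ∃ t', Rt k l Θ t t' := by
  have hk : RAC k := RAC_of_isAlgClosed k H.ack
  obtain ⟨s, s', h⟩ := H.exists_rt
  by_cases hts : IsAlgebraic (adj k s) t
  · have hadj : adj k t = adj k s :=
      Crv.eq hk (Crv.of_good ht) (Crv.of_good h.good) (mem_adj k t)
        (h.good.2 t hts) ht.1
    exact ⟨s', ht, h.good', fun v => by rw [hadj]; exact h.map v⟩
  · have hst : ¬ IsAlgebraic (adj k t) s := by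
      intro h1
      have hadj : adj k s = adj k t :=
        Crv.eq hk (Crv.of_good h.good) (Crv.of_good ht) (mem_adj k s) (ht.2 s h1) h.good.1
      apply hts
      rw [hadj]
      exact isAlgebraic_of_mem (mem_adj k t)
    have := ae_neBot_of_isAlgClosed H.ack
    obtain ⟨c, ⟨hck, hc0⟩, hgood⟩ :=
      (((ae_mem k).and (ne_ae k 0)).and (H.bert t s ht.1 hst)).exists
    have hnc : -c ∈ k := k.neg_mem hck
    have hnc0 : -c ≠ 0 := neg_ne_zero.2 hc0
    have hadj : adj k (-c * s) = adj k s := adj_mul_const hnc hnc0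
    have hcs : -c * s ∉ k := by
      intro h1
      apply h.good.1
      have : s = (-c)⁻¹ * (-c * s) := by field_simp
      rw [this]
      exact k.mul_mem (k.inv_mem hnc) h1
    have hR : Rt k l Θ (-c * s) s' := by
      refine ⟨⟨hcs, ?_⟩, h.good', fun v => ?_⟩
      · rw [hadj]; exact h.good.2
      · rw [hadj]; exact h.map v
    have e : t + c * s + -c * s = t := by ring
    obtain ⟨z', hz'⟩ := H.rt_add hR (t := t + c * s) hgood (by
      rw [hadj]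
      intro h1
      apply hts
      have h2 : t + c * s ∈ adj k s := h.good.2 _ h1
      have : t = (t + c * s) - c * s := by ring
      rw [this]
      exact isAlgebraic_of_mem (sub_mem h2 (mul_mem (le_adj k s hck) (mem_adj k s))))
      (by rw [e]; exact ht)
    rw [e] at hz'
    exact ⟨z', hz'⟩

end Vale.Agent.P019P
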