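import Vale.Agent.P019.SigB
import Vale.Agent.P019P.SigA
import Vale.Agent.P019P.SigR
import Vale.Agent.P019P.GenB
import Vale.Agent.P019P.ConstB
import Vale.Agent.P019P.Sigma
import Vale.Agent.P019Q.SigX
import Vale.Agent.P019Q.RelC
import Vale.Agent.P019Q.Spec

/-!
# The isomorphism of the constants (perfect version)

`ae_iff_sub`, `ae_shift`, `ae_scale`, `ae_ne`, `rst`, `rst_eq` are those of the old file.
-/

namespace Vale.Agent.P019P

open Vale.Agent.P019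

set_option linter.style.haveILetI false
set_option linter.unusedSectionVars false

open Polynomial Filter

variable {K L : Type*} [Field K] [Field L] [PerfectField K] [PerfectField L] {ℓ : ℕ}
  [Fact ℓ.Prime] [NeZero (ℓ : K)] [NeZero (ℓ : L)]
  {k : Subfield K} {l : Subfield L} {Θ : V ℓ K ≃ₗ[ZMod ℓ] V ℓ L}

theorem sigb_coeff {i j : ℕ} (hij : (ringExpChar L) ^ i = (ringExpChar L) ^ j) {x y : ZMod ℓ}
    (h : (((ringExpChar L) ^ i : ℕ) : ZMod ℓ) * x = (((ringExpChar L) ^ j : ℕ) : ZMod ℓ) * y) :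
    x = y := by
  rw [hij] at h
  exact mul_left_cancel₀ (q_pow_ne_zero ℓ L j) h

/-- first construction of `σ`. -/
theorem Hyp.exists_sigma₁ (H : Hyp ℓ k l Θ) : ∃ (t s : K), Good k t ∧ Good k s ∧
    Good k (t + s) ∧ Ind k s t ∧ ∃ (σ : K → L) (e : K → ZMod ℓ) (s' : L),
      IsoOn k l σ ∧ Nv k l Θ σ e s s' := by
  classical
  obtain ⟨t, ht0⟩ := exists_gen_add H.ack H.fgk H.trk {0} ∅ (by simp)
  have ht : Good k t := by
    have := (ht0 0 (Finset.mem_singleton_self 0)).1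
    rwa [zero_add] at this
  obtain ⟨s, hs, hts, hst, -, hist, -⟩ := exists_gen_mul H.ack H.fgk H.trk t t ht
  rw [mul_comm] at hst
  refine ⟨t, s, ht, hs, hts, hist, ?_⟩
  obtain ⟨t', rt⟩ := H.rt_all ht
  obtain ⟨s', rs⟩ := H.rt_all hs
  obtain ⟨z', rz⟩ := H.rt_all hts
  obtain ⟨w', rw'⟩ := H.rt_all hst
  obtain ⟨ψt, et, pt⟩ := H.exists_psi rt
  obtain ⟨ψs, es, ps⟩ := H.exists_psi rs
  obtain ⟨ψz, ez, pz⟩ := H.exists_psi rz
  obtain ⟨ψw, ew, pw⟩ := H.exists_psi rw'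
  obtain ⟨_, -, h1⟩ := H.rel hist.2 rt rs rz (shift_add H.ack hs.1 t) pt ps pz
  obtain ⟨_, -, h2⟩ := H.rel hist.2 rt rs rw' (shift_mul H.ack hs.1 t) pt ps pw
  have : IsAlgClosed k := H.ack
  have : IsAlgClosed l := H.acl
  have hql : ringExpChar l = ringExpChar L := ringExpChar.eq l (ringExpChar L)
  -- the isomorphism
  obtain ⟨σ, A, B, C, D, hdet, hσ⟩ := sigma_exact (rst k l ψs) (rst k l ψz) (rst k l ψw)
    (by
      refine ⟨{b : k | ¬ (ψs b ∈ l ∧ es b ≠ 0 ∧ Cor k l Θ s s' (es b) b (ψs b))}, ?_, ?_⟩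
      · exact ae_iff_sub.1 ps.cor
      · intro b hb b' hb' hbb
        simp only [Set.mem_compl_iff, Set.mem_ofPred_eq, not_not] at hb hb'
        have h4 := congrArg (Subtype.val : l → L) hbb
        rw [sigb_rst_eq hb.1, sigb_rst_eq hb'.1] at h4
        have h5 := hb'.2.2
        rw [← h4] at h5
        exact Subtype.ext (Cor.inj H.ack H.acl rs hb.2.1 hb'.2.1 b.2 b'.2 hb.1 hb.2.2 h5))
    (by
      have h4 := ae_iff_sub.1 ps.surj
      rw [eventually_cofinite] at h4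
      refine h4.subset ?_
      intro β hβ hex
      obtain ⟨b, hb, hb1, -⟩ := hex
      refine hβ ⟨⟨b, hb⟩, Subtype.ext ?_⟩
      rw [sigb_rst_eq (by rw [hb1]; exact β.2), hb1])
    (by
      filter_upwards [ae_iff_sub.1 h1] with a ha
      obtain ⟨i, j, A, hA, B, hB, C, hC, D, hD, hdet, h1, -⟩ := ha
      refine ⟨i, j, ⟨A, hA⟩, ⟨B, hB⟩, ⟨C, hC⟩, ⟨D, hD⟩, fun h0 => hdet ?_, ?_⟩
      · exact congrArg (Subtype.val : l → L) h0
      · filter_upwards [ae_iff_sub.1 h1, ae_iff_sub.1 ps.cor,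
          ae_iff_sub.1 (ae_shift a.2 pz.cor)] with b hb1 hb2 hb3
        refine Subtype.ext ?_
        change (rst k l ψz (a + b) : L) ^ (ringExpChar l) ^ i *
          (C * (rst k l ψs b : L) ^ (ringExpChar l) ^ j + D) =
          A * (rst k l ψs b : L) ^ (ringExpChar l) ^ j + B
        rw [sigb_rst_eq hb2.1, sigb_rst_eq (b := a + b) hb3.1, hql]
        exact hb1.1)
    (by
      have h0 : ∀ᶠ a : k in cofinite, (a : K) ≠ 0 := ae_iff_sub.1 (ae_ne 0)
      filter_upwards [ae_iff_sub.1 h2, h0] with a ha ha0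
      obtain ⟨i, j, A, hA, B, hB, C, hC, D, hD, hdet, h1, -⟩ := ha
      refine ⟨i, j, ⟨A, hA⟩, ⟨B, hB⟩, ⟨C, hC⟩, ⟨D, hD⟩, fun h0 => hdet ?_, ?_⟩
      · exact congrArg (Subtype.val : l → L) h0
      · filter_upwards [ae_iff_sub.1 h1, ae_iff_sub.1 ps.cor,
          ae_iff_sub.1 (ae_scale a.2 ha0 pw.cor)] with b hb1 hb2 hb3
        refine Subtype.ext ?_
        change (rst k l ψw (a * b) : L) ^ (ringExpChar l) ^ i *
          (C * (rst k l ψs b : L) ^ (ringExpChar l) ^ j + D) =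
          A * (rst k l ψs b : L) ^ (ringExpChar l) ^ j + B
        rw [sigb_rst_eq hb2.1, sigb_rst_eq (b := a * b) hb3.1, hql]
        exact hb1.1)
    (by
      obtain ⟨S, hS, hex⟩ := H.exact_add hist rt rs rz ps
      refine ⟨Subtype.val ⁻¹' S, hS.preimage Subtype.val_injective.injOn, fun c => ?_⟩
      obtain ⟨A, hA, B, hB, C, hC, D, hD, hdet, h3⟩ := hex c c.2
      refine ⟨⟨A, hA⟩, ⟨B, hB⟩, ⟨C, hC⟩, ⟨D, hD⟩, fun h0 => hdet ?_, ?_⟩
      · exact congrArg (Subtype.val : l → L) h0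
      · intro b hb hbc
        obtain ⟨e1, e3⟩ := h3 b b.2 hb hbc
        have e2 : ψs (b + c) ∈ l := by
          obtain ⟨_, _, _, _, _, _, _, _, _, h4⟩ := hex 0 (zero_mem k)
          exact (h4 (b + c) (add_mem b.2 c.2) hbc (by rw [add_zero]; exact hbc)).1
        refine Subtype.ext ?_
        change (rst k l ψs (b + c) : L) * (C * (rst k l ψs b : L) + D) =
          A * (rst k l ψs b : L) + B
        rw [sigb_rst_eq e1, sigb_rst_eq (b := b + c) e2]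
        exact e3)
  let τ : K → L := fun b => if h : b ∈ k then (σ ⟨b, h⟩ : L) else 0
  have hτ : ∀ b (h : b ∈ k), τ b = σ ⟨b, h⟩ := fun b h => dif_pos h
  have hτo : IsoOn k l τ := by
    refine ⟨?_, ?_, ?_, ?_, ?_⟩
    · intro a ha
      rw [hτ a ha]
      exact (σ ⟨a, ha⟩).2
    · intro a ha b hb
      rw [hτ a ha, hτ b hb, hτ _ (add_mem ha hb)]
      exact congrArg (Subtype.val : l → L) (map_add σ ⟨a, ha⟩ ⟨b, hb⟩)
    · intro a ha b hb
      rw [hτ a ha, hτ b hb, hτ _ (mul_mem ha hb)]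
      exact congrArg (Subtype.val : l → L) (map_mul σ ⟨a, ha⟩ ⟨b, hb⟩)
    · rw [hτ 1 (one_mem k)]
      exact congrArg (Subtype.val : l → L) (map_one σ)
    · intro β hβ
      refine ⟨σ.symm ⟨β, hβ⟩, (σ.symm ⟨β, hβ⟩).2, ?_⟩
      rw [hτ _ (σ.symm ⟨β, hβ⟩).2]
      exact congrArg (Subtype.val : l → L) (σ.apply_symm_apply ⟨β, hβ⟩)
  obtain ⟨s₁', hs₁'⟩ := exists_Nv_of_mob H.ack H.acl hτo rs A.2 B.2 C.2 D.2
    (fun h0 => hdet (Subtype.ext h0)) (ψ := ψs) (e := es) ps.cor (by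
      rw [ae_iff_sub]
      filter_upwards [hσ, ae_iff_sub.1 ps.cor] with b hb1 hb2
      have h5 := congrArg (Subtype.val : l → L) hb1
      rw [hτ b b.2, ← sigb_rst_eq hb2.1]
      exact h5)
  exact ⟨τ, es, s₁', hτo, hs₁'⟩

/-- the coordinate of the sum. -/
theorem Hyp.nv_add (H : Hyp ℓ k l Θ) {σ : K → L} (hσ : IsoOn k l σ) {e : K → ZMod ℓ}
    {t s : K} {s' : L} (hst : Ind k s t) (ht : Good k t) (hts : Good k (t + s))
    (h : Nv k l Θ σ e s s') : ∃ z' ez, Nv k l Θ σ ez (t + s) z' ∧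
      ∀ᶠ a in ae k, ∀ᶠ b in ae k, ez (a + b) = e b := by
  have := ae_neBot_of_isAlgClosed H.ack
  obtain ⟨t', rt⟩ := H.rt_all ht
  obtain ⟨z₀', rz⟩ := H.rt_all hts
  obtain ⟨ψt, et, pt⟩ := H.exists_psi rt
  obtain ⟨ψz, ez, pz⟩ := H.exists_psi rz
  have ps := h.psi hσ H.ack
  obtain ⟨_, -, h1⟩ := H.rel hst.2 rt h.rt rz (shift_add H.ack h.rt.good.1 t) pt ps pz
  obtain ⟨a, ⟨i, j, A, hA, B, hB, C, hC, D, hD, hdet, h1, -⟩, ha⟩ :=
    (h1.and (ae_mem k)).exists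
  have hsa : ∀ n : ℕ, σ a ^ (ringExpChar L) ^ n ∈ l := fun n => pow_mem (hσ.mem a ha) _
  obtain ⟨z', ez', hz⟩ := exists_Nv_of_twist H.ack H.acl hσ rz (A := A)
    (B := B - A * σ a ^ (ringExpChar L) ^ j) (C := C)
    (D := D - C * σ a ^ (ringExpChar L) ^ j) hA (sub_mem hB (mul_mem hA (hsa j))) hC
    (sub_mem hD (mul_mem hC (hsa j))) (by
      intro h0
      apply hdet
      linear_combination h0) pz.cor i j (by
      filter_upwards [ae_shift (neg_mem ha) h1, ae_mem k] with b hb1 hb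
      have e1 : σ (-a + b) = σ b - σ a := by
        rw [show -a + b = b - a by ring, hσ.sub hb ha]
      rw [show a + (-a + b) = b by ring, e1, sub_pow_q] at hb1
      linear_combination hb1.1)
  refine ⟨z', ez', hz, ?_⟩
  obtain ⟨_, -, h2⟩ := H.rel hst.2 rt h.rt hz.rt (shift_add H.ack h.rt.good.1 t) pt ps
    (hz.psi hσ H.ack)
  filter_upwards [h2, ae_mem k] with a ha hak
  obtain ⟨i, j, A, hA, B, hB, C, hC, D, hD, hdet, h3, -⟩ := ha
  have h4 : ∀ᶠ b in ae k, (1 * σ b ^ (ringExpChar L) ^ i + σ a ^ (ringExpChar L) ^ i) *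
      (C * σ b ^ (ringExpChar L) ^ j + D) = A * σ b ^ (ringExpChar L) ^ j + B := by
    filter_upwards [h3, ae_mem k] with b hb1 hb
    rw [hσ.add a hak b hb, add_pow_q] at hb1
    linear_combination hb1.1
  have h5 := (twist_mob one_ne_zero hdet (sigb_infinite H.ack hσ h4)).1
  filter_upwards [h3] with b hb
  exact sigb_coeff h5 hb.2

/-- the coordinate of a summand. -/
theorem Hyp.nv_sub (H : Hyp ℓ k l Θ) {σ : K → L} (hσ : IsoOn k l σ) {ez : K → ZMod ℓ}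
    {t s : K} {z' : L} (hst : Ind k s t) (ht : Good k t) (hs : Good k s)
    (h : Nv k l Θ σ ez (t + s) z') : ∃ t' et, Nv k l Θ σ et t t' ∧
      ∀ᶠ b in ae k, ∀ᶠ a in ae k, ez (a + b) = et a := by
  have := ae_neBot_of_isAlgClosed H.ack
  have hts : Ind k t s := hst.symm H.ack
  obtain ⟨t₀', rt⟩ := H.rt_all ht
  obtain ⟨s', rs⟩ := H.rt_all hs
  obtain ⟨ψt, et, pt⟩ := H.exists_psi rt
  obtain ⟨ψs, es, ps⟩ := H.exists_psi rs
  have pz := h.psi hσ H.ack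
  have hsh : Shift ℓ k s t (t + s) (fun a b => a + b) := by
    rw [add_comm t s]
    exact shift_add H.ack ht.1 s
  obtain ⟨_, -, h1⟩ := H.rel hts.2 rs rt h.rt hsh ps pt pz
  obtain ⟨a, ⟨i, j, A, hA, B, hB, C, hC, D, hD, hdet, h1, -⟩, ha⟩ :=
    (h1.and (ae_mem k)).exists
  have hsa : ∀ n : ℕ, σ a ^ (ringExpChar L) ^ n ∈ l := fun n => pow_mem (hσ.mem a ha) _
  obtain ⟨t', et', ht'⟩ := exists_Nv_of_twist H.ack H.acl hσ rt (A := D)
    (B := D * σ a ^ (ringExpChar L) ^ i - B) (C := -C)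
    (D := A - C * σ a ^ (ringExpChar L) ^ i) hD (sub_mem (mul_mem hD (hsa i)) hB)
    (neg_mem hC) (sub_mem hA (mul_mem hC (hsa i))) (by
      intro h0
      apply hdet
      linear_combination h0) pt.cor j i (by
      filter_upwards [h1, ae_mem k] with b hb1 hb
      rw [hσ.add a ha b hb, add_pow_q] at hb1
      linear_combination -hb1.1)
  refine ⟨t', et', ht', ?_⟩
  obtain ⟨_, -, h2⟩ := H.rel hts.2 rs ht'.rt h.rt hsh ps (ht'.psi hσ H.ack) pz
  filter_upwards [h2, ae_mem k] with a ha hak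
  obtain ⟨i, j, A, hA, B, hB, C, hC, D, hD, hdet, h3, -⟩ := ha
  have h4 : ∀ᶠ b in ae k, (1 * σ b ^ (ringExpChar L) ^ i + σ a ^ (ringExpChar L) ^ i) *
      (C * σ b ^ (ringExpChar L) ^ j + D) = A * σ b ^ (ringExpChar L) ^ j + B := by
    filter_upwards [h3, ae_mem k] with b hb1 hb
    rw [hσ.add a hak b hb, add_pow_q] at hb1
    linear_combination hb1.1
  have h5 := (twist_mob one_ne_zero hdet (sigb_infinite H.ack hσ h4)).1
  filter_upwards [h3] with b hb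
  rw [add_comm]
  exact sigb_coeff h5 hb.2

theorem Hyp.exists_sigma₀ (H : Hyp ℓ k l Θ) : ∃ (σ : K → L) (e : ZMod ℓ) (s : K) (s' : L),
    IsoOn k l σ ∧ e ≠ 0 ∧ Nm k l Θ σ e s s' := by
  have := ae_neBot_of_isAlgClosed H.ack
  obtain ⟨_, s, _, hs, _, _, σ, es, s', hσ, hs'⟩ := H.exists_sigma₁
  obtain ⟨t, ht, hts, hst, hsp⟩ := H.exists_special hs
  obtain ⟨z', ez, hz, h1⟩ := H.nv_add hσ hst ht hts hs'
  obtain ⟨e, he0⟩ := hsp z' hz.rt
  have h2 : ∀ᶠ c in ae k, ez c = e := by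
    filter_upwards [hz.cor, ae_mem k] with c hc hck
    exact he0 c hck (σ c) (hσ.mem c hck) (ez c) hc.1 hc.2
  obtain ⟨a, h1, ha⟩ := (h1.and (ae_mem k)).exists
  have he : ∀ᶠ b in ae k, es b = e := by
    filter_upwards [h1, ae_shift ha h2] with b hb1 hb2
    rw [← hb1, hb2]
  refine ⟨σ, e, s, s', hσ, ?_, hs'.rt, ?_⟩
  · obtain ⟨b, hb1, hb2⟩ := (he.and hs'.cor).exists
    rw [← hb1]
    exact hb2.1
  · filter_upwards [he, hs'.cor] with b hb1 hb2
    rw [← hb1]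
    exact hb2.2

/-- `σ` works for all independent good elements. -/
theorem Hyp.exists_Nm_of_ind (H : Hyp ℓ k l Θ) {σ : K → L} (hσ : IsoOn k l σ) {e : ZMod ℓ}
    (he : e ≠ 0) {s : K} {s' : L} (h : Nm k l Θ σ e s s') {t : K} (ht : Good k t)
    (hts : Ind k s t) : ∃ t', Nm k l Θ σ e t t' := by
  have := ae_neBot_of_isAlgClosed H.ack
  have hst : Ind k t s := hts.symm H.ack
  obtain ⟨c, hgood, hc0, hc⟩ := ((H.bert t s hst.1 hst.2).and
    ((ae_ne 0).and (ae_mem k))).exists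
  have hu : Nm k l Θ σ e (c * s) (σ c * s') := h.mul_const H.ack H.acl hσ he hc hc0
  have hle : adj k (c * s) ≤ adj k s :=
    adj_le (le_adj k s) (mul_mem (le_adj k s hc) (mem_adj k s))
  have hut : ¬ IsAlgebraic (adj k (c * s)) t := fun h => hts.2 (isAlgebraic_mono hle h)
  have hind : Ind k (c * s) t := ⟨hu.rt.good.1, hut⟩
  have hnv : Nv k l Θ σ (fun _ => e) (c * s) (σ c * s') :=
    ⟨hu.rt, hu.cor.mono fun b hb => ⟨he, hb⟩⟩
  obtain ⟨z', ez, hz, h1⟩ := H.nv_add hσ hind ht hgood hnv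
  obtain ⟨t', et, ht', h2⟩ := H.nv_sub hσ hind ht hu.rt.good hz
  obtain ⟨a, h1, ha⟩ := (h1.and (ae_mem k)).exists
  obtain ⟨b, h2, hb⟩ := (h2.and (ae_mem k)).exists
  have h3 : ∀ᶠ x in ae k, ez x = e := by
    filter_upwards [ae_shift (neg_mem ha) h1] with x hx
    rwa [show a + (-a + x) = x by ring] at hx
  refine ⟨t', ht'.rt, ?_⟩
  filter_upwards [h2, ae_shift hb h3, ht'.cor] with x hx1 hx2 hx3
  rw [add_comm, hx1] at hx2
  rw [← hx2]
  exact hx3.2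

/-- the isomorphism of the fields of constants. -/
theorem Hyp.exists_sigma (H : Hyp ℓ k l Θ) : ∃ (σ : K → L) (e : ZMod ℓ),
    IsoOn k l σ ∧ e ≠ 0 ∧ ∀ s, Good k s → ∃ s', Nm k l Θ σ e s s' := by
  classical
  obtain ⟨σ, e, s, s', hσ, he, h⟩ := H.exists_sigma₀
  refine ⟨σ, e, hσ, he, fun s₁ hs₁ => ?_⟩
  obtain ⟨t, ht0⟩ := exists_gen_add H.ack H.fgk H.trk {0} {s, s₁} (by
    intro b hb
    rw [Finset.mem_insert, Finset.mem_singleton] at hb
    rcases hb with rfl | rfl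
    · exact h.rt.good
    · exact hs₁)
  obtain ⟨ht, hi⟩ := ht0 0 (Finset.mem_singleton_self 0)
  rw [zero_add] at ht hi
  have hi1 := hi s (by simp)
  have hi2 := hi s₁ (by simp)
  obtain ⟨t', ht'⟩ := H.exists_Nm_of_ind hσ he h ht (hi1.symm H.ack)
  exact H.exists_Nm_of_ind hσ he ht' hs₁ hi2

end Vale.Agent.P019P
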