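import Vale.Agent.P019.AlphaB
import Vale.Agent.P019P.SigB

/-!
# The homomorphism of fields (perfect version)

`IsoOn.tendsto` is that of the old file.
-/

namespace Vale.Agent.P019P

open Vale.Agent.P019

set_option linter.style.haveILetI false
set_option linter.unusedSectionVars false

open Polynomial Filter

/-- almost all constants give infinitely many values. -/
theorem IsoOn.infinite_of_ae {K L : Type*} [Field K] [Field L] {k : Subfield K}
    {l : Subfield L} (hk : IsAlgClosed k) {σ : K → L} (hσ : IsoOn k l σ) {P : L → Prop}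
    (h : ∀ᶠ b in ae k, P (σ b)) : {x : L | P x}.Infinite := by
  intro hfin
  rw [ae_iff] at h
  have h1 : {b : K | b ∈ k ∧ P (σ b)}.Finite := by
    refine Set.Finite.of_finite_image (f := σ) (hfin.subset ?_) ?_
    · rintro _ ⟨b, ⟨_, hb⟩, rfl⟩
      exact hb
    · rintro a ⟨ha, -⟩ b ⟨hb, -⟩ hab
      exact hσ.inj ha hb hab
  refine infinite_of_isAlgClosed hk ((h.union h1).subset ?_)
  intro b hb
  by_cases hP : P (σ b)
  · exact Or.inr ⟨hb, hP⟩
  · exact Or.inl ⟨hb, hP⟩

variable {K L : Type*} [Field K] [Field L] [PerfectField K] [PerfectField L] {ℓ : ℕ}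
  [Fact ℓ.Prime] [NeZero (ℓ : K)] [NeZero (ℓ : L)]
  {k : Subfield K} {l : Subfield L} {Θ : V ℓ K ≃ₗ[ZMod ℓ] V ℓ L}

theorem Hyp.Nm_add (H : Hyp ℓ k l Θ) {σ : K → L} (hσ : IsoOn k l σ) {e : ZMod ℓ} (he : e ≠ 0)
    {t s : K} {t' s' z' : L} (hts : Ind k s t) (ht : Nm k l Θ σ e t t') (hs : Nm k l Θ σ e s s')
    (hz : Nm k l Θ σ e (t + s) z') : z' = t' + s' := by
  obtain ⟨G', hG', hrel⟩ := H.rel hts.2 ht.rt hs.rt hz.rt (shift_add H.ack hts.1 t)
    (ht.psi hσ he) (hs.psi hσ he) (hz.psi hσ he)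
  by_contra hne
  have hne' : z' - s' - t' ≠ 0 := by
    intro h
    apply hne
    linear_combination h
  have hle : l ≤ adj G' s' := hG'.le.trans (le_adj G' s')
  have hun := hσ.tendsto.eventually ((hG'.unit hne').filter_mono (ae_mono hle))
  have := ae_neBot_of_isAlgClosed H.ack
  obtain ⟨a, ⟨⟨hrel, hun⟩, hak⟩⟩ := ((hrel.and hun).and (ae_mem k)).exists
  obtain ⟨i, j, A, hA, B, hB, C, hC, D, hD, hdet, hmob, W, hW, hval⟩ := hrel
  have hq : (ringExpChar L) ^ i = (ringExpChar L) ^ j ∧ C = 0 ∧ A = 1 * D ∧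
      B = σ a ^ (ringExpChar L) ^ i * D := by
    refine twist_mob (u := 1) (v := σ a ^ (ringExpChar L) ^ i) one_ne_zero hdet ?_
    refine IsoOn.infinite_of_ae H.ack hσ ?_
    filter_upwards [hmob, ae_mem k] with b hb hbk
    have h1 := hb.1
    rw [hσ.add a hak b hbk, add_pow_q] at h1
    linear_combination h1
  obtain ⟨hij, hC0, hAD, hBD⟩ := hq
  rw [one_mul] at hAD
  have hD0 : D ≠ 0 := by
    rintro rfl
    apply hdet
    rw [hC0]
    ring
  have hDu : W.valuation D = 1 := hW.triv.eq_one (hle hD) hD0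
  have h1 : W.valuation (z' - s' - σ a) < 1 := by
    have e1 : z' ^ (ringExpChar L) ^ i * (C * s' ^ (ringExpChar L) ^ j + D) -
        (A * s' ^ (ringExpChar L) ^ j + B) = D * (z' - s' - σ a) ^ (ringExpChar L) ^ i := by
      rw [sub_pow_q, sub_pow_q, ← hij, hC0, hAD, hBD]
      ring
    rw [e1, map_mul, hDu, one_mul, map_pow] at hval
    by_contra hge
    exact absurd hval (not_lt.2 (one_le_pow₀ (not_lt.1 hge)))
  have h2 : W.valuation (z' - s' - t') < 1 := by
    have e1 : z' - s' - t' = (z' - s' - σ a) - (t' - σ a) := by ring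
    rw [e1]
    exact lt_of_le_of_lt (Valuation.map_sub _ _ _) (max_lt h1 hW.lt)
  exact h2.ne (hun W hW)

theorem Hyp.Nm_mul (H : Hyp ℓ k l Θ) {σ : K → L} (hσ : IsoOn k l σ) {e : ZMod ℓ} (he : e ≠ 0)
    {t s : K} {t' s' z' : L} (hts : Ind k s t) (ht : Nm k l Θ σ e t t') (hs : Nm k l Θ σ e s s')
    (hz : Nm k l Θ σ e (t * s) z') : z' = t' * s' := by
  obtain ⟨G', hG', hrel⟩ := H.rel hts.2 ht.rt hs.rt hz.rt (shift_mul H.ack hts.1 t)
    (ht.psi hσ he) (hs.psi hσ he) (hz.psi hσ he)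
  by_contra hne
  have hne' : z' - t' * s' ≠ 0 := sub_ne_zero.2 hne
  have hle : l ≤ adj G' s' := hG'.le.trans (le_adj G' s')
  have hun := hσ.tendsto.eventually ((hG'.unit hne').filter_mono (ae_mono hle))
  have := ae_neBot_of_isAlgClosed H.ack
  have hne0 : ∀ᶠ a in ae k, a ≠ 0 := by
    rw [ae_iff]
    refine (Set.finite_singleton (0 : K)).subset ?_
    rintro a ⟨-, ha⟩
    rw [not_not] at ha
    exact ha
  obtain ⟨a, ⟨⟨⟨hrel, hun⟩, hak⟩, ha0⟩⟩ := (((hrel.and hun).and (ae_mem k)).and hne0).exists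
  obtain ⟨i, j, A, hA, B, hB, C, hC, D, hD, hdet, hmob, W, hW, hval⟩ := hrel
  have hσ0 : σ 0 = 0 := by
    have h1 := hσ.add 0 k.zero_mem 0 k.zero_mem
    rw [add_zero] at h1
    linear_combination -h1
  have hσa : σ a ≠ 0 := by
    intro h
    apply ha0
    exact hσ.inj hak k.zero_mem (h.trans hσ0.symm)
  have hq : (ringExpChar L) ^ i = (ringExpChar L) ^ j ∧ C = 0 ∧
      A = σ a ^ (ringExpChar L) ^ i * D ∧ B = 0 * D := by
    refine twist_mob (u := σ a ^ (ringExpChar L) ^ i) (v := 0) (pow_ne_zero _ hσa) hdet ?_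
    refine IsoOn.infinite_of_ae H.ack hσ ?_
    filter_upwards [hmob, ae_mem k] with b hb hbk
    have h1 := hb.1
    rw [hσ.mul a hak b hbk, mul_pow] at h1
    linear_combination h1
  obtain ⟨hij, hC0, hAD, hB0⟩ := hq
  rw [zero_mul] at hB0
  have hD0 : D ≠ 0 := by
    rintro rfl
    apply hdet
    rw [hC0]
    ring
  have hDu : W.valuation D = 1 := hW.triv.eq_one (hle hD) hD0
  have h1 : W.valuation (z' - σ a * s') < 1 := by
    have e1 : z' ^ (ringExpChar L) ^ i * (C * s' ^ (ringExpChar L) ^ j + D) -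
        (A * s' ^ (ringExpChar L) ^ j + B) = D * (z' - σ a * s') ^ (ringExpChar L) ^ i := by
      rw [sub_pow_q, mul_pow, ← hij, hC0, hAD, hB0]
      ring
    rw [e1, map_mul, hDu, one_mul, map_pow] at hval
    by_contra hge
    exact absurd hval (not_lt.2 (one_le_pow₀ (not_lt.1 hge)))
  have hs1 : W.valuation s' ≤ 1 := (W.valuation_le_one_iff _).2 (hW.triv _ (mem_adj G' s'))
  have h2 : W.valuation (z' - t' * s') < 1 := by
    have e1 : z' - t' * s' = (z' - σ a * s') - (t' - σ a) * s' := by ring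
    rw [e1]
    refine lt_of_le_of_lt (Valuation.map_sub _ _ _) (max_lt h1 ?_)
    rw [map_mul]
    exact lt_of_le_of_lt (mul_le_of_le_one_right' hs1) hW.lt
  exact h2.ne (hun W hW)

theorem Hyp.exists_alpha (H : Hyp ℓ k l Θ) : ∃ (σ : K → L) (e : ZMod ℓ) (A : K →+* L),
    IsoOn k l σ ∧ e ≠ 0 ∧ (∀ b ∈ k, A b = σ b) ∧ ∀ s, Good k s → Nm k l Θ σ e s (A s) := by
  classical
  obtain ⟨σ, e, hσ, he, hall⟩ := H.exists_sigma
  let α : K → L := fun s => if h : Good k s then (hall s h).choose else 0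
  have hα : ∀ s, Good k s → Nm k l Θ σ e s (α s) := by
    intro s hs
    have h1 : α s = (hall s hs).choose := dif_pos hs
    rw [h1]
    exact (hall s hs).choose_spec
  obtain ⟨A, hA⟩ := extend_hom {s | Good k s} (Ind k) α (fun x y h => h.symm H.ack)
    (fun x y hx hy hxy hind => by
      have h1 : Good k (y + x) := by rw [add_comm]; exact hxy
      have h2 := H.Nm_add hσ he hind (hα y hy) (hα x hx) (hα (y + x) h1)
      rw [add_comm x y, h2, add_comm])
    (fun x y hx hy hxy hind => by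
      have h1 : Good k (y * x) := by rw [mul_comm]; exact hxy
      have h2 := H.Nm_mul hσ he hind (hα y hy) (hα x hx) (hα (y * x) h1)
      rw [mul_comm x y, h2, mul_comm])
    (fun x hx h0 => by
      have h1 := (hα x hx).rt.good'.1
      apply h1
      rw [h0]
      exact l.zero_mem)
    (fun A B hB => exists_gen_add H.ack H.fgk H.trk A B hB)
    (fun h t ht => exists_gen_mul H.ack H.fgk H.trk h t ht)
  have hAN : ∀ s, Good k s → Nm k l Θ σ e s (A s) := by
    intro s hs
    rw [hA s hs]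
    exact hα s hs
  refine ⟨σ, e, A, hσ, he, ?_, hAN⟩
  intro b hb
  obtain ⟨t, ht⟩ := exists_gen_add H.ack H.fgk H.trk {0} ∅ (by simp)
  have hs : Good k (0 + t) := (ht 0 (by simp)).1
  have h1 := (hAN _ hs).add_const H.ack H.acl hσ he hb
  have h2 := (hAN _ h1.rt.good).unique H.ack H.acl H.fgl hσ he h1
  rw [map_add] at h2
  exact add_left_cancel h2

end Vale.Agent.P019P
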