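import Vale.Agent.P019.ClPair
import Vale.Agent.P019P.Sp

/-!
# Closed pairs
-/

namespace Vale.Agent.P019P

open Vale.Agent.P019

set_option linter.style.haveILetI false

open Polynomial

section ctb

variable {K : Type*} [Field K]

theorem ctb_sup {E F : Subfield K} (hE : (E : Set K).Countable) (hF : (F : Set K).Countable) :
    ((E ⊔ F : Subfield K) : Set K).Countable := by
  have h : E ⊔ F ≤ Subfield.closure ((E : Set K) ∪ F) :=
    sup_le (fun x hx => Subfield.subset_closure (Or.inl hx))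
      (fun x hx => Subfield.subset_closure (Or.inr hx))
  exact (ctb_closure (hE.union hF)).mono h

end ctb

section chain

variable {K : Type*} [Field K]

end chain

namespace Mdl

variable {K : Type*} [Field K] (M : Mdl K)

theorem ctb_F {N : Subfield K} (hN : (N : Set K).Countable) : (M.F N : Set K).Countable :=
  ctb_sup M.ctb hN

theorem sub_k0 : M.Sub M.k0 := ⟨RAC_of_isAlgClosed _ M.ack0, le_rfl, M.le_k⟩

theorem ctb_k0 : (M.k0 : Set K).Countable := M.ctb.mono M.le_K0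

/-- every element comes from a countable field of constants. -/
theorem exists_ctb (z : K) : ∃ S : Set K, S.Countable ∧ (∀ s ∈ S, s ∈ M.k) ∧
    z ∈ M.K0 ⊔ Subfield.closure S := by
  have hz : z ∈ Subfield.closure ((M.K0 : Set K) ∪ M.k) := by
    have h1 : (⊤ : Subfield K) ≤ Subfield.closure ((M.K0 : Set K) ∪ M.k) := by
      rw [← M.sup]
      exact sup_le (fun x hx => Subfield.subset_closure (Or.inl hx))
        (fun x hx => Subfield.subset_closure (Or.inr hx))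
    exact h1 trivial
  induction hz using Subfield.closure_induction with
  | mem x hx =>
    rcases hx with hx | hx
    · exact ⟨∅, Set.countable_empty, by simp, (le_sup_left : M.K0 ≤ _) hx⟩
    · exact ⟨{x}, Set.countable_singleton x, by simpa using hx,
        (le_sup_right : Subfield.closure {x} ≤ M.K0 ⊔ _) (Subfield.subset_closure rfl)⟩
  | one => exact ⟨∅, Set.countable_empty, by simp, Subfield.one_mem _⟩
  | add x y _ _ hx hy =>
    obtain ⟨S, hS, hSk, hx⟩ := hx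
    obtain ⟨T, hT, hTk, hy⟩ := hy
    refine ⟨S ∪ T, hS.union hT, ?_, Subfield.add_mem _ ?_ ?_⟩
    · rintro s (hs | hs)
      exacts [hSk s hs, hTk s hs]
    · exact sup_le_sup_left (Subfield.closure_mono Set.subset_union_left) _ hx
    · exact sup_le_sup_left (Subfield.closure_mono Set.subset_union_right) _ hy
  | neg x _ hx =>
    obtain ⟨S, hS, hSk, hx⟩ := hx
    exact ⟨S, hS, hSk, Subfield.neg_mem _ hx⟩
  | inv x _ hx =>
    obtain ⟨S, hS, hSk, hx⟩ := hx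
    exact ⟨S, hS, hSk, Subfield.inv_mem _ hx⟩
  | mul x y _ _ hx hy =>
    obtain ⟨S, hS, hSk, hx⟩ := hx
    obtain ⟨T, hT, hTk, hy⟩ := hy
    refine ⟨S ∪ T, hS.union hT, ?_, Subfield.mul_mem _ ?_ ?_⟩
    · rintro s (hs | hs)
      exacts [hSk s hs, hTk s hs]
    · exact sup_le_sup_left (Subfield.closure_mono Set.subset_union_left) _ hx
    · exact sup_le_sup_left (Subfield.closure_mono Set.subset_union_right) _ hy

/-- enlarging a countable field of constants. -/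
theorem exists_big (hk : ¬ (M.k : Set K).Countable) {N : Subfield K} (hN : M.Sub N)
    (hc : (N : Set K).Countable) (Z : Set K) (hZ : Z.Countable) :
    ∃ N₂, M.Sub N₂ ∧ (N₂ : Set K).Countable ∧ N ≤ N₂ ∧ (∃ a ∈ N₂, a ∉ N) ∧
      ∀ z ∈ Z, z ∈ M.F N₂ := by
  choose S hS hSk hSz using M.exists_ctb
  obtain ⟨a, hak, haN⟩ : ∃ a ∈ M.k, a ∉ N := by
    by_contra hcon
    push Not at hcon
    exact hk (hc.mono hcon)
  set T : Set K := {a} ∪ ⋃ z ∈ Z, S z with hT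
  have hTc : T.Countable :=
    (Set.countable_singleton a).union (hZ.biUnion (fun z _ => hS z))
  have hTk : Subfield.closure T ≤ M.k := by
    rw [Subfield.closure_le]
    rintro s (hs | hs)
    · rw [Set.mem_singleton_iff.1 hs]; exact hak
    · obtain ⟨z, _, hs⟩ := Set.mem_iUnion₂.1 hs
      exact hSk z s hs
  have h0 : N ≤ rac (N ⊔ Subfield.closure T) := le_sup_left.trans (le_rac _)
  have h1 : Subfield.closure T ≤ rac (N ⊔ Subfield.closure T) := le_sup_right.trans (le_rac _)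
  refine ⟨rac (N ⊔ Subfield.closure T), sub_rac (hN.ge.trans le_sup_left)
    (sup_le hN.le hTk), ctb_rac (ctb_sup hc (ctb_closure hTc)), h0,
    ⟨a, h1 (Subfield.subset_closure (Or.inl rfl)), haN⟩, ?_⟩
  intro z hz
  refine sup_le_sup_left ?_ M.K0 (hSz z)
  refine (Subfield.closure_mono ?_).trans h1
  exact (Set.subset_biUnion_of_mem (u := fun z => S z) hz).trans Set.subset_union_right

variable {M}

theorem sub_iSup {N : ℕ → Subfield K} (hm : Monotone N) (hN : ∀ n, M.Sub (N n)) :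
    M.Sub (⨆ n, N n) :=
  ⟨RAC_iSup hm (fun n => (hN n).rac), (hN 0).ge.trans (le_iSup N 0),
    iSup_le (fun n => (hN n).le)⟩

theorem F_iSup {N : ℕ → Subfield K} (hm : Monotone N) {z : K} :
    z ∈ M.F (⨆ n, N n) ↔ ∃ n, z ∈ M.F (N n) := by
  have h : M.F (⨆ n, N n) = ⨆ n, M.F (N n) := sup_iSup
  rw [h]
  exact mem_iSup_chain (fun _ _ hab => F_mono (hm hab))

theorem F_iSup_finset {N : ℕ → Subfield K} (hm : Monotone N) (S : Finset K)
    (hS : ∀ s ∈ S, s ∈ M.F (⨆ n, N n)) : ∃ n, ∀ s ∈ S, s ∈ M.F (N n) := by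
  have h : M.F (⨆ n, N n) = ⨆ n, M.F (N n) := sup_iSup
  rw [h] at hS
  exact finset_chain (fun _ _ hab => F_mono (hm hab)) S hS

end Mdl

section CP

variable {K L : Type*} [Field K] [Field L] {ℓ : ℕ}

/-- closed pairs of countable algebraically closed fields of constants. -/
structure CP (M : Mdl K) (M' : Mdl L) (Θ : V ℓ K ≃ₗ[ZMod ℓ] V ℓ L) (N : Subfield K)
    (N' : Subfield L) : Prop where
  sub : M.Sub N
  sub' : M'.Sub N'
  ctb : (N : Set K).Countable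
  ctb' : (N' : Set L).Countable
  map : ∀ v, v ∈ VS ℓ (M.F N) ↔ Θ v ∈ VS ℓ (M'.F N')
  inf : ∀ S : Finset K, (∀ s ∈ S, s ∈ M.F N) →
    ∃ N₀, M.Sub N₀ ∧ N₀ ≤ N ∧ N₀ ≠ N ∧ (∀ s ∈ S, s ∈ M.F N₀)
  inf' : ∀ S : Finset L, (∀ s ∈ S, s ∈ M'.F N') →
    ∃ N₀, M'.Sub N₀ ∧ N₀ ≤ N' ∧ N₀ ≠ N' ∧ (∀ s ∈ S, s ∈ M'.F N₀)

/-- one step: enlarge so that the classes of a smaller countable field are absorbed. -/
theorem exists_step (M : Mdl K) (M' : Mdl L) (Θ : V ℓ K →ₗ[ZMod ℓ] V ℓ L)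
    (hl : ¬ (M'.k : Set L).Countable) {N : Subfield K} (hc : (N : Set K).Countable)
    {N' : Subfield L} (hN' : M'.Sub N') (hc' : (N' : Set L).Countable) (B : Set L)
    (hB : B.Countable) :
    ∃ N₂, M'.Sub N₂ ∧ (N₂ : Set L).Countable ∧ N' ≤ N₂ ∧ (∃ a ∈ N₂, a ∉ N') ∧
      (∀ b ∈ B, b ∈ M'.F N₂) ∧ ∀ v ∈ VS ℓ (M.F N), Θ v ∈ VS ℓ (M'.F N₂) := by
  choose r _ hr using fun v : V ℓ L => cl_surj (ℓ := ℓ) v
  obtain ⟨N₂, h1, h2, h3, h4, h5⟩ := M'.exists_big hl hN' hc'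
    (B ∪ (fun x : K => r (Θ (cl ℓ x))) '' (M.F N : Set K))
    (hB.union ((M.ctb_F hc).image _))
  refine ⟨N₂, h1, h2, h3, h4, fun b hb => h5 b (Or.inl hb), ?_⟩
  rintro _ ⟨x, hx, _, rfl⟩
  have h6 := h5 _ (Or.inr ⟨x, hx, rfl⟩)
  have h7 := cl_mem_VS (ℓ := ℓ) h6
  rwa [hr] at h7

/-- the state of the construction. -/
structure St (M : Mdl K) (M' : Mdl L) where
  N : Subfield K
  N' : Subfield L
  sub : M.Sub N
  sub' : M'.Sub N'
  ctb : (N : Set K).Countable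
  ctb' : (N' : Set L).Countable

/-- S81 existence of closed pairs. -/
theorem exists_CP [PerfectField K] [PerfectField L] [Fact ℓ.Prime] [NeZero (ℓ : K)] (M : Mdl K) (M' : Mdl L)
    (Θ : V ℓ K ≃ₗ[ZMod ℓ] V ℓ L)
    (hk : ¬ (M.k : Set K).Countable) (hl : ¬ (M'.k : Set L).Countable) (A : Set K)
    (hA : A.Countable) (B : Set L) (hB : B.Countable) :
    ∃ N N', CP M M' Θ N N' ∧ (∀ a ∈ A, a ∈ M.F N) ∧ (∀ b ∈ B, b ∈ M'.F N') := by
  have step : ∀ s : St M M', ∃ t : St M M', (s.N ≤ t.N ∧ (∃ a ∈ t.N, a ∉ s.N) ∧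
      (∀ a ∈ A, a ∈ M.F t.N) ∧ ∀ v ∈ VS ℓ (M'.F s.N'), Θ.symm v ∈ VS ℓ (M.F t.N)) ∧
      (s.N' ≤ t.N' ∧ (∃ a ∈ t.N', a ∉ s.N') ∧
      (∀ b ∈ B, b ∈ M'.F t.N') ∧ ∀ v ∈ VS ℓ (M.F s.N), Θ v ∈ VS ℓ (M'.F t.N')) := by
    intro s
    obtain ⟨N₂, h1, h2, h3, h4, h5, h6⟩ := exists_step (ℓ := ℓ) M' M Θ.symm.toLinearMap hk
      s.ctb' s.sub s.ctb A hA
    obtain ⟨N₂', h1', h2', h3', h4', h5', h6'⟩ := exists_step (ℓ := ℓ) M M' Θ.toLinearMap hl
      s.ctb s.sub' s.ctb' B hB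
    exact ⟨⟨N₂, N₂', h1, h1', h2, h2'⟩, ⟨h3, h4, h5, h6⟩, ⟨h3', h4', h5', h6'⟩⟩
  choose f hf hf' using step
  let s : ℕ → St M M' := fun n => Nat.rec ⟨M.k0, M'.k0, M.sub_k0, M'.sub_k0, M.ctb_k0,
    M'.ctb_k0⟩ (fun _ t => f t) n
  have hs : ∀ n, s (n + 1) = f (s n) := fun _ => rfl
  have hm : Monotone (fun n => (s n).N) := monotone_nat_of_le_succ (fun n => by
    rw [hs]; exact (hf (s n)).1)
  have hm' : Monotone (fun n => (s n).N') := monotone_nat_of_le_succ (fun n => by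
    rw [hs]; exact (hf' (s n)).1)
  have hne : ∀ n, (s n).N ≠ ⨆ n, (s n).N := by
    intro n hn
    obtain ⟨a, ha, ha'⟩ := (hf (s n)).2.1
    rw [← hs] at ha
    exact ha' (hn ▸ (mem_iSup_chain hm).2 ⟨n + 1, ha⟩)
  have hne' : ∀ n, (s n).N' ≠ ⨆ n, (s n).N' := by
    intro n hn
    obtain ⟨a, ha, ha'⟩ := (hf' (s n)).2.1
    rw [← hs] at ha
    exact ha' (hn ▸ (mem_iSup_chain hm').2 ⟨n + 1, ha⟩)
  have hVS : ∀ v, v ∈ VS ℓ (M.F (⨆ n, (s n).N)) → ∃ n, v ∈ VS ℓ (M.F (s n).N) := by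
    rintro _ ⟨x, hx, _, rfl⟩
    obtain ⟨n, hn⟩ := (Mdl.F_iSup hm).1 hx
    exact ⟨n, cl_mem_VS hn⟩
  have hVS' : ∀ v, v ∈ VS ℓ (M'.F (⨆ n, (s n).N')) → ∃ n, v ∈ VS ℓ (M'.F (s n).N') := by
    rintro _ ⟨x, hx, _, rfl⟩
    obtain ⟨n, hn⟩ := (Mdl.F_iSup hm').1 hx
    exact ⟨n, cl_mem_VS hn⟩
  refine ⟨⨆ n, (s n).N, ⨆ n, (s n).N', ?_, ?_, ?_⟩
  · refine ⟨Mdl.sub_iSup hm (fun n => (s n).sub), Mdl.sub_iSup hm' (fun n => (s n).sub'),
      ?_, ?_, ?_, ?_, ?_⟩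
    · rw [Subfield.coe_iSup_of_directed hm.directed_le]
      exact Set.countable_iUnion (fun n => (s n).ctb)
    · rw [Subfield.coe_iSup_of_directed hm'.directed_le]
      exact Set.countable_iUnion (fun n => (s n).ctb')
    · intro v
      constructor
      · intro hv
        obtain ⟨n, hn⟩ := hVS v hv
        have h1 := (hf' (s n)).2.2.2 v hn
        rw [← hs] at h1
        exact VS_mono (Mdl.F_mono (le_iSup (fun n => (s n).N') (n + 1))) h1
      · intro hv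
        obtain ⟨n, hn⟩ := hVS' _ hv
        have h1 := (hf (s n)).2.2.2 _ hn
        rw [← hs, LinearEquiv.symm_apply_apply] at h1
        exact VS_mono (Mdl.F_mono (le_iSup (fun n => (s n).N) (n + 1))) h1
    · intro S hS
      obtain ⟨n, hn⟩ := Mdl.F_iSup_finset hm S hS
      exact ⟨(s n).N, (s n).sub, le_iSup (fun n => (s n).N) n, hne n, hn⟩
    · intro S hS
      obtain ⟨n, hn⟩ := Mdl.F_iSup_finset hm' S hS
      exact ⟨(s n).N', (s n).sub', le_iSup (fun n => (s n).N') n, hne' n, hn⟩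
  · intro a ha
    have h1 := (hf (s 0)).2.2.1 a ha
    rw [← hs] at h1
    exact Mdl.F_mono (le_iSup (fun n => (s n).N) 1) h1
  · intro b hb
    have h1 := (hf' (s 0)).2.2.1 b hb
    rw [← hs] at h1
    exact Mdl.F_mono (le_iSup (fun n => (s n).N') 1) h1

/-- S82 uncountability is transported. -/
theorem uncountable_transport [PerfectField K] [PerfectField L] [Fact ℓ.Prime] [NeZero (ℓ : K)] (M : Mdl K) (M' : Mdl L)
    (Θ : V ℓ K ≃ₗ[ZMod ℓ] V ℓ L)
    (hk : ¬ (M.k : Set K).Countable) : ¬ (M'.k : Set L).Countable := by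
  intro hl
  apply hk
  have h1 : (Set.univ : Set L).Countable := by
    have h := M'.ctb_F hl
    rw [M'.F_k] at h
    exact h
  have h2 : (Set.univ : Set (V ℓ K)).Countable := by
    refine (h1.image (fun y : L => Θ.symm (cl ℓ y))).mono ?_
    intro v _
    obtain ⟨y, _, hy⟩ := cl_surj ℓ (Θ v)
    exact ⟨y, trivial, by simp only [hy, LinearEquiv.symm_apply_apply]⟩
  have hfg : FG M.k (⊤ : Subfield K) := by
    have h := M.fg_F M.sub_k
    rwa [M.F_k] at h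
  have h3 : (⋃ v ∈ (Set.univ : Set (V ℓ K)), {c : K | c ∈ M.k ∧ cl ℓ (M.x - c) = v}).Countable :=
    h2.biUnion (fun v _ => (dist_top ℓ M.ack hfg M.hxk v).countable)
  refine h3.mono ?_
  intro c hc
  exact Set.mem_biUnion (Set.mem_univ (cl ℓ (M.x - c))) ⟨hc, rfl⟩

end CP

end Vale.Agent.P019P

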