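import Vale.Agent.P019.Kummer
import Vale.Agent.P019P.Fld
/-!
# Kummer descent
-/

namespace Vale.Agent.P019P

open Vale.Agent.P019

set_option linter.style.haveILetI false

open Polynomial IntermediateField

section span

variable {Ω : Type*} [Field Ω]

/-- a finite Galois extension inside an algebraically closed field containing finitely many
algebraic elements. -/
theorem exists_galois [IsAlgClosed Ω] (K : Subfield Ω) [PerfectField K] (t : Finset Ω)
    (ht : ∀ b ∈ t, IsAlgebraic K b) :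
    ∃ M : IntermediateField K Ω, (∀ b ∈ t, b ∈ M) ∧ FiniteDimensional K M ∧ IsGalois K M ∧
      ∃ R : Set Ω, M = adjoin K R ∧ ∀ r ∈ R, ∃ b ∈ t, aeval r (minpoly K b) = 0 := by
  classical
  let p : K[X] := ∏ b ∈ t, minpoly K b
  have hp : p ≠ 0 := Finset.prod_ne_zero_iff.2 (fun b hb => minpoly.ne_zero (ht b hb).isIntegral)
  haveI hsf : p.IsSplittingField K (adjoin K (p.rootSet Ω)) :=
    adjoin_rootSet_isSplittingField (IsAlgClosed.splits _)
  refine ⟨adjoin K (p.rootSet Ω), ?_, Polynomial.IsSplittingField.finiteDimensional _ p, ?_,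
    p.rootSet Ω, rfl, ?_⟩
  · intro b hb
    apply subset_adjoin
    rw [mem_rootSet]
    refine ⟨hp, ?_⟩
    rw [map_prod]
    exact Finset.prod_eq_zero hb (minpoly.aeval K b)
  · haveI : Normal K (adjoin K (p.rootSet Ω)) := Normal.of_isSplittingField p
    haveI : FiniteDimensional K (adjoin K (p.rootSet Ω)) :=
      Polynomial.IsSplittingField.finiteDimensional _ p
    exact ⟨⟩
  · intro r hr
    rw [mem_rootSet] at hr
    have h1 := hr.2
    rw [map_prod, Finset.prod_eq_zero_iff] at h1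
    exact h1

end span

section kummer

variable {Ω : Type*} [Field Ω]

/-- algebraicity over a smaller subfield is preserved by automorphisms over a bigger one. -/
theorem isAlgebraic_aut {E K : Subfield Ω} (hEK : E ≤ K) {M : IntermediateField K Ω}
    (σ : M ≃ₐ[K] M) {e : M} (he : IsAlgebraic E (e : Ω)) : IsAlgebraic E ((σ e : M) : Ω) := by
  obtain ⟨Q, hQ0, hQ⟩ := he
  refine ⟨Q, hQ0, ?_⟩
  let Q' : K[X] := Q.map (Subfield.inclusion hEK)
  have key : ∀ y : M, aeval (y : Ω) Q = ((aeval y Q' : M) : Ω) := by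
    intro y
    have h1 : ((aeval y Q' : M) : Ω) = aeval (y : Ω) Q' := by
      change M.val (aeval y Q') = aeval (M.val y) Q'
      rw [aeval_algHom_apply]
    rw [h1, aeval_def, aeval_def, eval₂_map]
    rfl
  rw [key] at hQ ⊢
  have h2 : aeval (σ e) Q' = σ (aeval e Q') := by
    rw [← AlgEquiv.coe_toAlgHom, aeval_algHom_apply]
  have h3 : aeval e Q' = 0 := Subtype.ext hQ
  rw [h2, h3, map_zero]
  rfl

/-- **Kummer descent.** -/
theorem kummer_descent [IsAlgClosed Ω] (ℓ : ℕ) [Fact ℓ.Prime]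
    (E K B : Subfield Ω) [PerfectField K] (hEK : E ≤ K) (hac : ∀ z ∈ K, IsAlgebraic E z → z ∈ E)
    (hB : ∀ b ∈ B, IsAlgebraic E b) (ζ : Ω) (hζE : ζ ∈ E) (hζ : IsPrimitiveRoot ζ ℓ)
    {h r : Ω} (hh : h ∈ K) (h0 : h ≠ 0) (hr : r ∈ K ⊔ B) (hrl : r ^ ℓ = h) :
    ∃ e ∈ E, ∃ w ∈ K, h = e * w ^ ℓ := by
  classical
  haveI : NeZero ℓ := ⟨(Fact.out : ℓ.Prime).ne_zero⟩
  have hBK : ∀ b ∈ B, IsAlgebraic K b := by
    intro b hb
    obtain ⟨Q, hQ0, hQ⟩ := hB b hb
    refine ⟨Q.map (Subfield.inclusion hEK), ?_, ?_⟩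
    · rw [Ne, Polynomial.map_eq_zero_iff (RingHom.injective _)]; exact hQ0
    · rw [aeval_def, eval₂_map]; exact hQ
  obtain ⟨t, htB, htr⟩ := Submodule.mem_span_finite_of_mem_span (mem_span_of_mem_sup K B hBK hr)
  obtain ⟨M, htM, hfd, hgal, R, hMR, hR⟩ := exists_galois K t (fun b hb => hBK b (htB hb))
  have hr0 : r ≠ 0 := by
    rintro rfl
    rw [zero_pow (NeZero.ne ℓ)] at hrl
    exact h0 hrl.symm
  -- `r` in `M`
  have hrM : r ∈ M := by
    have : Submodule.span K (t : Set Ω) ≤ Subalgebra.toSubmodule M.toSubalgebra := by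
      rw [Submodule.span_le]
      intro b hb
      exact htM b hb
    exact this htr
  set rM : M := ⟨r, hrM⟩ with hrMdef
  have hrM0 : rM ≠ 0 := fun h' => hr0 (congrArg Subtype.val h')
  -- the character
  have hchar : ∀ σ : M ≃ₐ[K] M, ∃ c : E, c ≠ 0 ∧ σ rM = (algebraMap K M (Subfield.inclusion hEK c)) * rM := by
    intro σ
    have h1 : (σ rM / rM) ^ ℓ = 1 := by
      have h2 : rM ^ ℓ = algebraMap K M ⟨h, hh⟩ := Subtype.ext hrl
      rw [div_pow, ← map_pow, h2, AlgEquiv.commutes]
      refine div_self ?_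
      rw [← h2]; exact pow_ne_zero _ hrM0
    have h2 : (((σ rM / rM : M)) : Ω) ^ ℓ = 1 := by
      have := congrArg (fun x : M => (x : Ω)) h1
      simpa using this
    obtain ⟨i, -, hi⟩ := hζ.eq_pow_of_pow_eq_one h2
    refine ⟨⟨ζ ^ i, pow_mem hζE i⟩, ?_, ?_⟩
    · intro h3
      have : ζ ^ i = 0 := congrArg Subtype.val h3
      rw [this] at hi
      rw [← hi, zero_pow (NeZero.ne ℓ)] at h2
      exact zero_ne_one h2
    · apply Subtype.ext
      have h3 : ((σ rM : M) : Ω) = ζ ^ i * r := by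
        rw [hi]
        have : (((σ rM / rM : M)) : Ω) = ((σ rM : M) : Ω) / r := rfl
        rw [this]
        field_simp
      rw [h3]
      rfl
  choose c hc0 hc using hchar
  -- multiplicativity
  have hcmul : ∀ σ τ : M ≃ₐ[K] M, c (τ * σ) = c τ * c σ := by
    intro σ τ
    have h1 := hc (τ * σ)
    rw [AlgEquiv.mul_apply, hc σ, map_mul, AlgEquiv.commutes, hc τ] at h1
    have h2 : algebraMap K M (Subfield.inclusion hEK (c (τ * σ))) =
        algebraMap K M (Subfield.inclusion hEK (c τ * c σ)) := by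
      apply mul_right_cancel₀ hrM0
      rw [← h1, map_mul, map_mul]
      ring
    have h3 := (algebraMap K M).injective h2
    exact (Subfield.inclusion hEK).injective h3
  -- the projection
  let p : M →ₗ[K] M := ∑ σ : M ≃ₐ[K] M, (Subfield.inclusion hEK (c σ))⁻¹ • σ.toLinearMap
  have hp : ∀ y, p y = ∑ σ : M ≃ₐ[K] M, (Subfield.inclusion hEK (c σ))⁻¹ • σ y := by
    intro y
    simp [p, LinearMap.sum_apply]
  have hRalg : ∀ r ∈ R, IsAlgebraic E r := by
    intro r hr
    obtain ⟨b, hbt, hb⟩ := hR r hr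
    obtain ⟨Q, hQ0, hQ⟩ := hB b (htB hbt)
    refine ⟨Q, hQ0, ?_⟩
    have h1 : minpoly K b ∣ Q.map (Subfield.inclusion hEK) := by
      apply minpoly.dvd
      rw [aeval_def, eval₂_map]
      exact hQ
    obtain ⟨Q', hQ'⟩ := h1
    have h2 : aeval r (Q.map (Subfield.inclusion hEK)) = 0 := by
      rw [hQ', map_mul, hb, zero_mul]
    rw [aeval_def, eval₂_map] at h2
    exact h2
  -- find `e`
  have hex : ∃ (b : Ω) (hb : b ∈ M), IsAlgebraic E b ∧ p ⟨b, hb⟩ ≠ 0 := by
    by_contra hcon
    push Not at hcon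
    have h1 : ∀ y : M, p y = 0 := by
      have h2 : ∀ x ∈ Submodule.span K {y : Ω | y ∈ M ∧ IsAlgebraic E y},
          ∃ hxM : x ∈ M, p ⟨x, hxM⟩ = 0 := by
        intro x hx
        induction hx using Submodule.span_induction with
        | mem x hx => exact ⟨hx.1, hcon x hx.1 hx.2⟩
        | zero => exact ⟨M.zero_mem, map_zero p⟩
        | add x y _ _ hx hy =>
          obtain ⟨hxM, hx⟩ := hx
          obtain ⟨hyM, hy⟩ := hy
          refine ⟨M.add_mem hxM hyM, ?_⟩
          have := map_add p ⟨x, hxM⟩ ⟨y, hyM⟩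
          rw [hx, hy, add_zero] at this
          exact this
        | smul a x _ hx =>
          obtain ⟨hxM, hx⟩ := hx
          refine ⟨M.smul_mem hxM, ?_⟩
          have := map_smul p a ⟨x, hxM⟩
          rw [hx, smul_zero] at this
          exact this
      rintro ⟨y, hy⟩
      refine (h2 y ?_).2
      have h3 : ∀ x ∈ R, IsIntegral K x := by
        intro x hx
        obtain ⟨b, hbt, hb⟩ := hR x hx
        exact ⟨minpoly K b, minpoly.monic (hBK b (htB hbt)).isIntegral, hb⟩
      have h4 : y ∈ Algebra.adjoin K R := by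
        have h5 : (adjoin K R).toSubalgebra = Algebra.adjoin K R :=
          adjoin_toSubalgebra_of_isAlgebraic fun x hx => (h3 x hx).isAlgebraic
        rw [← h5, ← hMR]
        exact hy
      have h6 : R ⊆ M := by
        rw [hMR]
        exact subset_adjoin K R
      rw [← Subalgebra.mem_toSubmodule, Algebra.adjoin_eq_span] at h4
      refine Submodule.span_mono ?_ h4
      intro x hx
      refine ⟨?_, ?_⟩
      · induction hx using Submonoid.closure_induction with
        | mem x hx => exact h6 hx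
        | one => exact M.one_mem
        | mul x y _ _ hx hy => exact M.mul_mem hx hy
      · induction hx using Submonoid.closure_induction with
        | mem x hx => exact hRalg x hx
        | one => exact isAlgebraic_one
        | mul x y _ _ hx hy => exact hx.mul hy
    have h2 := (linearIndependent_monoidHom M M).comp
      (fun σ : M ≃ₐ[K] M => ((σ : M →+* M) : M →* M)) (fun σ τ h => AlgEquiv.ext fun x =>
        DFunLike.congr_fun h x)
    rw [Fintype.linearIndependent_iff] at h2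
    have h3 := h2 (fun σ => algebraMap K M (Subfield.inclusion hEK (c σ))⁻¹) (by
      funext y
      have h4 := h1 y
      rw [hp] at h4
      rw [Finset.sum_apply, Pi.zero_apply, ← h4]
      refine Finset.sum_congr rfl (fun σ _ => ?_)
      rw [Algebra.smul_def]
      rfl) 1
    exact inv_ne_zero (fun h5 => hc0 1 ((map_eq_zero _).1 h5)) ((map_eq_zero _).1 h3)
  obtain ⟨b, hbM, hbalg, hb⟩ := hex
  set e₀ : M := ⟨b, hbM⟩ with he₀
  set T : M := p e₀ with hT
  have hTtr : ∀ τ : M ≃ₐ[K] M, τ T = algebraMap K M (Subfield.inclusion hEK (c τ)) * T := by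
    intro τ
    rw [hT, hp, map_sum, Finset.mul_sum]
    refine Fintype.sum_bijective (fun σ => τ * σ) (Group.mulLeft_bijective τ) _ _ (fun σ => ?_)
    rw [hcmul, Algebra.smul_def, Algebra.smul_def, map_mul, AlgEquiv.commutes,
      AlgEquiv.mul_apply, map_mul, mul_inv, map_mul, ← mul_assoc, ← mul_assoc, ← map_mul,
      mul_inv_cancel₀, map_one, one_mul]
    intro h2
    exact hc0 τ ((map_eq_zero _).1 h2)
  -- `r / T` is in `K`
  have hw : ∃ w : K, algebraMap K M w = rM / T := by
    have : rM / T ∈ (⊥ : IntermediateField K M) := by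
      rw [IsGalois.mem_bot_iff_fixed]
      intro τ
      rw [map_div₀, hTtr, hc, mul_div_mul_left]
      intro h2
      exact hc0 τ ((map_eq_zero _).1 ((map_eq_zero _).1 h2))
    exact IntermediateField.mem_bot.1 this
  have hTl : ∃ w : K, algebraMap K M w = T ^ ℓ := by
    have : T ^ ℓ ∈ (⊥ : IntermediateField K M) := by
      rw [IsGalois.mem_bot_iff_fixed]
      intro τ
      have h1 : (algebraMap K M (Subfield.inclusion hEK (c τ))) ^ ℓ = 1 := by
        have h2 : rM ^ ℓ = algebraMap K M ⟨h, hh⟩ := Subtype.ext hrl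
        have h3 : τ (rM ^ ℓ) = rM ^ ℓ := by rw [h2, AlgEquiv.commutes]
        rw [map_pow, hc, mul_pow] at h3
        exact mul_right_cancel₀ (pow_ne_zero ℓ hrM0) (h3.trans (one_mul _).symm)
      rw [map_pow, hTtr, mul_pow, h1, one_mul]
    exact IntermediateField.mem_bot.1 this
  obtain ⟨w, hw⟩ := hw
  obtain ⟨e, he⟩ := hTl
  -- `T` algebraic over `E`
  have hTalg : IsAlgebraic E ((T : M) : Ω) := by
    have h1 : ((T : M) : Ω) = ∑ σ : M ≃ₐ[K] M, (((c σ : E) : Ω))⁻¹ * ((σ e₀ : M) : Ω) := by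
      rw [hT, hp, ← IntermediateField.coe_val, map_sum]
      refine Finset.sum_congr rfl (fun σ _ => ?_)
      rfl
    rw [h1]
    have h2 : ∀ σ ∈ (Finset.univ : Finset (M ≃ₐ[K] M)),
        (((c σ : E) : Ω))⁻¹ * ((σ e₀ : M) : Ω) ∈ integralClosure E Ω := by
      intro σ _
      refine Subalgebra.mul_mem _ ?_ ?_
      · have : (((c σ : E) : Ω))⁻¹ = algebraMap E Ω (c σ)⁻¹ := by simp; rfl
        rw [this]
        exact Subalgebra.algebraMap_mem _ _
      · exact (isAlgebraic_aut hEK σ hbalg).isIntegral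
    have h3 : (∑ σ : M ≃ₐ[K] M, (((c σ : E) : Ω))⁻¹ * ((σ e₀ : M) : Ω)) ∈ integralClosure E Ω :=
      Subalgebra.sum_mem _ h2
    exact IsIntegral.isAlgebraic h3
  refine ⟨(e : Ω), ?_, (w : Ω), w.2, ?_⟩
  · apply hac _ e.2
    have h1 : (e : Ω) = ((T : M) : Ω) ^ ℓ := congrArg (fun x : M => (x : Ω)) he
    rw [h1]
    exact hTalg.pow ℓ
  · have h1 : (e : Ω) = ((T : M) : Ω) ^ ℓ := congrArg (fun x : M => (x : Ω)) he
    have h2 : (w : Ω) = r / ((T : M) : Ω) := congrArg (fun x : M => (x : Ω)) hw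
    have hT0 : ((T : M) : Ω) ≠ 0 := fun h3 => hb (Subtype.ext h3)
    rw [h1, h2, div_pow, hrl]
    field_simp

end kummer

end Vale.Agent.P019P

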