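import Vale.Agent.P019P.Unr
import Vale.Agent.P019P.Kummer
import Vale.Agent.P019P.Prime
import Vale.Agent.P019P.Sp

/-!
# Generic places
-/

namespace Vale.Agent.P019P

open Vale.Agent.P019

set_option linter.style.haveILetI false

open Polynomial

namespace Gn

variable {K : Type*} [Field K]

/-- complement of `a` in `k` over `N`. -/
theorem exists_compl {N k : Subfield K} (hk : RAC k) (hNk : N ≤ k) (hN : RAC N) {a : K}
    (haN : a ∉ N) :
    ∃ k₁ : Subfield K, N ≤ k₁ ∧ k₁ ≤ k ∧ RAC k₁ ∧ a ∉ k₁ ∧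
      ∀ b ∈ k, IsAlgebraic (adj k₁ a) b := by
  obtain ⟨k₁, h1, h2, h3, h4, h5⟩ := Vale.Agent.P019.Gn.exists_compl hk hNk hN haN
  exact ⟨k₁, h1, h2, h3, h4, fun b hb => isAlgebraic_adj.2 (h5 b hb)⟩

variable {Ω : Type*} [Field Ω] {P : Pl K Ω}

/-- triviality on `E(a)` if `t` is transcendental over `E`. -/
theorem mem_and_ev [PerfectField K] [Algebra K Ω] {E : Subfield K} {a t : K}
    (hA : ∀ x ∈ E, x ∈ P.O ∧ P.ev x = algebraMap K Ω x) (ha : a ∈ P.O)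
    (hat : P.ev a = algebraMap K Ω t) (ht : ¬ IsAlgebraic E t) {z : K} (hz : z ∈ adj E a) :
    z ∈ P.O ∧ P.ev z ∈ (adj E t).map (algebraMap K Ω) := by
  obtain ⟨n, hn⟩ := mem_adj_iff.1 hz
  obtain ⟨h1, h2⟩ := Vale.Agent.P019.Gn.mem_and_ev hA ha hat ht hn
  have hzO : z ∈ P.O := by
    rw [← P.O.valuation_le_one_iff] at h1 ⊢
    rw [map_pow] at h1
    exact (pow_le_one_iff (qpow_pos K n).ne').1 h1
  refine ⟨hzO, ?_⟩
  rw [P.ev_pow hzO] at h2
  apply mem_of_pow_qK P (m := n)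
  obtain ⟨w, hw, hw'⟩ := h2
  exact ⟨w, adj0_le_adj E t hw, hw'⟩

end Gn

namespace Mdl

variable {K : Type*} [Field K] [PerfectField K] (M : Mdl K) (ℓ : ℕ) [Fact ℓ.Prime]
  [NeZero (ℓ : K)]

/-- S41 generic places. -/
theorem exists_gen {N : Subfield K} (hN : M.Sub N) {a t : K} (ha : a ∈ M.k) (haN : a ∉ N)
    (ht : t ∈ M.F N) (htN : t ∉ N) :
    ∃ O : ValuationSubring K, IsUnif O (t - a) ∧ (∀ z ∈ M.F N, z ≠ 0 → O.valuation z = 1) ∧
      (∀ c ∈ M.k, c ≠ 0 → O.valuation c = 1) ∧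
      (∀ x ∈ M.F N, x ≠ 0 → cl ℓ x ∈ U1 ℓ O → cl ℓ x ∈ VS ℓ (rac (adj M.k t))) := by
  classical
  obtain ⟨k₁, hNk₁, hk₁k, hrac, hak₁, halg⟩ := Gn.exists_compl M.RAC_k hN.le hN.rac haN
  set A : Subfield K := M.F k₁ with hAdef
  have hk0 : M.k0 ≤ k₁ := hN.ge.trans hNk₁
  have haA : ¬ IsAlgebraic A a := fun h => hak₁ (M.free k₁ hrac hk0 hk₁k a ha h)
  have hFA : M.F N ≤ A := Mdl.F_mono hNk₁
  have htA : t ∈ A := hFA ht
  have htk : t ∉ M.k := fun h => htN (M.free N hN.rac hN.ge hN.le t h (isAlgebraic_of_mem ht))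
  have htalg : ¬ IsAlgebraic k₁ t := fun h => htk (M.RAC_k t (isAlgebraic_mono hk₁k h))
  let Ω := AlgebraicClosure K
  obtain ⟨P, hPA, haO, hat⟩ := Gn.exists_pl (Ω := Ω) haA t
  have hk₁A : k₁ ≤ A := le_sup_right
  have hPk₁ : ∀ x ∈ k₁, x ∈ P.O ∧ P.ev x = algebraMap K Ω x := fun x hx => hPA x (hk₁A hx)
  have hE : ∀ x ∈ adj k₁ a, x ∈ P.O ∧ P.ev x ∈ (adj k₁ t).map (algebraMap K Ω) :=
    fun x hx => Gn.mem_and_ev hPk₁ haO hat htalg hx
  haveI := M.instPerfectk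
  have hEk : adj k₁ a ≤ M.k := adj_le hk₁k ha
  have hPk : ∀ x ∈ M.k, x ∈ P.O := fun x hx =>
    P.mem_of_isAlgebraic (adj k₁ a) (fun y hy => (hE y hy).1) (halg x hx)
  -- the image of the constants
  let ρ : M.k →+* Ω := P.ψ.comp (Subring.inclusion (S := M.k.toSubring) (T := P.O.toSubring) hPk)
  have hρ : ∀ x : M.k, ρ x = P.ev x := fun x => (P.ev_of_mem (hPk x x.2)).symm
  let B : Subfield Ω := ρ.fieldRange
  let A' : Subfield Ω := A.map (algebraMap K Ω)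
  let κ : Subfield Ω := A' ⊔ B
  have hκA : ∀ x ∈ A, algebraMap K Ω x ∈ κ := fun x hx =>
    (le_sup_left : A' ≤ κ) ⟨x, hx, rfl⟩
  have hκB : ∀ x ∈ M.k, P.ev x ∈ κ := fun x hx =>
    (le_sup_right : B ≤ κ) ⟨⟨x, hx⟩, hρ ⟨x, hx⟩⟩
  have hπ : t - a ≠ 0 := by
    rw [sub_ne_zero]
    rintro rfl
    exact htk ha
  have htO := hPA t htA
  have hπO : t - a ∈ P.O := sub_mem htO.1 haO
  have hπ0 : P.ev (t - a) = 0 := by
    rw [P.ev_sub htO.1 haO, htO.2, hat, sub_self]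
  have hπF : t - a ∈ Vale.Agent.P019.adj A a :=
    Subfield.sub_mem _ (Vale.Agent.P019.le_adj A a htA) (Vale.Agent.P019.mem_adj A a)
  have hGd0 : Vale.Agent.P019.Gd P (t - a) κ (Vale.Agent.P019.adj A a) :=
    Gn.gd_adj hPA haO hat htA hπ κ hκA
  haveI : PerfectField k₁ := perfect_of_RAC hrac
  haveI : PerfectField A := inferInstanceAs (PerfectField (M.F k₁))
  haveI : PerfectField B := inferInstanceAs (PerfectField ρ.fieldRange)
  haveI : PerfectField A' := inferInstanceAs (PerfectField (A.map (algebraMap K Ω)))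
  haveI : PerfectField κ := inferInstanceAs (PerfectField (A' ⊔ B : Subfield Ω))
  have hGd : Gd P (t - a) κ ⊤ := by
    have h1 : (⊤ : Subfield K) ≤ adj A a ⊔ M.k := by
      rw [← M.sup]
      exact sup_le_sup_right (le_trans le_sup_left (le_adj A a)) _
    refine Gd.mono h1 ?_
    exact Gd.sup (E := Vale.Agent.P019.adj k₁ a) hπ hπO hπ0 hπF hGd0
      (Vale.Agent.P019.adj_mono hk₁A a) (Vale.Agent.P019.adj_le hk₁k ha) hPk hκB
      (fun x hx => isAlgebraic_adj.1 (halg x hx))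
  have hUA : ∀ x ∈ A, x ≠ 0 → P.U x := fun x hx hx0 =>
    Gn.U_of_field (fun y hy => (hPA y hy).1) hx hx0
  refine ⟨P.O, ⟨hπ, ?_, ?_⟩, ?_, ?_, ?_⟩
  · exact (P.ev_eq_zero_iff hπO).1 hπ0
  · intro z hz0
    obtain ⟨m, n, hn, -⟩ := hGd z trivial hz0
    exact ⟨m, n, P.U_iff.1 hn⟩
  · intro z hz hz0
    exact P.U_iff.1 (hUA z (hFA hz) hz0)
  · intro c hc hc0
    exact P.U_iff.1 (Gn.U_of_field hPk hc hc0)
  · rintro x hx hx0 ⟨m, hm, hxm⟩
    have hℓ : ℓ ≠ 0 := (Fact.out : ℓ.Prime).ne_zero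
    have hxA := hFA hx
    have hxU := hUA x hxA hx0
    obtain ⟨y, hy0, hy⟩ := (cl_eq_iff ℓ hx0 (one_add_ne_zero hm)).1 hxm
    have hmU : P.U (1 + m) := P.U_iff.2 (val_one_add hm)
    have hyl : P.U (y ^ ℓ) := by
      have : y ^ ℓ = x / (1 + m) := by
        rw [hy]
        have := hmU.ne_zero
        field_simp
      rw [this]
      exact hxU.div hmU
    have hyU : P.U y := by
      rw [P.U_iff] at hyl ⊢
      rw [map_pow] at hyl
      exact (pow_eq_one_iff.1 hyl).resolve_right hℓ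
    have hev : P.ev y ^ ℓ = algebraMap K Ω x := by
      rw [← (hPA x hxA).2, ← P.ev_pow hyU.1]
      conv_rhs => rw [hy]
      rw [P.ev_mul hmU.1 hyl.1, P.ev_add P.O.one_mem (P.mem_of_lt hm), P.ev_one,
        P.ev_of_lt hm, add_zero, one_mul]
    have hevy : P.ev y ∈ κ := Gd.ev_mem hπO hπ0 hGd (z := y) trivial hyU.1
    -- Kummer descent
    let E₀ : Subfield K := rac (adj k₁ t) ⊓ A
    have hk₁E₀ : k₁ ≤ E₀ := le_inf ((le_adj k₁ t).trans (le_rac _)) hk₁A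
    obtain ⟨ζ, hζk, hζ⟩ := finK_prim M.ack0 ℓ
    have hζ' : IsPrimitiveRoot (algebraMap K Ω (ζ : K)) ℓ :=
      hζ.map_of_injective (algebraMap K Ω).injective
    have hac : ∀ z ∈ A', IsAlgebraic (E₀.map (algebraMap K Ω)) z →
        z ∈ E₀.map (algebraMap K Ω) := by
      rintro _ ⟨z, hz, rfl⟩ halgz
      have h1 := Gn.isAlgebraic_of_map halgz
      have h2 : IsAlgebraic (rac (adj k₁ t)) z := isAlgebraic_mono inf_le_left h1
      exact ⟨z, ⟨RAC_rac _ z h2, hz⟩, rfl⟩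
    have hB : ∀ b ∈ B, IsAlgebraic (E₀.map (algebraMap K Ω)) b := by
      rintro _ ⟨c, rfl⟩
      rw [hρ]
      have h1 := P.isAlgebraic_ev (adj k₁ a) ((adj k₁ t).map (algebraMap K Ω))
        (fun x hx _ => (hE x hx).2) (halg c c.2) (hPk c c.2)
      refine isAlgebraic_mono ?_ h1
      rintro _ ⟨z, hz, rfl⟩
      refine ⟨z, ⟨le_rac _ hz, ?_⟩, rfl⟩
      exact adj_le hk₁A htA hz
    obtain ⟨e, ⟨e', he', rfl⟩, w, ⟨w', hw', rfl⟩, hew⟩ :=
      kummer_descent ℓ (E₀.map (algebraMap K Ω)) A' B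
        (by rintro _ ⟨z, hz, rfl⟩; exact ⟨z, hz.2, rfl⟩) hac hB _
        ⟨ζ, hk₁E₀ (hk0 hζk), rfl⟩ hζ' (h := algebraMap K Ω x) ⟨x, hxA, rfl⟩
        (by rw [Ne, map_eq_zero]; exact hx0) hevy hev
    have hx' : x = e' * w' ^ ℓ := by
      apply (algebraMap K Ω).injective
      rw [map_mul, map_pow]
      exact hew
    rw [cl_ne_zero_mem_VS hx0]
    refine ⟨e', rac_mono (adj_mono hk₁k t) he'.1, ?_, w', ?_, hx'⟩
    · rintro rfl
      rw [zero_mul] at hx'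
      exact hx0 hx'
    · rintro rfl
      rw [zero_pow hℓ, mul_zero] at hx'
      exact hx0 hx'

end Mdl

end Vale.Agent.P019P
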