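import Vale.Agent.P019.Asm1
import Vale.Agent.P019P.Prime
import Vale.Agent.P019P.FinK
import Vale.Agent.P019P.Line
import Vale.Agent.P019P.Bert
import Vale.Agent.P019P.Sp
import Vale.Agent.P019P.Gen
import Vale.Agent.P019P.ClPair

/-!
# Assembly 1: maximality, the transferred valuations and their triviality
-/

namespace Vale.Agent.P019P

open Vale.Agent.P019

set_option linter.style.haveILetI false

open Polynomial

section consts

variable {K : Type*} [Field K]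

/-- all nonconstant elements of an algebraic closure of a line generate it. -/
theorem line_swap {k : Subfield K} (hk : RAC k) {x p q : K} (hp : IsAlgebraic (adj k x) p)
    (hpk : p ∉ k) (hq : IsAlgebraic (adj k x) q) : IsAlgebraic (adj k p) q :=
  isAlgebraic_adj.2 (Vale.Agent.P019.line_swap hk (isAlgebraic_adj.1 hp) hpk
    (isAlgebraic_adj.1 hq))

end consts

namespace Mdl

variable {K : Type*} [Field K] [PerfectField K] (M : Mdl K)

theorem fg_top : FG M.k (⊤ : Subfield K) := by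
  have := M.fg_F M.sub_k
  rwa [M.F_k] at this

/-- for every `p` some element of `K0` is not algebraic over `k(p)`. -/
theorem exists_indep (p : K) : ∃ g ∈ M.K0, ¬ IsAlgebraic (adj M.k p) g := by
  by_contra hcon
  push Not at hcon
  exact M.hyx (line_swap M.RAC_k (hcon _ M.hx) M.hxk (hcon _ M.hy))

/-- an infinite sequence of constants in a given valuation ring. -/
theorem exists_seq (w : ValuationSubring K) : ∃ e : ℕ → K, Function.Injective e ∧
    (∀ n, e n ∈ M.k0) ∧ (∀ n, w.valuation (e n) ≤ 1) ∧ ∀ n, e n ≠ 0 := by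
  haveI := M.ack0
  haveI : Infinite M.k0 := IsAlgClosed.instInfinite
  have hinf : {c : M.k0 | w.valuation (c : K) ≤ 1 ∧ c ≠ 0}.Infinite := by
    intro hfin
    have h1 : (Set.univ : Set M.k0) ⊆ {c : M.k0 | w.valuation (c : K) ≤ 1 ∧ c ≠ 0} ∪
        ((fun c => c⁻¹) '' {c : M.k0 | w.valuation (c : K) ≤ 1 ∧ c ≠ 0}) ∪ {0} := by
      intro c _
      by_cases hc0 : c = 0
      · exact Or.inr hc0
      · left
        rcases le_or_gt (w.valuation (c : K)) 1 with h | h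
        · exact Or.inl ⟨h, hc0⟩
        · refine Or.inr ⟨c⁻¹, ⟨?_, inv_ne_zero hc0⟩, inv_inv c⟩
          have e : ((c⁻¹ : M.k0) : K) = (c : K)⁻¹ := rfl
          rw [e, map_inv₀]
          exact (inv_lt_one_of_one_lt₀ h).le
    exact Set.infinite_univ (((hfin.union (hfin.image _)).union (Set.finite_singleton _)).subset h1)
  let f := hinf.natEmbedding
  refine ⟨fun n => ((f n).1 : K), ?_, fun n => (f n).1.2, fun n => (f n).2.1, fun n h => ?_⟩
  · intro n m h
    exact f.injective (Subtype.ext (Subtype.ext h))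
  · exact (f n).2.2 (Subtype.ext h)

variable (ℓ : ℕ) [Fact ℓ.Prime] [NeZero (ℓ : K)]

/-- MAX. -/
theorem max {N : Subfield K} (hN : M.Sub N) {a t : K} (ha : a ∈ M.k) (haN : a ∉ N)
    (ht : t ∈ M.F N) (hg : Good M.k t) {u : V ℓ K} (hu : u ∈ VS ℓ (M.F N))
    (h : Orth u (cl ℓ (t - a))) : u ∈ VS ℓ (adj M.k t) := by
  have hℓ : 0 < ℓ := (Fact.out : ℓ.Prime).pos
  have htN : t ∉ N := fun h' => hg.1 (hN.le h')
  obtain ⟨O, hU, hF, -, hA2⟩ := M.exists_gen ℓ hN ha haN ht htN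
  obtain ⟨x, hx, hx0, rfl⟩ := hu
  have h1 := tame_orth (exists_neg_one M.ack hℓ) O (hU.fn ℓ) (fun z hz => hU.fn_unit ℓ z hz) h
  rw [hU.fn_self ℓ, hU.fn_unit ℓ x (hF x hx hx0), one_smul, zero_smul, sub_zero] at h1
  exact VS_mono (hg.2.le le_rfl) (hA2 x hx hx0 h1)

/-- there is a good element of `K0` which is not algebraic over `k(t)`. -/
theorem exists_good (t : K) : ∃ x ∈ M.K0, Good M.k x ∧ ¬ IsAlgebraic (adj M.k t) x := by
  have hfin := bertini M.ack M.fg_top M.hxk M.hyx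
  obtain ⟨e, hei, hek, -, -⟩ := M.exists_seq (⊤ : ValuationSubring K)
  have hinf : (Set.range e).Infinite := Set.infinite_range_of_injective hei
  have h2 : ∀ c d : K, c ∈ M.k → d ∈ M.k → c ≠ d → IsAlgebraic (adj M.k t) (M.x + c * M.y) →
      IsAlgebraic (adj M.k t) (M.x + d * M.y) → False := by
    intro c d hc hd hcd h1 h2
    rw [← mem_rac] at h1 h2
    have hc' : c ∈ rac (adj M.k t) := le_rac _ (le_adj _ _ hc)
    have hd' : d ∈ rac (adj M.k t) := le_rac _ (le_adj _ _ hd)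
    have hcd' : c - d ≠ 0 := sub_ne_zero.2 hcd
    have hy : M.y ∈ rac (adj M.k t) := by
      have e : M.y = ((M.x + c * M.y) - (M.x + d * M.y)) / (c - d) := by
        field_simp; ring
      rw [e]
      exact (rac (adj M.k t)).div_mem (Subfield.sub_mem _ h1 h2) (Subfield.sub_mem _ hc' hd')
    have hx : M.x ∈ rac (adj M.k t) := by
      have e : M.x = (M.x + c * M.y) - c * M.y := by ring
      rw [e]
      exact Subfield.sub_mem _ h1 (Subfield.mul_mem _ hc' hy)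
    exact M.hyx (line_swap M.RAC_k (mem_rac.1 hx) M.hxk (mem_rac.1 hy))
  obtain ⟨S, hS⟩ : ∃ S : Set K, S.Finite ∧ ∀ c ∈ M.k, c ∉ S →
      Good M.k (M.x + c * M.y) ∧ ¬ IsAlgebraic (adj M.k t) (M.x + c * M.y) := by
    refine ⟨{c | c ∈ M.k ∧ ¬ Good M.k (M.x + c * M.y)} ∪
      {c | c ∈ M.k ∧ IsAlgebraic (adj M.k t) (M.x + c * M.y)}, hfin.union ?_, ?_⟩
    · refine Set.Subsingleton.finite ?_
      intro c hc d hd
      by_contra hcd
      exact h2 c d hc.1 hd.1 hcd hc.2 hd.2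
    · intro c hc hcS
      simp only [Set.mem_union, Set.mem_ofPred_eq, not_or, not_and, not_not] at hcS
      exact ⟨hcS.1 hc, hcS.2 hc⟩
  obtain ⟨_, ⟨n, rfl⟩, hn⟩ := hinf.exists_notMem_finite hS.1
  have h3 := hS.2 (e n) (M.le_k (hek n)) hn
  exact ⟨M.x + e n * M.y, M.K0.add_mem M.hx (M.K0.mul_mem (M.le_K0 (hek n)) M.hy), h3.1, h3.2⟩

/-- there is an element `g` with `[g], [1 - g]` independent modulo the line of `t`. -/
theorem exists_g0 (t : K) :
    ∃ g ∈ M.K0, ∀ i j : ZMod ℓ, i • cl ℓ g + j • cl ℓ (1 - g) ∈ VS ℓ (adj M.k t) →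
      i = 0 ∧ j = 0 := by
  classical
  have hℓ : 0 < ℓ := (Fact.out : ℓ.Prime).pos
  obtain ⟨x, hx, hgx, hxt⟩ := M.exists_good t
  have hW := int_top ℓ (E₁ := adj M.k t) (E₂ := adj M.k x) M.ack M.fg_top (le_adj _ _)
    (le_adj _ _) (mem_adj _ _) hxt (fun z hz => isAlgebraic_of_mem hz)
  by_contra hcon
  push Not at hcon
  have key : ∀ c : M.k0, ∃ ij : ZMod ℓ × ZMod ℓ, ij ≠ 0 ∧
      ij.1 • cl ℓ (x - (c : K)) + ij.2 • cl ℓ (x - ((c : K) + 1)) ∈ VS ℓ (adj M.k t) := by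
    intro c
    have hg : x - (c : K) ∈ M.K0 := M.K0.sub_mem hx (M.le_K0 c.2)
    obtain ⟨i, j, hij, hij'⟩ := hcon _ hg
    refine ⟨(i, j), ?_, ?_⟩
    · intro h
      have := Prod.mk_eq_zero.1 h
      exact hij' this.1 this.2
    · have e : (1 : K) - (x - (c : K)) = -(x - ((c : K) + 1)) := by ring
      rw [e, cl_neg ℓ (exists_neg_one M.ack hℓ)] at hij
      exact hij
  choose ij hij0 hij using key
  haveI : Finite ((VS ℓ (adj M.k t) ⊓ VS ℓ (adj M.k x) : Submodule (ZMod ℓ) (V ℓ K)) : Set (V ℓ K)) :=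
    hW
  have hmem : ∀ c ∈ M.k, cl ℓ (x - c) ∈ VS ℓ (adj M.k x) := fun c hc =>
    cl_mem_VS (Subfield.sub_mem _ (mem_adj _ _) (le_adj _ _ hc))
  have hck : ∀ c : M.k0, (c : K) ∈ M.k := fun c => M.le_k c.2
  have hck1 : ∀ c : M.k0, (c : K) + 1 ∈ M.k := fun c => M.k.add_mem (hck c) M.k.one_mem
  let φ : M.k0 → (ZMod ℓ × ZMod ℓ) ×
      ((VS ℓ (adj M.k t) ⊓ VS ℓ (adj M.k x) : Submodule (ZMod ℓ) (V ℓ K)) : Set (V ℓ K)) :=
    fun c => (ij c, ⟨_, hij c, Submodule.add_mem _ (Submodule.smul_mem _ _ (hmem _ (hck c)))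
      (Submodule.smul_mem _ _ (hmem _ (hck1 c)))⟩)
  haveI : NeZero ℓ := ⟨hℓ.ne'⟩
  haveI := M.ack0
  haveI : Infinite M.k0 := IsAlgClosed.instInfinite
  obtain ⟨y, hy⟩ := Finite.exists_infinite_fiber φ
  have hyinf : (φ ⁻¹' {y}).Infinite := Set.infinite_coe_iff.1 hy
  obtain ⟨n, hn⟩ := hyinf.nonempty
  obtain ⟨m, hm, hmS⟩ := hyinf.exists_notMem_finite
    (Set.toFinite ({n, n + 1, n - 1} : Set M.k0))
  simp only [Set.mem_insert_iff, Set.mem_singleton_iff, not_or] at hmS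
  obtain ⟨hmn, hmn1, hmn2⟩ := hmS
  have he : φ n = φ m := by
    rw [Set.mem_preimage, Set.mem_singleton_iff] at hn hm
    rw [hn, hm]
  have h1 : ij n = ij m := congrArg Prod.fst he
  have h2 : (ij n).1 • cl ℓ (x - (n : K)) + (ij n).2 • cl ℓ (x - ((n : K) + 1)) =
      (ij m).1 • cl ℓ (x - (m : K)) + (ij m).2 • cl ℓ (x - ((m : K) + 1)) :=
    congrArg Subtype.val (congrArg Prod.snd he)
  have h01 : (n : K) ≠ (n : K) + 1 := fun h => by
    have : (1 : K) = 0 := by linear_combination -h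
    exact one_ne_zero this
  have h02 : (n : K) ≠ (m : K) := fun h => hmn (Subtype.ext h).symm
  have h03 : (n : K) ≠ (m : K) + 1 := fun h => hmn2 (Subtype.ext (by
    change (m : K) = (n : K) - 1
    rw [h]; ring))
  have h12 : (n : K) + 1 ≠ (m : K) := fun h => hmn1 (Subtype.ext h).symm
  have h13 : (n : K) + 1 ≠ (m : K) + 1 := fun h => h02 (add_right_cancel h)
  have h23 : (m : K) ≠ (m : K) + 1 := fun h => by
    have : (1 : K) = 0 := by linear_combination -h
    exact one_ne_zero this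
  let ν : K → ZMod ℓ := fun c => if c = (n : K) then (ij n).1 else
    if c = (n : K) + 1 then (ij n).2 else
    if c = (m : K) then -(ij m).1 else -(ij m).2
  have h3 := good_independent M.ack hgx
    {(n : K), (n : K) + 1, (m : K), (m : K) + 1} (by
      intro c hc
      simp only [Finset.mem_insert, Finset.mem_singleton] at hc
      rcases hc with rfl | rfl | rfl | rfl
      · exact hck n
      · exact hck1 n
      · exact hck m
      · exact hck1 m) ν (by
      rw [Finset.sum_insert (by simp only [Finset.mem_insert, Finset.mem_singleton, not_or]; exact ⟨h01, h02, h03⟩),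
        Finset.sum_insert (by simp only [Finset.mem_insert, Finset.mem_singleton, not_or]; exact ⟨h12, h13⟩),
        Finset.sum_insert (by simp only [Finset.mem_singleton]; exact h23),
        Finset.sum_singleton]
      have e0 : ν (n : K) = (ij n).1 := if_pos rfl
      have e1 : ν ((n : K) + 1) = (ij n).2 := by
        simp only [ν, if_neg h01.symm, if_true]
      have e2 : ν (m : K) = -(ij m).1 := by
        simp only [ν, if_neg h02.symm, if_neg h12.symm, if_true]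
      have e3 : ν ((m : K) + 1) = -(ij m).2 := by
        simp only [ν, if_neg h03.symm, if_neg h13.symm, if_neg h23.symm]
      rw [e0, e1, e2, e3, neg_smul, neg_smul, ← add_assoc, h2]
      abel)
  have h4 := h3 (n : K) (by simp)
  have h5 := h3 ((n : K) + 1) (by simp)
  have e0 : ν (n : K) = (ij n).1 := if_pos rfl
  have e1 : ν ((n : K) + 1) = (ij n).2 := by
    simp only [ν, if_neg h01.symm, if_true]
  rw [e0] at h4
  rw [e1] at h5
  exact hij0 n (Prod.ext h4 h5)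

end Mdl

section WD

variable {K L : Type*} [Field K] [Field L] [PerfectField K] [PerfectField L] {ℓ : ℕ} [Fact ℓ.Prime]
  [NeZero (ℓ : K)] [NeZero (ℓ : L)]

/-- the transferred valuation attached to `t` and the constant `a`. -/
structure WD (M : Mdl K) (Θ : V ℓ K ≃ₗ[ZMod ℓ] V ℓ L) (N : Subfield K) (t a : K) where
  f : V ℓ K →ₗ[ZMod ℓ] ZMod ℓ
  w : ValuationSubring L
  f_ta : f (cl ℓ (t - a)) = 1
  f_N : ∀ z ∈ M.F N, f (cl ℓ z) = 0
  f_b : ∀ b ∈ M.k, b ≠ a → f (cl ℓ (t - b)) = 0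
  w1 : ∀ z, w.valuation z = 1 → f (Θ.symm (cl ℓ z)) = 0
  w2 : ∀ z, w.valuation z < 1 → Θ.symm (cl ℓ (1 + z)) ∈ VS ℓ (M.F N) →
    Θ.symm (cl ℓ (1 + z)) ∈ VS ℓ (adj M.k t)

theorem exists_WD (M : Mdl K) (M' : Mdl L) {Θ : V ℓ K ≃ₗ[ZMod ℓ] V ℓ L} (hΘ : Compatible Θ)
    {N : Subfield K} (hN : M.Sub N) {t a : K} (ht : t ∈ M.F N) (hg : Good M.k t) (ha : a ∈ M.k)
    (haN : a ∉ N) : Nonempty (WD M Θ N t a) := by
  have hℓ : 0 < ℓ := (Fact.out : ℓ.Prime).pos
  have htN : t ∉ N := fun h' => hg.1 (hN.le h')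
  obtain ⟨O, hU, hF, hk, hA2⟩ := M.exists_gen ℓ hN ha haN ht htN
  have hneg := exists_neg_one M.ack hℓ
  obtain ⟨g, hgK, hg0⟩ := M.exists_g0 ℓ t
  have hgF : g ∈ M.F N := Mdl.K0_le N hgK
  have hH := H_le_U1 hneg O (hU.fn ℓ) (fun z hz => hU.fn_unit ℓ z hz)
  have hA3 : ∀ u ∈ VS ℓ (M.F N), u ∈ U1 ℓ O → u ∈ VS ℓ (adj M.k t) := by
    rintro _ ⟨x, hx, hx0, rfl⟩ h1
    exact VS_mono (hg.2.le le_rfl) (hA2 x hx hx0 h1)
  obtain ⟨w, hw1, hw2⟩ := exists_transfer hΘ (exists_neg_one M'.ack hℓ) (hU.fn ℓ) g (by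
    intro i j hij
    refine hg0 i j (hA3 _ ?_ (hH hij))
    exact Submodule.add_mem _ (Submodule.smul_mem _ _ (cl_mem_VS hgF))
      (Submodule.smul_mem _ _ (cl_mem_VS ((M.F N).sub_mem (M.F N).one_mem hgF))))
  refine ⟨⟨hU.fn ℓ, w, hU.fn_self ℓ, ?_, ?_, hw1, ?_⟩⟩
  · intro z hz
    by_cases hz0 : z = 0
    · rw [hz0, cl_zero, map_zero]
    · exact hU.fn_unit ℓ z (hF z hz hz0)
  · intro b hb hba
    apply hU.fn_unit ℓ
    have h1 : O.valuation (a - b) = 1 := hk _ (M.k.sub_mem ha hb) (sub_ne_zero.2 hba.symm)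
    have e : t - b = (a - b) + (t - a) := by ring
    rw [e, Valuation.map_add_eq_of_lt_left, h1]
    rw [h1]; exact hU.lt
  · intro z hz hzV
    exact hA3 _ hzV (hH (hw2 z hz))

variable {M : Mdl K} {M' : Mdl L} {Θ : V ℓ K ≃ₗ[ZMod ℓ] V ℓ L} {N : Subfield K} {N' : Subfield L}
  {t a : K}

/-- elements of the maximal ideal of `w` generically independent. -/
theorem exists_small (M' : Mdl L) (w : ValuationSubring L) {N' : Subfield L} {z : L}
    (hz : z ∈ M'.F N') (hz0 : z ≠ 0) (hw : w.valuation z < 1) (p : L) :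
    ∃ q ∈ M'.F N', w.valuation q < 1 ∧ ¬ IsAlgebraic (adj M'.k p) q := by
  by_cases h : IsAlgebraic (adj M'.k p) z
  · obtain ⟨g, hg, hgp⟩ := M'.exists_indep p
    have hgF : g ∈ M'.F N' := Mdl.K0_le N' hg
    have hg0 : g ≠ 0 := by
      rintro rfl
      exact hgp (isAlgebraic_of_mem (Subfield.zero_mem _))
    rw [← mem_rac] at h
    rcases le_or_gt (w.valuation g) 1 with h1 | h1
    · refine ⟨z * g, (M'.F N').mul_mem hz hgF, ?_, ?_⟩
      · rw [map_mul]
        exact mul_lt_one_of_lt_of_le hw h1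
      · intro h2
        apply hgp
        rw [← mem_rac] at h2 ⊢
        have e : g = (z * g) / z := by field_simp
        rw [e]
        exact Subfield.div_mem _ h2 h
    · refine ⟨z / g, (M'.F N').div_mem hz hgF, ?_, ?_⟩
      · rw [map_div₀]
        exact (div_lt_one₀ (lt_trans zero_lt_one h1)).2 (lt_trans hw h1)
      · intro h2
        apply hgp
        rw [← mem_rac] at h2 ⊢
        have e : g = z / (z / g) := by field_simp
        rw [e]
        exact Subfield.div_mem _ h h2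
  · exact ⟨z, hz, hw, h⟩

/-- S2. the transferred valuation is trivial on the model. -/
theorem WD.trivial (hΘ : Compatible Θ) (hCP : CP M M' Θ N N') (W : WD M Θ N t a)
    (ht : t ∉ M.k) : ∀ z ∈ M'.F N', z ≠ 0 → W.w.valuation z = 1 := by
  classical
  have hℓ : 0 < ℓ := (Fact.out : ℓ.Prime).pos
  -- enough: no element of the model in the maximal ideal
  suffices H : ∀ z ∈ M'.F N', z ≠ 0 → ¬ W.w.valuation z < 1 by
    intro z hz hz0
    apply le_antisymm
    · by_contra hcon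
      push Not at hcon
      refine H z⁻¹ ((M'.F N').inv_mem hz) (inv_ne_zero hz0) ?_
      rw [map_inv₀]
      exact inv_lt_one_of_one_lt₀ hcon
    · exact not_lt.1 (H z hz hz0)
  intro z hz hz0 hzw
  -- two independent elements
  obtain ⟨q₁, hq₁, hwq₁, hq₁k⟩ := exists_small M' W.w hz hz0 hzw 0
  have hq₁k' : q₁ ∉ M'.k := fun h => hq₁k (isAlgebraic_of_mem (le_adj _ _ h))
  obtain ⟨q₂, hq₂, hwq₂, hq₂k⟩ := exists_small M' W.w hz hz0 hzw q₁
  have hfin := bertini M'.ack M'.fg_top hq₁k' hq₂k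
  obtain ⟨ε, hεi, hε0, hεv, hεne⟩ := M'.exists_seq W.w
  have hεN : ∀ n, ε n ∈ N' := fun n => hCP.sub'.ge (hε0 n)
  have hεk : ∀ n, ε n ∈ M'.k := fun n => M'.le_k (hε0 n)
  have hgoodnat : ∀ S : Set L, S.Finite → ∃ n : ℕ, ε n ∉ S ∧
      Good M'.k (q₁ + ε n * q₂) := by
    intro S hS
    have hinf : (Set.range ε).Infinite := Set.infinite_range_of_injective hεi
    obtain ⟨_, ⟨n, rfl⟩, hn⟩ := hinf.exists_notMem_finite (hfin.union hS)
    simp only [Set.mem_union, Set.mem_ofPred_eq, not_or, not_and, not_not] at hn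
    exact ⟨n, hn.2, hn.1 (hεk n)⟩
  obtain ⟨n, -, hxg⟩ := hgoodnat ∅ Set.finite_empty
  obtain ⟨m, hmn, hx'g⟩ := hgoodnat {ε n} (Set.finite_singleton _)
  set x : L := q₁ + ε n * q₂ with hx
  set x' : L := q₁ + ε m * q₂ with hx'
  have hmem : ∀ n : ℕ, q₁ + ε n * q₂ ∈ M'.F N' := fun n =>
    Subfield.add_mem _ hq₁ (Subfield.mul_mem _ (Mdl.Sub.le_F (M := M') _ (hεN n)) hq₂)
  have hval : ∀ n : ℕ, W.w.valuation (q₁ + ε n * q₂) < 1 := fun n => by
    refine Valuation.map_add_lt _ hwq₁ ?_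
    rw [map_mul]
    exact mul_lt_one_of_nonneg_of_lt_one_right (hεv _) zero_le hwq₂
  have hxx' : ¬ IsAlgebraic (adj M'.k x) x' := by
    intro h1
    rw [← mem_rac] at h1
    have hxr : x ∈ rac (adj M'.k x) := le_rac _ (mem_adj _ _)
    have hmn' : ε m - ε n ≠ 0 := sub_ne_zero.2 (fun h => hmn (by simpa using h))
    have h2 : q₂ ∈ rac (adj M'.k x) := by
      have e : q₂ = (x' - x) / (ε m - ε n) := by
        rw [hx, hx']; field_simp; ring
      rw [e]
      exact Subfield.div_mem _ (Subfield.sub_mem _ h1 hxr)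
        (Subfield.sub_mem _ (le_rac _ (le_adj _ _ (hεk m))) (le_rac _ (le_adj _ _ (hεk n))))
    have h3 : q₁ ∈ rac (adj M'.k x) := by
      have e : q₁ = x - ε n * q₂ := by rw [hx]; ring
      rw [e]
      exact Subfield.sub_mem _ hxr (Subfield.mul_mem _ (le_rac _ (le_adj _ _ (hεk n))) h2)
    exact hq₂k (line_swap M'.RAC_k (mem_rac.1 h3) hq₁k' (mem_rac.1 h2))
  -- smaller field of constants
  obtain ⟨N₀, hN₀, hN₀N, hN₀ne, hS⟩ := hCP.inf' {x, x'} (by
    intro s hs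
    simp only [Finset.mem_insert, Finset.mem_singleton] at hs
    rcases hs with rfl | rfl
    · exact hmem n
    · exact hmem m)
  have hx0 : x ∈ M'.F N₀ := hS x (by simp)
  have hx'0 : x' ∈ M'.F N₀ := hS x' (by simp)
  obtain ⟨c, hcN, hcN₀, hcw⟩ : ∃ c ∈ N', c ∉ N₀ ∧ W.w.valuation c ≤ 1 := by
    obtain ⟨c, hc, hc'⟩ : ∃ c ∈ N', c ∉ N₀ := by
      by_contra hcon
      push Not at hcon
      exact hN₀ne (le_antisymm hN₀N hcon)
    rcases le_or_gt (W.w.valuation c) 1 with h1 | h1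
    · exact ⟨c, hc, hc', h1⟩
    · refine ⟨c⁻¹, N'.inv_mem hc, fun h => hc' ?_, ?_⟩
      · have := N₀.inv_mem h
        rwa [inv_inv] at this
      · rw [map_inv₀]
        exact (inv_lt_one_of_one_lt₀ h1).le
  have hc0 : c ≠ 0 := fun h => hcN₀ (h ▸ N₀.zero_mem)
  have hck : c ∈ M'.k := hCP.sub'.le hcN
  -- classes
  have hcls : ∀ y ∈ M'.F N', W.w.valuation y < 1 →
      Θ.symm (cl ℓ (1 + y)) ∈ VS ℓ (adj M.k t) := by
    intro y hy hyw
    refine W.w2 y hyw ?_
    rw [hCP.map, LinearEquiv.apply_symm_apply]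
    exact cl_mem_VS (Subfield.add_mem _ (Subfield.one_mem _) hy)
  have hxF : x ∈ M'.F N' := hmem n
  have hx'F : x' ∈ M'.F N' := hmem m
  have horth : ∀ j : ℕ, Orth (cl ℓ (1 + ε j * x')) (cl ℓ (1 + c * x)) := by
    intro j
    have h1 := hcls (ε j * x') (Subfield.mul_mem _ (Mdl.Sub.le_F (M := M') _ (hεN j)) hx'F) (by
      rw [map_mul]
      exact mul_lt_one_of_nonneg_of_lt_one_right (hεv _) zero_le (hval m))
    have h2 := hcls (c * x) (Subfield.mul_mem _ (Mdl.Sub.le_F (M := M') _ hcN) hxF) (by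
      rw [map_mul]
      exact mul_lt_one_of_nonneg_of_lt_one_right hcw zero_le (hval n))
    have h3 := adj_isotropic M.ack ht _ h1 _ h2
    have h4 := hΘ.orth h3
    rwa [LinearEquiv.apply_symm_apply, LinearEquiv.apply_symm_apply] at h4
  have hcx : cl ℓ (1 + c * x) = cl ℓ (x - (-c⁻¹)) := by
    have hxc : x - (-c⁻¹) ≠ 0 := by
      intro h
      apply hxg.1
      rw [sub_eq_zero] at h
      rw [h]
      exact M'.k.neg_mem (M'.k.inv_mem hck)
    have e : 1 + c * x = c * (x - (-c⁻¹)) := by field_simp; ring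
    rw [e, cl_mul ℓ hc0 hxc, cl_const M'.ack hℓ hck, zero_add]
  have hj : ∀ j : ℕ, cl ℓ (1 + ε j * x') ∈ VS ℓ (adj M'.k x) := by
    intro j
    have h1 := horth j
    rw [hcx] at h1
    refine M'.max ℓ hN₀ (M'.k.neg_mem (M'.k.inv_mem hck)) ?_ hx0 hxg
      (cl_mem_VS (Subfield.add_mem _ (Subfield.one_mem _)
        (Subfield.mul_mem _ (Mdl.Sub.le_F (M := M') _ (hN₀.ge (hε0 j))) hx'0))) h1
    intro h
    apply hcN₀
    have h2 := N₀.inv_mem (N₀.neg_mem h)
    rwa [neg_neg, inv_inv] at h2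
  -- finiteness
  have hW := int_top ℓ (E₁ := adj M'.k x) (E₂ := adj M'.k x') M'.ack M'.fg_top (le_adj _ _)
    (le_adj _ _) (mem_adj _ _) hxx' (fun z hz => isAlgebraic_of_mem hz)
  have hfin2 : (⋃ v ∈ ((VS ℓ (adj M'.k x) ⊓ VS ℓ (adj M'.k x') : Submodule (ZMod ℓ) (V ℓ L)) :
      Set (V ℓ L)), {c : L | c ∈ M'.k ∧ cl ℓ (x' - c) = v}).Finite :=
    hW.biUnion (fun v _ => dist_top ℓ M'.ack M'.fg_top hx'g.1 v)
  have hinf2 : (Set.range (fun j : ℕ => (-(ε j)⁻¹))).Infinite := by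
    refine Set.infinite_range_of_injective ?_
    intro i j hij
    exact hεi (inv_injective (neg_injective hij))
  refine hinf2 (hfin2.subset ?_)
  rintro _ ⟨j, rfl⟩
  have hj1 := hεne j
  have hjk := hεk j
  have hjk' : -(ε j)⁻¹ ∈ M'.k := M'.k.neg_mem (M'.k.inv_mem hjk)
  have e1 : cl ℓ (1 + ε j * x') = cl ℓ (x' - (-(ε j)⁻¹)) := by
    have hxc : x' - (-(ε j)⁻¹) ≠ 0 := by
      intro h
      apply hx'g.1
      rw [sub_eq_zero] at h
      rw [h]
      exact hjk'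
    have e : 1 + ε j * x' = ε j * (x' - (-(ε j)⁻¹)) := by
      field_simp; ring
    rw [e, cl_mul ℓ hj1 hxc, cl_const M'.ack hℓ hjk, zero_add]
  simp only [Set.mem_iUnion]
  refine ⟨cl ℓ (x' - (-(ε j)⁻¹)), ⟨?_, ?_⟩, hjk', rfl⟩
  · rw [← e1]; exact hj j
  · exact cl_mem_VS (Subfield.sub_mem _ (mem_adj _ _) (le_adj _ _ hjk'))

end WD

end Vale.Agent.P019P
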