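import Vale.Agent.P019.Aut
import Vale.Agent.P019P.Sp

/-!
# Automorphisms
-/

namespace Vale.Agent.P019P

open Vale.Agent.P019

set_option linter.style.haveILetI false

open Polynomial

namespace Mdl

variable {K : Type*} [Field K] [PerfectField K] (M : Mdl K)

/-- S51 automorphisms. -/
theorem exists_aut {N : Subfield K} (hN : M.Sub N) {r : ℕ} (y y' : Fin r → K)
    (hy : ∀ i, y i ∈ M.k) (hy' : ∀ i, y' i ∈ M.k) (hyi : AlgebraicIndependent N y)
    (hyi' : AlgebraicIndependent N y') :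
    ∃ σ : K ≃+* K, (∀ z ∈ M.F N, σ z = z) ∧ (∀ i, σ (y i) = y' i) ∧
      (∀ z, z ∈ M.k ↔ σ z ∈ M.k) := by
  letI : Algebra N M.k := (Subfield.inclusion hN.le).toAlgebra
  haveI : IsAlgClosed M.k := M.ack
  let g : M.k →ₐ[N] K := { M.k.subtype with commutes' := fun _ => rfl }
  have hg : Function.Injective g := Subtype.val_injective
  have h1 : AlgebraicIndependent N (fun i => (⟨y i, hy i⟩ : M.k)) := by
    rw [← AlgHom.algebraicIndependent_iff g hg]
    exact hyi
  have h1' : AlgebraicIndependent N (fun i => (⟨y' i, hy' i⟩ : M.k)) := by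
    rw [← AlgHom.algebraicIndependent_iff g hg]
    exact hyi'
  obtain ⟨τ, hτ⟩ := AutAux.exists_algEquiv_closed _ _ h1 h1'
  have htop : M.F N ⊔ M.k = ⊤ := by
    apply top_le_iff.1
    rw [← M.sup]
    exact sup_le_sup_right (K0_le N) _
  obtain ⟨σ, hσ1, hσ2⟩ := AutAux.exists_extension N (M.F N) M.k (Sub.le_F N) hN.le
    (fun n g hg hli c hc h => M.lin_disj hN g hg hli c hc h) htop τ.toRingEquiv (by
      intro c hc
      exact τ.commutes (⟨c, hc⟩ : N))
  refine ⟨σ, hσ1, ?_, ?_⟩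
  · intro i
    have h2 := hσ2 ⟨y i, hy i⟩
    have h3 : τ.toRingEquiv ⟨y i, hy i⟩ = ⟨y' i, hy' i⟩ := hτ i
    rw [h3] at h2
    exact h2
  · intro z
    constructor
    · intro hz
      rw [hσ2 ⟨z, hz⟩]
      exact (τ.toRingEquiv _).2
    · intro hz
      have h2 := hσ2 (τ.toRingEquiv.symm ⟨σ z, hz⟩)
      rw [RingEquiv.apply_symm_apply] at h2
      have h3 : ((τ.toRingEquiv.symm ⟨σ z, hz⟩ : M.k) : K) = z := σ.injective h2
      rw [← h3]
      exact (τ.toRingEquiv.symm ⟨σ z, hz⟩).2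

end Mdl

end Vale.Agent.P019P

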