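import Vale.Agent.P019.Indep
import Vale.Agent.P019P.PlCore

/-!
# Finite families of constants, closures, independence
-/

namespace Vale.Agent.P019P

open Vale.Agent.P019

set_option linter.style.haveILetI false

open Polynomial

section indep

variable {L : Type*} [Field L]

/-- S95 -/
theorem clx_snoc {r : ℕ} (N : Subfield L) (y : Fin r → L) (z : L) :
    clx N (Fin.snoc y z : Fin (r + 1) → L) = rac (adj (clx N y) z) := by
  rw [rac_adj]
  exact Vale.Agent.P019.clx_snoc N y z

/-- S96 -/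
theorem Mdl.exists_family (M : Mdl L) {N : Subfield L} (hN : M.Sub N) (g : L) :
    ∃ (r : ℕ) (y : Fin r → L), (∀ i, y i ∈ M.k) ∧ g ∈ M.F (clx N y) := by
  classical
  obtain ⟨T, hT, hg⟩ := exists_finset_mem M.K0 M.k (g := g) (by rw [M.sup]; trivial)
  refine ⟨T.card, fun i => (T.equivFin.symm i : L), fun i => hT (T.equivFin.symm i).2, ?_⟩
  refine (sup_le_sup_left ?_ M.K0 :
    M.K0 ⊔ Subfield.closure (T : Set L) ≤ M.F (clx N _)) hg
  rw [Subfield.closure_le]
  intro z hz
  have h1 := mem_clx N (fun i => (T.equivFin.symm i : L)) (T.equivFin ⟨z, hz⟩)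
  simpa using h1

/-- S97 -/
theorem Mdl.map_clx (M : Mdl L) {N : Subfield L} (σ : L ≃+* L) (hσ : ∀ z ∈ M.F N, σ z = z)
    {ι : Type*} (y : ι → L) {g : L} (hg : g ∈ M.F (clx N y)) : σ g ∈ M.F (clx N (σ ∘ y)) := by
  have h1 : M.F (clx N y) ≤ (M.F (clx N (σ ∘ y))).comap (σ : L →+* L) := by
    refine sup_le ?_ ?_
    · intro z hz
      change σ z ∈ M.F (clx N (σ ∘ y))
      rw [hσ z (K0_le N hz)]
      exact K0_le _ hz
    · have h2 : N ⊔ Subfield.closure (Set.range y) ≤
          (N ⊔ Subfield.closure (Set.range (σ ∘ y))).comap (σ : L →+* L) := by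
        refine sup_le ?_ ?_
        · intro z hz
          change σ z ∈ N ⊔ Subfield.closure (Set.range (σ ∘ y))
          rw [hσ z (Sub.le_F N hz)]
          exact (le_sup_left : N ≤ _) hz
        · rw [Subfield.closure_le]
          rintro _ ⟨i, rfl⟩
          exact (le_sup_right : _ ≤ N ⊔ _) (Subfield.subset_closure ⟨i, rfl⟩)
      intro z hz
      change σ z ∈ M.F _
      refine Sub.le_F (M := M) _ (mem_rac.2 ?_)
      exact Vale.Agent.P019.isAlgebraic_map σ h2 (mem_rac.1 hz)
  exact h1 hg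

end indep

end Vale.Agent.P019P

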