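import Vale.Agent.P019.Asm2
import Vale.Agent.P019P.Asm1
import Vale.Agent.P019.Vmap
import Vale.Agent.P019P.Indep
import Vale.Agent.P019P.Aut

/-!
# Assembly 2: the pigeonhole argument
-/

namespace Vale.Agent.P019P

open Vale.Agent.P019

set_option linter.style.haveILetI false

open Polynomial

section pigeon

variable {K L : Type*} [Field K] [Field L] [PerfectField K] [PerfectField L] {ℓ : ℕ} [Fact ℓ.Prime]
  [NeZero (ℓ : K)] [NeZero (ℓ : L)]

/-- classes of elements defined over `N` and `r` further constants. -/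
def Dset (M' : Mdl L) (ℓ : ℕ) (N : Subfield L) (r : ℕ) : Set (V ℓ L) :=
  {u | ∃ y : Fin r → L, (∀ i, y i ∈ M'.k) ∧ u ∈ VS ℓ (M'.F (clx N y))}

theorem exists_mem_Dset (M' : Mdl L) {N : Subfield L} (hN : M'.Sub N) (u : V ℓ L) :
    ∃ r, u ∈ Dset M' ℓ N r := by
  obtain ⟨g, -, rfl⟩ := cl_surj ℓ u
  obtain ⟨r, y, hy, hg⟩ := M'.exists_family hN g
  exact ⟨r, y, hy, cl_mem_VS hg⟩

theorem clx_le' (M' : Mdl L) {ι : Type*} {N N' : Subfield L} (h : N ≤ N') (hN' : RAC N')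
    {y : ι → L} (hy : ∀ i, y i ∈ N') : clx N y ≤ N' := by
  refine hN'.le (sup_le h (Subfield.closure_le.2 ?_))
  rintro _ ⟨i, rfl⟩
  exact hy i

theorem clx_mono {ι : Type*} {N N' : Subfield L} (h : N ≤ N') (y : ι → L) :
    clx N y ≤ clx N' y := rac_mono (sup_le_sup_right h _)

theorem Mdl.sub_clx (M' : Mdl L) {ι : Type*} {N : Subfield L} (hN : M'.Sub N) {y : ι → L}
    (hy : ∀ i, y i ∈ M'.k) : M'.Sub (clx N y) := by
  refine Mdl.sub_rac (hN.ge.trans le_sup_left) (sup_le hN.le (Subfield.closure_le.2 ?_))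
  rintro _ ⟨i, rfl⟩
  exact hy i

/-- the set of constants whose image is defined with `r` further constants. -/
def Sset (M : Mdl K) (M' : Mdl L) (Θ : V ℓ K ≃ₗ[ZMod ℓ] V ℓ L) (t : K) (N' : Subfield L)
    (r : ℕ) : Set K := {a | a ∈ M.k ∧ Θ (cl ℓ (t - a)) ∈ Dset M' ℓ N' r}

/-- independence of the parameters from minimality. -/
theorem indep_of_notMem {M' : Mdl L} {N : Subfield L} {r : ℕ} {u : V ℓ L}
    {y : Fin (r + 1) → L} (hy : ∀ i, y i ∈ M'.k) (hu : u ∈ VS ℓ (M'.F (clx N y)))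
    (hn : u ∉ Dset M' ℓ N r) : AlgebraicIndependent N y := by
  by_contra hcon
  obtain ⟨i, hi⟩ := exists_dep y hcon
  exact hn ⟨y ∘ i.succAbove, fun j => hy _, by rw [← hi]; exact hu⟩

theorem pigeon_main {M : Mdl K} {M' : Mdl L} {Θ : V ℓ K ≃ₗ[ZMod ℓ] V ℓ L} (hΘ : Compatible Θ)
    (hk : ¬ (M.k : Set K).Countable) (hl : ¬ (M'.k : Set L).Countable) {t : K}
    (hg : Good M.k t) :
    ∃ (A : Set K) (B : Set L), A.Countable ∧ B.Countable ∧ ∀ N N', CP M M' Θ N N' →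
      (∀ a ∈ A, a ∈ M.F N) → (∀ b ∈ B, b ∈ M'.F N') →
      ∃ z ∈ M'.k, z ∉ N' ∧ ∃ G ∈ M'.F (rac (adj N' z)), Θ.symm (cl ℓ G) ∈ VS ℓ (adj M.k t) ∧
        cl ℓ G ∉ VS ℓ (M'.F N') := by
  classical
  -- the minimal number of parameters
  have hex : ∃ r : ℕ, ∃ N N', CP M M' Θ N N' ∧ t ∈ M.F N ∧ ¬ (Sset M M' Θ t N' r).Countable := by
    obtain ⟨N, N', hCP, hA, -⟩ := exists_CP M M' Θ hk hl {t} (Set.countable_singleton t) ∅
      Set.countable_empty
    by_contra hcon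
    push Not at hcon
    have h1 : (M.k : Set K) ⊆ ⋃ r, Sset M M' Θ t N' r := by
      intro a ha
      obtain ⟨r, hr⟩ := exists_mem_Dset M' hCP.sub' (Θ (cl ℓ (t - a)))
      exact Set.mem_iUnion.2 ⟨r, ha, hr⟩
    exact hk ((Set.countable_iUnion (fun r => hcon r N N' hCP (hA t rfl))).mono h1)
  obtain ⟨N₁, N₁', hCP₁, ht₁, hS₁⟩ := Nat.find_spec hex
  have hmin : ∀ r < Nat.find hex, ∀ N N', CP M M' Θ N N' → t ∈ M.F N →
      (Sset M M' Θ t N' r).Countable := by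
    intro r hr N N' h1 h2
    by_contra h3
    exact Nat.find_min hex hr ⟨N, N', h1, h2, h3⟩
  generalize Nat.find hex = r at hS₁ hmin
  obtain _ | r := r
  · exfalso
    apply hS₁
    refine hCP₁.ctb.mono ?_
    rintro a ⟨hak, y, -, hu⟩
    have e : clx N₁' y = N₁' := by
      refine le_antisymm (clx_le' M' le_rfl hCP₁.sub'.rac (fun i => i.elim0)) (le_clx _ _)
    rw [e, ← hCP₁.map] at hu
    by_contra haN
    obtain ⟨W⟩ := exists_WD M M' hΘ hCP₁.sub ht₁ hg hak haN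
    obtain ⟨x, hx, -, hx'⟩ := hu
    have h1 := W.f_ta
    rw [hx', W.f_N x hx] at h1
    exact zero_ne_one h1
  have hmin' := hmin r (Nat.lt_succ_self r)
  have hpick : ∀ (N₃ : Subfield K) (N₃' : Subfield L), CP M M' Θ N₃ N₃' → t ∈ M.F N₃ →
      ∃ a ∈ Sset M M' Θ t N₁' (r + 1), a ∉ Sset M M' Θ t N₃' r ∧ a ∉ N₃ := by
    intro N₃ N₃' h3 ht3
    by_contra hcon
    push Not at hcon
    apply hS₁
    refine ((hmin' N₃ N₃' h3 ht3).union h3.ctb).mono ?_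
    intro a ha
    by_cases h : a ∈ Sset M M' Θ t N₃' r
    · exact Or.inl h
    · exact Or.inr (hcon a ha h)
  -- the base point
  obtain ⟨b, ⟨hbk, y, hy, hyu⟩, hbS, -⟩ := hpick N₁ N₁' hCP₁ ht₁
  have hbD : Θ (cl ℓ (t - b)) ∉ Dset M' ℓ N₁' r := fun h => hbS ⟨hbk, h⟩
  have hyind : AlgebraicIndependent N₁' y := indep_of_notMem hy hyu hbD
  obtain ⟨Gb, hGb, hGb0, hGbu⟩ := hyu
  let y' : Fin r → L := fun i => y i.castSucc
  have hy'ind : AlgebraicIndependent N₁' y' :=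
    hyind.comp Fin.castSucc (Fin.castSucc_injective r)
  refine ⟨N₁ ∪ {t}, N₁' ∪ Set.range y', hCP₁.ctb.union (Set.countable_singleton t),
    hCP₁.ctb'.union (Set.countable_range _), ?_⟩
  intro N₂ N₂' hCP₂ hA hB
  have h12' : N₁' ≤ N₂' := fun z hz =>
    M'.mem_of_mem_F hCP₂.sub' (hCP₁.sub'.le hz) (hB z (Or.inl hz))
  have hy'2 : ∀ i, y' i ∈ N₂' := fun i =>
    M'.mem_of_mem_F hCP₂.sub' (hy _) (hB _ (Or.inr ⟨i, rfl⟩))
  -- the new constant
  obtain ⟨z, hzk, hz2⟩ : ∃ z ∈ M'.k, z ∉ N₂' := by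
    by_contra hcon
    push Not at hcon
    exact hl (hCP₂.ctb'.mono hcon)
  obtain ⟨N₃, N₃', hCP₃, hA3, hB3⟩ := exists_CP M M' Θ hk hl (N₂ ∪ {t, b})
    (hCP₂.ctb.union (Set.toFinite {t, b}).countable) (N₂' ∪ (Set.range y ∪ {z}))
    (hCP₂.ctb'.union ((Set.countable_range _).union (Set.countable_singleton z)))
  have h23' : N₂' ≤ N₃' := fun x hx =>
    M'.mem_of_mem_F hCP₃.sub' (hCP₂.sub'.le hx) (hB3 x (Or.inl hx))
  have hy3 : ∀ i, y i ∈ N₃' := fun i =>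
    M'.mem_of_mem_F hCP₃.sub' (hy i) (hB3 _ (Or.inr (Or.inl ⟨i, rfl⟩)))
  have hz3 : z ∈ N₃' := M'.mem_of_mem_F hCP₃.sub' hzk (hB3 _ (Or.inr (Or.inr rfl)))
  have ht3 : t ∈ M.F N₃ := hA3 t (Or.inr (Or.inl rfl))
  obtain ⟨a, ⟨hak, ya, hya, hyau⟩, haS, haN⟩ := hpick N₃ N₃' hCP₃ ht3
  have h13' : N₁' ≤ N₃' := h12'.trans h23'
  have haD : Θ (cl ℓ (t - a)) ∉ Dset M' ℓ N₃' r := fun h => haS ⟨hak, h⟩
  have hyaind : AlgebraicIndependent N₃' ya :=
    indep_of_notMem hya (VS_mono (Mdl.F_mono (clx_mono h13' ya)) hyau) haD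
  obtain ⟨Ga, hGa, hGa0, hGau⟩ := hyau
  -- the field over which the automorphism is defined
  set C := clx N₁' ya with hC
  have hCsub : M'.Sub C := M'.sub_clx hCP₁.sub' hya
  have hCy : AlgebraicIndependent C y := indep_swap h13' hy3 hyind hyaind
  have hzy' : z ∉ clx N₁' y' := fun h => hz2 (clx_le' M' h12' hCP₂.sub'.rac hy'2 h)
  let y'' : Fin (r + 1) → L := Fin.snoc y' z
  have hy''0 : ∀ i, y'' i ∈ M'.k ∧ y'' i ∈ N₃' := by
    intro i
    refine Fin.lastCases ?_ (fun j => ?_) i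
    · simp only [y'', Fin.snoc_last]; exact ⟨hzk, hz3⟩
    · simp only [y'', Fin.snoc_castSucc]; exact ⟨hy _, hy3 _⟩
  have hCy'' : AlgebraicIndependent C y'' :=
    indep_swap h13' (fun i => (hy''0 i).2) (indep_snoc hy'ind hzy') hyaind
  obtain ⟨σ, hσF, hσy, hσk⟩ := M'.exists_aut hCsub y y'' hy (fun i => (hy''0 i).1) hCy hCy''
  have hσF₁ : ∀ x ∈ M'.F N₁', σ x = x := fun x hx => hσF x (Mdl.F_mono (le_clx _ _) hx)
  have hσcomp : σ ∘ y = y'' := funext hσy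
  have hG1 : σ Gb ∈ M'.F (clx N₁' y'') := by
    have := M'.map_clx σ hσF₁ y hGb
    rwa [hσcomp] at this
  have hG2 : σ Gb ∈ M'.F (rac (adj N₂' z)) := by
    refine Mdl.F_mono ?_ hG1
    rw [clx_snoc]
    exact rac_mono (adj_mono (clx_le' M' h12' hCP₂.sub'.rac hy'2) z)
  refine ⟨z, hzk, hz2, σ Gb, hG2, ?_, ?_⟩
  · -- orthogonality and maximality
    have h1 : Orth (Θ (cl ℓ (t - b))) (Θ (cl ℓ (t - a))) := by
      refine hΘ.orth (adj_isotropic M.ack hg.1 _ ?_ _ ?_)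
      · exact cl_mem_VS (Subfield.sub_mem _ (mem_adj _ _) (le_adj _ _ hbk))
      · exact cl_mem_VS (Subfield.sub_mem _ (mem_adj _ _) (le_adj _ _ hak))
    rw [hGbu, hGau] at h1
    have h2 := h1.map_cl (σ : L →+* L)
    have h3 : σ Ga = Ga := hσF _ hGa
    have h4 : Orth (cl ℓ (σ Gb)) (cl ℓ Ga) := by
      rw [← h3]; exact h2
    rw [← hGau] at h4
    have h5 := hΘ.symm.orth h4
    rw [LinearEquiv.symm_apply_apply] at h5
    refine M.max ℓ hCP₃.sub hak haN ht3 hg ?_ h5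
    rw [hCP₃.map, LinearEquiv.apply_symm_apply]
    refine cl_mem_VS (Mdl.F_mono ?_ hG2)
    haveI := hCP₃.sub'.perfect
    exact hCP₃.sub'.rac.le (adj_le h23' hz3)
  · -- the class is not defined over the smaller field
    intro h1
    have hNy' : M'.Sub (clx N₁' y') := M'.sub_clx hCP₁.sub' (fun i => hy _)
    have h2 : cl ℓ (σ Gb) ∈ VS ℓ (M'.F (clx N₁' y')) := by
      refine M'.VS_inter ℓ hNy' hCP₂.sub' (clx_le' M' h12' hCP₂.sub'.rac hy'2) hzk hz2 h1 ?_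
      rw [← clx_snoc]
      exact cl_mem_VS hG1
    obtain ⟨g, hg', hg0, hgu⟩ := h2
    have h3 : Vmap ℓ (σ.symm : L →+* L) (cl ℓ (σ Gb)) = cl ℓ (σ.symm g) := by
      rw [hgu, Vmap_cl]; rfl
    rw [Vmap_cl] at h3
    have h4 : (σ.symm : L →+* L) (σ Gb) = Gb := σ.symm_apply_apply Gb
    rw [h4] at h3
    apply hbD
    refine ⟨σ.symm ∘ y', ?_, ?_⟩
    · intro i
      have : σ.symm (y' i) = y i.castSucc := by
        rw [RingEquiv.symm_apply_eq, hσy]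
        simp only [y'', Fin.snoc_castSucc]
      rw [Function.comp_apply, this]
      exact hy _
    · rw [hGbu, h3]
      refine cl_mem_VS (M'.map_clx σ.symm ?_ y' hg')
      intro x hx
      rw [RingEquiv.symm_apply_eq, hσF₁ x hx]

end pigeon

end Vale.Agent.P019P
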