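import Vale.Agent.P019.Im
import Vale.Agent.P019P.Gen

/-!
# Images of subfields under places
-/

namespace Vale.Agent.P019P

open Vale.Agent.P019

set_option linter.style.haveILetI false

open Polynomial

section im

variable {K Ω : Type*} [Field K] [Field Ω] (P : Pl K Ω)

/-- the valuation ring is closed under `q`-power roots. -/
theorem Pl.mem_of_pow {P : Pl K Ω} {z : K} {n : ℕ} (h : z ^ ringExpChar K ^ n ∈ P.O) :
    z ∈ P.O := by
  rw [← P.O.valuation_le_one_iff] at h ⊢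
  rw [map_pow] at h
  exact (pow_le_one_iff (qpow_pos K n).ne').1 h

theorem Pl.ringExpChar_eq (E : Subfield K) (hE : ∀ x ∈ E, x ∈ P.O) :
    ringExpChar K = ringExpChar Ω :=
  (ringExpChar_eq_of_hom (E.subtype)).symm.trans (ringExpChar_eq_of_hom (P.resHom E hE))

instance perfect_im (A : Subfield K) [PerfectField A] (hA : ∀ x ∈ A, x ∈ P.O) :
    PerfectField (P.im A hA) :=
  inferInstanceAs (PerfectField (P.resHom A hA).fieldRange)

/-- R2. -/
theorem Pl.mem_adj_of_transcendental (E : Subfield K) (hE : ∀ x ∈ E, x ∈ P.O) {b : K}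
    (hb : b ∈ P.O) (hbt : ¬ IsAlgebraic (P.im E hE) (P.ev b)) : ∀ x ∈ adj E b, x ∈ P.O := by
  intro x hx
  obtain ⟨n, hn⟩ := mem_adj_iff.1 hx
  exact Pl.mem_of_pow (Vale.Agent.P019.Pl.mem_adj_of_transcendental P E hE hb hbt _ hn)

theorem Pl.im_pf [PerfectField K] {A : Subfield K} (hA : ∀ x ∈ pf A, x ∈ P.O) :
    P.im (pf A) hA = pf (P.im A (fun x hx => hA x (le_pf A hx))) := by
  have hq := Pl.ringExpChar_eq P _ hA
  apply le_antisymm
  · intro w hw
    obtain ⟨x, hx, rfl⟩ := P.mem_im.1 hw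
    obtain ⟨n, hn⟩ := mem_pf.1 hx
    refine mem_pf.2 ⟨n, ?_⟩
    rw [← hq, ← P.ev_pow (hA x hx)]
    exact P.ev_mem_im _ hn
  · intro w hw
    obtain ⟨n, hn⟩ := mem_pf.1 hw
    obtain ⟨x, hx, hxw⟩ := P.mem_im.1 hn
    obtain ⟨y, hy, hyx⟩ := exists_root_q (pf A) (le_pf A hx) n
    refine P.mem_im.2 ⟨y, hy, ?_⟩
    apply pow_q_injective n
    change P.ev y ^ _ = w ^ _
    rw [← hxw, ← hyx, P.ev_pow (hA y hy), hq]

/-- R7b. -/
theorem Pl.im_adj [PerfectField K] {A E : Subfield K} [PerfectField A] (hA : ∀ x ∈ A, x ∈ P.O)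
    (hEA : E ≤ A) {y : K} (hy : y ∈ A) :
    P.im (adj E y) (fun x hx => hA x (adj_le hEA hy hx)) =
      adj (P.im E (fun x hx => hA x (hEA hx))) (P.ev y) := by
  have h1 := Pl.im_pf P (A := Vale.Agent.P019.adj E y) (fun x hx => hA x (adj_le hEA hy hx))
  have h2 := Vale.Agent.P019.Pl.im_adj P hA hEA hy
  unfold adj
  rw [← h2]
  exact h1

/-- R6. -/
theorem Pl.im_eq_rac {l B : Subfield K} (hB : ∀ x ∈ B, x ∈ P.O) (hBac : IsAlgClosed B)
    (hlB : l ≤ B) {z : K} (hz : z ∈ B) (halg : ∀ b ∈ B, IsAlgebraic (adj l z) b) :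
    P.im B hB = rac (adj (P.im l (fun x hx => hB x (hlB hx))) (P.ev z)) := by
  rw [rac_adj]
  exact Vale.Agent.P019.Pl.im_eq_rac P hB hBac hlB hz (fun b hb => isAlgebraic_adj.1 (halg b hb))

/-- R8b. -/
theorem Pl.fg_im [PerfectField K] {A E : Subfield K} (hA : ∀ x ∈ A, x ∈ P.O) (hEA : E ≤ A)
    (h : FG E A) :
    FG (P.im E (fun x hx => hA x (hEA hx))) (P.im A hA) := by
  classical
  obtain ⟨S, hS⟩ := h
  subst hS
  have h1 : Vale.Agent.P019.FG E (E ⊔ Subfield.closure (S : Set K)) := ⟨S, rfl⟩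
  obtain ⟨T, hT⟩ := Vale.Agent.P019.Pl.fg_im P (A := E ⊔ Subfield.closure (S : Set K))
    (fun x hx => hA x (le_pf _ hx)) le_sup_left h1
  refine ⟨T, ?_⟩
  rw [Pl.im_pf P hA, hT]

end im

end Vale.Agent.P019P
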