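import Vale.Agent.P019.Asm3
import Vale.Agent.P019P.Asm2
import Vale.Agent.P019P.Im
import Vale.Agent.P019P.Tame
import Vale.Agent.P019P.Gal

/-!
# Assembly 3: the local field attached to a closed pair
-/

namespace Vale.Agent.P019P

open Vale.Agent.P019

set_option linter.style.haveILetI false

open Polynomial

section localfield

variable {K L : Type*} [Field K] [Field L] [PerfectField K] [PerfectField L] {ℓ : ℕ} [Fact ℓ.Prime]
  [NeZero (ℓ : K)] [NeZero (ℓ : L)]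

/-- multiplication by a constant does not change the class. -/
theorem cl_const_mul {k : Subfield L} (hk : IsAlgClosed k) {c g : L} (hc : c ∈ k) (hc0 : c ≠ 0)
    (hg : g ≠ 0) : cl ℓ (c * g) = cl ℓ g := by
  rw [cl_mul ℓ hc0 hg, cl_const hk (Fact.out : ℓ.Prime).pos hc, zero_add]

/-- the special constant `a`. -/
theorem exists_special {M : Mdl K} {M' : Mdl L} {Θ : V ℓ K ≃ₗ[ZMod ℓ] V ℓ L}
    {N : Subfield K} {N' : Subfield L} (hCP : CP M M' Θ N N') {t : K} (ht : t ∈ M.F N)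
    (htk : t ∉ M.k) {g : V ℓ K} (hg : g ∈ VS ℓ (adj M.k t)) (hgN : g ∉ VS ℓ (M.F N)) :
    ∃ a ∈ M.k, a ∉ N ∧ ∀ W : WD M Θ N t a, W.f g ≠ 0 := by
  classical
  obtain ⟨s, n, hs, rfl⟩ := adj_factor M.ack htk hg
  obtain ⟨a, ha, haN, hna⟩ : ∃ a ∈ s, a ∉ N ∧ n a ≠ 0 := by
    by_contra hcon
    push Not at hcon
    apply hgN
    refine Submodule.sum_mem _ (fun c hc => ?_)
    by_cases hcN : c ∈ N
    · exact Submodule.smul_mem _ _ (cl_mem_VS (Subfield.sub_mem _ ht (Mdl.Sub.le_F N hcN)))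
    · rw [hcon c hc hcN, zero_smul]; exact Submodule.zero_mem _
  refine ⟨a, hs a ha, haN, fun W => ?_⟩
  have h1 : W.f (∑ c ∈ s, n c • cl ℓ (t - c)) = n a := by
    rw [map_sum, Finset.sum_eq_single a]
    · rw [map_smul, W.f_ta, smul_eq_mul, mul_one]
    · intro b hb hba
      rw [map_smul, W.f_b b (hs b hb) hba, smul_zero]
    · intro h; exact absurd ha h
  rw [h1]
  exact hna

variable {M : Mdl K} {M' : Mdl L} {Θ : V ℓ K ≃ₗ[ZMod ℓ] V ℓ L} {N : Subfield K} {N' : Subfield L}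

/-- the transferred valuation is trivial on the new constants. -/
theorem WD.trivial_const {t a : K} (W : WD M Θ N t a)
    (hCP : CP M M' Θ N N') (hWt : ∀ z ∈ M'.F N', z ≠ 0 → W.w.valuation z = 1) {z G : L}
    (hz : z ∈ M'.k) (hzN : z ∉ N')
    (hG : G ∈ M'.F (rac (adj N' z))) (hG0 : G ≠ 0) (hf : W.f (Θ.symm (cl ℓ G)) ≠ 0) :
    ∀ c ∈ rac (adj N' z), c ∈ W.w := by
  set P := plOf W.w with hP
  have hPO : P.O = W.w := rfl
  have hA : ∀ x ∈ M'.F N', x ∈ P.O := by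
    intro x hx
    by_cases hx0 : x = 0
    · rw [hx0]; exact P.O.zero_mem
    · rw [hPO]; exact (W.w.valuation_le_one_iff x).1 (hWt x hx hx0).le
  have hN : ∀ x ∈ N', x ∈ P.O := fun x hx => hA x (Mdl.Sub.le_F N' hx)
  have hMk : rac (adj N' z) ≤ M'.k := M'.RAC_k.le (adj_le hCP.sub'.le hz)
  by_contra hcon
  push Not at hcon
  obtain ⟨c, hc, hcO⟩ := hcon
  -- residues of new constants are constants
  have hres : ∀ b ∈ rac (adj N' z), b ∈ P.O → ∃ d ∈ N', P.ev b = P.ev d := by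
    intro b hb hbO
    by_contra hno
    have h1 : ¬ IsAlgebraic (P.im N' hN) (P.ev b) := by
      intro h2
      have h3 : IsAlgClosed (P.im N' hN) := P.isAlgClosed_im hN hCP.sub'.isAlgClosed
      obtain ⟨d, hd, hd'⟩ := P.mem_im.1 (RAC_of_isAlgClosed _ h3 _ h2)
      exact hno ⟨d, hd, hd'.symm⟩
    have h2 := Pl.mem_adj_of_transcendental P N' hN hbO h1
    have hbN : b ∉ N' := fun h => hno ⟨b, h, rfl⟩
    have h3 : IsAlgebraic (adj N' b) c :=
      line_swap hCP.sub'.rac (mem_rac.1 hb) hbN (mem_rac.1 hc)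
    exact hcO (P.mem_of_isAlgebraic _ h2 h3)
  have hsup : G ∈ M'.F N' ⊔ rac (adj N' z) := by
    have e : M'.F (rac (adj N' z)) ≤ M'.F N' ⊔ rac (adj N' z) :=
      sup_le ((Mdl.K0_le N').trans le_sup_left) le_sup_right
    exact e hG
  obtain ⟨b, hb, hb0, hU, -⟩ := P.gauss (l := N') (A := M'.F N') (B := rac (adj N' z))
    (Mdl.Sub.le_F N') ((le_adj N' z).trans (le_rac _)) hA hres hsup hG0
  apply hf
  rw [← cl_const_mul M'.ack (hMk hb) hb0 hG0]
  exact W.w1 _ (P.U_iff.1 hU)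

/-- the subfield of elements of `A` with residue in `B`. -/
noncomputable def resPre {Ω : Type*} [Field Ω] (P : Pl L Ω) (A : Subfield L) (hA : ∀ x ∈ A, x ∈ P.O)
    (B : Subfield Ω) : Subfield L := (B.comap (P.resHom A hA)).map A.subtype

theorem mem_resPre {Ω : Type*} [Field Ω] {P : Pl L Ω} {A : Subfield L} {hA : ∀ x ∈ A, x ∈ P.O}
    {B : Subfield Ω} {x : L} : x ∈ resPre P A hA B ↔ x ∈ A ∧ P.ev x ∈ B := by
  unfold resPre
  rw [Subfield.mem_map]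
  constructor
  · rintro ⟨y, hy, rfl⟩
    refine ⟨y.2, ?_⟩
    rw [Subfield.mem_comap, P.resHom_apply] at hy
    exact hy
  · rintro ⟨hx, hx'⟩
    refine ⟨⟨x, hx⟩, ?_, rfl⟩
    rw [Subfield.mem_comap, P.resHom_apply]
    exact hx'

/-- A7-A9. -/
theorem local_field (hΘ : Compatible Θ) (hCP : CP M M' Θ N N') {t : K} (ht : t ∈ M.F N)
    (hg : Good M.k t) {z G : L} (hz : z ∈ M'.k) (hzN : z ∉ N')
    (hG : G ∈ M'.F (rac (adj N' z))) (hGT : Θ.symm (cl ℓ G) ∈ VS ℓ (adj M.k t))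
    (hGN : cl ℓ G ∉ VS ℓ (M'.F N')) :
    ∃ E : Subfield L, N' ≤ E ∧ E ≤ M'.F N' ∧ (∃ y0 ∈ E, y0 ∉ N') ∧
      (∀ x ∈ M'.F N', IsAlgebraic E x → x ∈ E) ∧
      (∀ y0 ∈ E, y0 ∉ N' → ∀ x ∈ E, IsAlgebraic (adj N' y0) x) ∧
      (∀ u ∈ VS ℓ (M'.F N'), Θ.symm u ∈ VS ℓ (adj M.k t) ↔ u ∈ VS ℓ E) := by
  classical
  have hℓ : 0 < ℓ := (Fact.out : ℓ.Prime).pos
  have hgN : Θ.symm (cl ℓ G) ∉ VS ℓ (M.F N) := by
    rw [hCP.map, LinearEquiv.apply_symm_apply]; exact hGN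
  obtain ⟨a, hak, haN, hWf⟩ := exists_special hCP ht hg.1 hGT hgN
  obtain ⟨W⟩ := exists_WD M M' hΘ hCP.sub ht hg hak haN
  have hf := hWf W
  have hWt := W.trivial hΘ hCP hg.1
  have hG0 : G ≠ 0 := by
    rintro rfl
    rw [cl_zero] at hGN
    exact hGN (Submodule.zero_mem _)
  have hWM := W.trivial_const hCP hWt hz hzN hG hG0 hf
  set P := plOf W.w with hP
  set Mz := rac (adj N' z) with hMz
  set A := M'.F N' with hAdef
  have hMO : ∀ x ∈ Mz, x ∈ P.O := hWM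
  have hA : ∀ x ∈ A, x ∈ P.O := by
    intro x hx
    by_cases hx0 : x = 0
    · rw [hx0]; exact P.O.zero_mem
    · exact (W.w.valuation_le_one_iff x).1 (hWt x hx hx0).le
  have hNA : N' ≤ A := Mdl.Sub.le_F N'
  have hNM : N' ≤ Mz := (le_adj N' z).trans (le_rac _)
  have hN : ∀ x ∈ N', x ∈ P.O := fun x hx => hA x (hNA hx)
  have hzM : z ∈ Mz := le_rac _ (mem_adj _ _)
  have hMsub : M'.Sub Mz := Mdl.sub_rac (hCP.sub'.ge.trans (le_adj _ _)) (adj_le hCP.sub'.le hz)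
  have hzA : ¬ IsAlgebraic A z := fun h =>
    hzN (M'.free N' hCP.sub'.rac hCP.sub'.ge hCP.sub'.le z hz h)
  set Λ := M'.F Mz with hΛdef
  have hAΛ : A ≤ Λ := Mdl.F_mono hNM
  have hMΛ : Mz ≤ Λ := Mdl.Sub.le_F Mz
  -- the residue of `z` is algebraic
  have he : IsAlgebraic (P.im A hA) (P.ev z) := by
    by_contra h
    have h1 := Pl.mem_adj_of_transcendental P A hA (hMO z hzM) h
    have h2 : Λ ≤ rac (adj A z) := by
      refine sup_le ?_ (rac_mono (adj_mono hNA z))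
      exact (Mdl.K0_le N').trans ((le_adj A z).trans (le_rac _))
    have h3 : ∀ x ∈ Λ, x ∈ P.O := fun x hx => P.mem_of_isAlgebraic _ h1 (mem_rac.1 (h2 hx))
    exact hf (W.w1 G (P.U_iff.1 (Gn.U_of_field h3 hG hG0)))
  obtain ⟨π, hπA, hπ, hπO, hπ0, hGd⟩ := exists_gd_adj P A hA (hMO z hzM) hzA he
  haveI : PerfectField Mz := perfect_rac _
  haveI : PerfectField A := hCP.sub'.perfect_F
  haveI : PerfectField Λ := hMsub.perfect_F
  have hB : P.im Mz hMO = rac (adj (P.im N' hN) (P.ev z)) :=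
    Pl.im_eq_rac P hMO hMsub.isAlgClosed hNM hzM (fun b hb => mem_rac.1 hb)
  set B := rac (adj (P.im N' hN) (P.ev z)) with hBdef
  set κ := P.im A hA ⊔ B with hκ
  have hevB : ∀ x ∈ Mz, P.ev x ∈ B := fun x hx => by rw [← hB]; exact P.ev_mem_im hMO hx
  have hGd3 : Gd P π κ Λ := by
    have h1 := hGd κ le_sup_left ((le_sup_right : B ≤ κ) (hevB z hzM))
    have h2 : Gd P π κ (adj A z ⊔ Mz) :=
      Gd.sup hπ hπO hπ0 hπA h1 (E := Vale.Agent.P019.adj N' z)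
        (Vale.Agent.P019.adj_mono hNA z) ((adj0_le_adj N' z).trans (le_rac _)) hMO
        (fun x hx => (le_sup_right : B ≤ κ) (hevB x hx))
        (fun x hx => isAlgebraic_adj.1 (mem_rac.1 hx))
    refine Gd.mono (sup_le ?_ le_sup_right) h2
    exact (Mdl.K0_le N').trans ((le_adj A z).trans le_sup_left)
  have hπΛ : π ∈ Λ := Vale.Agent.P019.adj_le hAΛ (hMΛ hzM) hπA
  have hGn : ∀ (j : ℕ) (n : ℤ), P.U (G ^ ringExpChar L ^ j * π ^ n) → ¬ (ℓ : ℤ) ∣ n := by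
    rintro j n hU ⟨m, rfl⟩
    apply hf
    have h1 : cl ℓ (G ^ ringExpChar L ^ j * π ^ ((ℓ : ℤ) * m)) =
        ((ringExpChar L ^ j : ℕ) : ZMod ℓ) • cl ℓ G := by
      rw [cl_mul ℓ (pow_ne_zero _ hG0) (zpow_ne_zero _ hπ), mul_comm (ℓ : ℤ) m, zpow_mul,
        zpow_natCast, cl_pow_self, add_zero, cl_pow, Nat.cast_smul_eq_nsmul]
    have h2 := W.w1 _ (P.U_iff.1 hU)
    rw [h1, map_smul, map_smul, smul_eq_mul] at h2
    exact (mul_eq_zero.1 h2).resolve_left (q_pow_ne_zero ℓ L j)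
  have hpow : ∀ x ∈ A, x ≠ 0 → Θ.symm (cl ℓ x) ∈ VS ℓ (adj M.k t) →
      ∃ r ∈ κ, r ^ ℓ = P.ev x := by
    intro x hx hx0 hxT
    have h1 : Orth (cl ℓ x) (cl ℓ G) := by
      have h2 := hΘ.orth (adj_isotropic M.ack hg.1 _ hxT _ hGT)
      rwa [LinearEquiv.apply_symm_apply, LinearEquiv.apply_symm_apply] at h2
    have h2 := M'.orth_descent ℓ hMsub (hAΛ hx) hG h1
    refine tame_sub P hπΛ hπ hπO hπ0 hGd3 ℓ ?_ (hAΛ hx) (Gn.U_of_field hA hx hx0) hG hG0 hGn h2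
    obtain ⟨d, hd, hd'⟩ := asm_pow_eq hCP.sub'.isAlgClosed hℓ (N'.neg_mem N'.one_mem)
    exact ⟨d, hAΛ (hNA hd), hd'⟩
  have heN : P.ev z ∉ P.im N' hN := by
    intro h
    obtain ⟨d, hd, hd'⟩ := P.mem_im.1 h
    have := P.ev_inj hMO (hNM hd) hzM hd'
    exact hzN (this ▸ hd)
  haveI : NeZero (ℓ : AlgebraicClosure (IsLocalRing.ResidueField W.w)) := ⟨by
    intro h0
    apply NeZero.ne (ℓ : L)
    have h1 : ((ℓ : ℕ) : A) = 0 := by
      apply (P.resHom A hA).injective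
      rw [map_natCast, map_zero]
      exact h0
    have h2 := congrArg (Subtype.val : A → L) h1
    simpa using h2⟩
  let X : Set (AlgebraicClosure (IsLocalRing.ResidueField W.w)) :=
    {y | ∃ x ∈ A, x ≠ 0 ∧ Θ.symm (cl ℓ x) ∈ VS ℓ (adj M.k t) ∧ P.ev x = y}
  have hX0 : ∀ y ∈ X, y ∈ P.im A hA ∧ y ≠ 0 := by
    rintro _ ⟨x, hx, hx0, -, rfl⟩
    exact ⟨P.ev_mem_im hA hx, (Gn.U_of_field hA hx hx0).2⟩
  have hXpow : ∀ y ∈ X, ∃ r ∈ P.im A hA ⊔ B, r ^ ℓ = y := by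
    rintro _ ⟨x, hx, hx0, hxT, rfl⟩
    exact hpow x hx hx0 hxT
  have hXinf : ∀ n : ℕ, ∃ x : Fin n → (AlgebraicClosure (IsLocalRing.ResidueField W.w)),
      (∀ i, x i ∈ X) ∧ ∀ i j, i ≠ j → ¬ ∃ w ∈ P.im A hA, x i = x j * w ^ ℓ := by
    intro n
    obtain ⟨ε, hεi, hε0, -, -⟩ := M.exists_seq (⊤ : ValuationSubring K)
    have h1 : ∀ m : ℕ, ∃ x ∈ A, x ≠ 0 ∧ cl ℓ x = Θ (cl ℓ (t - ε m)) := by
      intro m
      have h2 : cl ℓ (t - ε m) ∈ VS ℓ (M.F N) :=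
        cl_mem_VS (Subfield.sub_mem _ ht (Mdl.Sub.le_F N (hCP.sub.ge (hε0 m))))
      rw [hCP.map] at h2
      obtain ⟨x, hx, hx0, hx'⟩ := h2
      exact ⟨x, hx, hx0, hx'.symm⟩
    choose x hxA hx0 hxc using h1
    refine ⟨fun i => P.ev (x i), fun i => ⟨x i, hxA i, hx0 i, ?_, rfl⟩, ?_⟩
    · rw [hxc, LinearEquiv.symm_apply_apply]
      exact cl_mem_VS (Subfield.sub_mem _ (mem_adj _ _) (le_adj _ _ (M.le_k (hε0 _))))
    · rintro i j hij ⟨w, hw, hw'⟩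
      obtain ⟨w₀, hw₀, rfl⟩ := P.mem_im.1 hw
      have h2 : x i = x j * w₀ ^ ℓ := by
        apply P.ev_inj hA (hxA _) (A.mul_mem (hxA _) (A.pow_mem hw₀ _))
        rw [P.ev_mul (hA _ (hxA _)) (hA _ (A.pow_mem hw₀ _)), P.ev_pow (hA _ hw₀)]
        exact hw'
      have hw₀0 : w₀ ≠ 0 := by
        rintro rfl
        rw [zero_pow hℓ.ne', mul_zero] at h2
        exact hx0 _ h2
      have h3 : cl ℓ (x i) = cl ℓ (x j) := (cl_eq_iff ℓ (hx0 _) (hx0 _)).2 ⟨w₀, hw₀0, h2⟩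
      rw [hxc, hxc] at h3
      have h4 := Θ.injective h3
      have hij' : ε i ≠ ε j := by
        intro h
        exact hij (Fin.ext (hεi h))
      have h5 := good_independent (ℓ := ℓ) M.ack hg {ε i, ε j} (by
        intro c hc
        simp only [Finset.mem_insert, Finset.mem_singleton] at hc
        rcases hc with rfl | rfl <;> exact M.le_k (hε0 _))
        (fun c => if c = ε i then 1 else -1) (by
        rw [Finset.sum_insert (by simpa using hij'), Finset.sum_singleton, if_pos rfl,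
          if_neg hij'.symm, h4, one_smul, neg_smul, one_smul, add_neg_cancel])
        (ε i) (by simp)
      rw [if_pos rfl] at h5
      exact one_ne_zero h5
  obtain ⟨⟨y₀, hy₀, hy₀N⟩, hXE⟩ := gal ℓ (P.isAlgClosed_im hN hCP.sub'.isAlgClosed)
    (Pl.fg_im P hA hNA (M'.fg_F hCP.sub')) he heN X hX0 hXinf hXpow
  -- the field
  have hBrac : RAC B := RAC_rac _
  refine ⟨resPre P A hA B, ?_, ?_, ?_, ?_, ?_, ?_⟩
  · intro x hx
    exact mem_resPre.2 ⟨hNA hx, (le_adj _ _).trans (le_rac _) (P.ev_mem_im hN hx)⟩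
  · intro x hx
    exact (mem_resPre.1 hx).1
  · obtain ⟨x, hx, hx'⟩ := P.mem_im.1 hy₀.2
    refine ⟨x, mem_resPre.2 ⟨hx, hx'.symm ▸ hy₀.1⟩, fun h => hy₀N ?_⟩
    rw [← hx']
    exact P.ev_mem_im hN h
  · intro x hx hxE
    refine mem_resPre.2 ⟨hx, hBrac _ ?_⟩
    refine P.isAlgebraic_ev (resPre P A hA B) B ?_ hxE (hA x hx)
    intro y hy _
    exact (mem_resPre.1 hy).2
  · intro y hy hyN x hx
    have hy' := mem_resPre.1 hy
    have hx' := mem_resPre.1 hx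
    have hyN' : P.ev y ∉ P.im N' hN := by
      intro h
      obtain ⟨d, hd, hd'⟩ := P.mem_im.1 h
      exact hyN (P.ev_inj hA (hNA hd) hy'.1 hd' ▸ hd)
    have h1 : IsAlgebraic (adj (P.im N' hN) (P.ev y)) (P.ev x) :=
      line_swap (RAC_of_isAlgClosed _ (P.isAlgClosed_im hN hCP.sub'.isAlgClosed))
        (mem_rac.1 hy'.2) hyN' (mem_rac.1 hx'.2)
    refine P.isAlgebraic_of_im hA (adj_le hNA hy'.1) hx'.1 ?_
    rw [Pl.im_adj P hA hNA hy'.1]
    exact h1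
  · rintro _ ⟨x, hx, hx0, rfl⟩
    constructor
    · intro hxT
      obtain ⟨e, he', w, hw, hew⟩ := hXE (P.ev x) ⟨x, hx, hx0, hxT, rfl⟩
      obtain ⟨e₀, he₀, rfl⟩ := P.mem_im.1 he'.2
      obtain ⟨w₀, hw₀, rfl⟩ := P.mem_im.1 hw
      have h2 : x = e₀ * w₀ ^ ℓ := by
        apply P.ev_inj hA hx (A.mul_mem he₀ (A.pow_mem hw₀ _))
        rw [P.ev_mul (hA _ he₀) (hA _ (A.pow_mem hw₀ _)), P.ev_pow (hA _ hw₀)]
        exact hew
      have he₀0 : e₀ ≠ 0 := by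
        rintro rfl
        rw [zero_mul] at h2
        exact hx0 h2
      have hw₀0 : w₀ ≠ 0 := by
        rintro rfl
        rw [zero_pow hℓ.ne', mul_zero] at h2
        exact hx0 h2
      exact (cl_ne_zero_mem_VS hx0).2 ⟨e₀, mem_resPre.2 ⟨he₀, he'.1⟩, he₀0, w₀, hw₀0, h2⟩
    · rintro ⟨e, he', he0, hxe⟩
      rw [hxe]
      obtain ⟨heA, heB⟩ := mem_resPre.1 he'
      rw [← hB] at heB
      obtain ⟨m, hm, hm'⟩ := P.mem_im.1 heB
      have hm0 : m ≠ 0 := by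
        rintro rfl
        rw [P.ev_zero] at hm'
        exact (Gn.U_of_field hA heA he0).2 hm'.symm
      have hmk : m ∈ M'.k := hMsub.le hm
      have hmU : P.U m := Gn.U_of_field hMO hm hm0
      have hcl : cl ℓ (1 + (e / m - 1)) = cl ℓ e := by
        have e1 : 1 + (e / m - 1) = m⁻¹ * e := by field_simp; ring
        rw [e1]
        exact cl_const_mul M'.ack (M'.k.inv_mem hmk) (inv_ne_zero hm0) he0
      rw [← hcl]
      apply W.w2
      · have h3 : P.ev (e / m - 1) = 0 := by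
          have h4 : P.U (e / m) := (Gn.U_of_field hA heA he0).div hmU
          rw [P.ev_sub h4.1 P.O.one_mem, P.ev_div (hA e heA) hmU, hm', P.ev_one,
            div_self (Gn.U_of_field hA heA he0).2, sub_self]
        exact (P.ev_eq_zero_iff (P.O.sub_mem
          ((Gn.U_of_field hA heA he0).div hmU).1 P.O.one_mem)).1 h3
      · rw [hcl, hCP.map, LinearEquiv.apply_symm_apply]
        exact cl_mem_VS heA

end localfield

end Vale.Agent.P019P
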