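import Vale.Agent.P019.Asm4
import Vale.Agent.P019P.Asm3

/-!
# Assembly 4: lines go to fields of transcendence degree one
-/

namespace Vale.Agent.P019P

open Vale.Agent.P019

set_option linter.style.haveILetI false

open Polynomial

section glob

variable {K L : Type*} [Field K] [Field L] [PerfectField K] [PerfectField L] {ℓ : ℕ} [Fact ℓ.Prime]
  [NeZero (ℓ : K)] [NeZero (ℓ : L)]

/-- the local statement for a pair. -/
structure LF (M : Mdl K) (M' : Mdl L) (Θ : V ℓ K ≃ₗ[ZMod ℓ] V ℓ L) (t : K) (N' E : Subfield L) :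
    Prop where
  sub : M'.Sub N'
  le : N' ≤ E
  leF : E ≤ M'.F N'
  ne : ∃ y0 ∈ E, y0 ∉ N'
  rac : ∀ x ∈ M'.F N', IsAlgebraic E x → x ∈ E
  deg : ∀ y0 ∈ E, y0 ∉ N' → ∀ x ∈ E, IsAlgebraic (adj N' y0) x
  iff : ∀ u ∈ VS ℓ (M'.F N'), Θ.symm u ∈ VS ℓ (adj M.k t) ↔ u ∈ VS ℓ E

variable {M : Mdl K} {M' : Mdl L} {Θ : V ℓ K ≃ₗ[ZMod ℓ] V ℓ L}

theorem LF.mem_of_k0 {t : K} {N' E : Subfield L} (h : LF M M' Θ t N' E) {z : L}
    (hz : z ∈ M'.F N') (hn : ∀ c ∈ M'.k0, Θ.symm (cl ℓ (z - c)) ∈ VS ℓ (adj M.k t)) :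
    z ∈ E := by
  by_contra hzE
  have hEz : ¬ IsAlgebraic E z := fun h' => hzE (h.rac z hz h')
  have hinf : (M'.k0 : Set L).Infinite := by
    haveI := M'.ack0
    haveI : Infinite M'.k0 := IsAlgClosed.instInfinite
    exact Set.infinite_coe_iff.1 (inferInstance : Infinite M'.k0)
  obtain ⟨c, hc0, hno⟩ := int_line ℓ (l := N') (E := E) (Λ := M'.F N') h.sub.isAlgClosed
    (M'.fg_F h.sub) h.le h.leF hz hEz _ hinf (fun c hc => h.sub.ge hc)
  apply hno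
  have hcN : c ∈ N' := h.sub.ge hc0
  have hzn0 : z - c ≠ 0 := by
    intro h0
    rw [sub_eq_zero] at h0
    exact hzE (h0 ▸ h.le hcN)
  have hznF : z - c ∈ M'.F N' := Subfield.sub_mem _ hz (h.leF (h.le hcN))
  have h1 := (h.iff _ (cl_mem_VS hznF)).1 (hn c hc0)
  obtain ⟨e, he, he0, w, hw0, hew⟩ := (cl_ne_zero_mem_VS hzn0).1 h1
  refine ⟨e, he, w, ?_, hew⟩
  have h2 : w ^ ℓ ∈ M'.F N' := by
    have e1 : w ^ ℓ = (z - c) / e := by rw [hew]; field_simp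
    rw [e1]
    exact Subfield.div_mem _ hznF (h.leF he)
  exact M'.RAC_F h.sub _ (IsAlgebraic.of_pow (Fact.out : ℓ.Prime).pos (isAlgebraic_of_mem h2))

theorem LF.mem_iff {t : K} {N' E : Subfield L} (h : LF M M' Θ t N' E) {z : L}
    (hz : z ∈ M'.F N') :
    z ∈ E ↔ ∀ c ∈ M'.k0, Θ.symm (cl ℓ (z - c)) ∈ VS ℓ (adj M.k t) := by
  refine ⟨fun hzE c hc => ?_, h.mem_of_k0 hz⟩
  have hcE : c ∈ E := h.le (h.sub.ge hc)
  rw [h.iff]
  · exact cl_mem_VS (Subfield.sub_mem _ hzE hcE)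
  · exact cl_mem_VS (Subfield.sub_mem _ hz (h.leF hcE))

/-- sufficiently many local fields. -/
theorem exists_LF (hΘ : Compatible Θ) (hk : ¬ (M.k : Set K).Countable)
    (hl : ¬ (M'.k : Set L).Countable) {t : K} (hg : Good M.k t) (S : Set L) (hS : S.Countable) :
    ∃ N' E, LF M M' Θ t N' E ∧ ∀ s ∈ S, s ∈ M'.F N' := by
  obtain ⟨A, B, hA, hB, hAB⟩ := pigeon_main hΘ hk hl hg
  obtain ⟨N, N', hCP, h1, h2⟩ := exists_CP M M' Θ hk hl (A ∪ {t})
    (hA.union (Set.countable_singleton t)) (B ∪ S) (hB.union hS)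
  obtain ⟨z, hz, hzN, G, hG, hGT, hGN⟩ := hAB N N' hCP (fun a ha => h1 a (Or.inl ha))
    (fun b hb => h2 b (Or.inl hb))
  obtain ⟨E, e1, e2, e3, e4, e5, e6⟩ :=
    local_field hΘ hCP (h1 t (Or.inr rfl)) hg hz hzN hG hGT hGN
  exact ⟨N', E, ⟨hCP.sub', e1, e2, e3, e4, e5, e6⟩, fun s hs => h2 s (Or.inr hs)⟩

/-- **Step A.** The image of a good line is the multiplicative group of a relatively algebraically
closed subfield of transcendence degree one. -/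
theorem step_A (hΘ : Compatible Θ) (hk : ¬ (M.k : Set K).Countable)
    (hl : ¬ (M'.k : Set L).Countable) {t : K} (hg : Good M.k t) :
    ∃ E : Subfield L, M'.k ≤ E ∧ RAC E ∧ (∃ y0 ∈ E, y0 ∉ M'.k) ∧
      (∀ y0 ∈ E, y0 ∉ M'.k → ∀ x ∈ E, IsAlgebraic (adj M'.k y0) x) ∧
      (∀ v, v ∈ VS ℓ (adj M.k t) ↔ Θ v ∈ VS ℓ E) := by
  classical
  have hex : ∀ S : Set L, S.Countable → ∃ N' E, LF M M' Θ t N' E ∧ ∀ s ∈ S, s ∈ M'.F N' :=
    fun S hS => exists_LF hΘ hk hl hg S hS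
  let p : L → Prop := fun z => ∀ c ∈ M'.k0, Θ.symm (cl ℓ (z - c)) ∈ VS ℓ (adj M.k t)
  have hp : ∀ {N' E : Subfield L} (_ : LF M M' Θ t N' E) {z : L} (_ : z ∈ M'.F N'),
      z ∈ E ↔ p z := by
    intro N' E h z hz
    exact h.mem_iff hz
  have hpair : ∀ x y : L, ∃ N' E, LF M M' Θ t N' E ∧ x ∈ M'.F N' ∧ y ∈ M'.F N' := by
    intro x y
    obtain ⟨N', E, h1, h2⟩ := hex {x, y} (Set.toFinite {x, y}).countable
    exact ⟨N', E, h1, h2 x (by simp), h2 y (by simp)⟩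
  let E₀ : Subfield L :=
    { carrier := {z | p z}
      mul_mem' := by
        intro x y hx hy
        obtain ⟨N', E, h, h1, h2⟩ := hpair x y
        exact (hp h (Subfield.mul_mem _ h1 h2)).1
          (E.mul_mem ((hp h h1).2 hx) ((hp h h2).2 hy))
      one_mem' := by
        obtain ⟨N', E, h, h1, h2⟩ := hpair 1 1
        exact (hp h h1).1 E.one_mem
      add_mem' := by
        intro x y hx hy
        obtain ⟨N', E, h, h1, h2⟩ := hpair x y
        exact (hp h (Subfield.add_mem _ h1 h2)).1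
          (E.add_mem ((hp h h1).2 hx) ((hp h h2).2 hy))
      zero_mem' := by
        obtain ⟨N', E, h, h1, h2⟩ := hpair 0 0
        exact (hp h h1).1 E.zero_mem
      neg_mem' := by
        intro x hx
        obtain ⟨N', E, h, h1, h2⟩ := hpair x x
        exact (hp h (Subfield.neg_mem _ h1)).1 (E.neg_mem ((hp h h1).2 hx))
      inv_mem' := by
        intro x hx
        obtain ⟨N', E, h, h1, h2⟩ := hpair x x
        exact (hp h (Subfield.inv_mem _ h1)).1 (E.inv_mem ((hp h h1).2 hx)) }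
  have hE₀ : ∀ {N' E : Subfield L} (_ : LF M M' Θ t N' E) {z : L} (_ : z ∈ M'.F N'),
      z ∈ E ↔ z ∈ E₀ := by
    intro N' E h z hz
    exact hp h hz
  refine ⟨E₀, ?_, ?_, ?_, ?_, ?_⟩
  · intro c hc
    obtain ⟨N', E, h, h1, -⟩ := hpair c c
    exact (hE₀ h h1).1 (h.le (M'.mem_of_mem_F h.sub hc h1))
  · intro z hz
    obtain ⟨Q, hQ0, hQ⟩ := hz
    let S : Set L := insert z (Set.range (fun i => ((Q.coeff i : E₀) : L)))
    obtain ⟨N', E, h, hS⟩ := hex S ((Set.countable_range _).insert z)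
    have hzF : z ∈ M'.F N' := hS z (Set.mem_insert _ _)
    rw [← hE₀ h hzF]
    refine h.rac z hzF ?_
    refine Gn.isAlgebraic_of_coeff (Q.map E₀.subtype) ?_ ?_ ?_
    · rw [Ne, Polynomial.map_eq_zero_iff (RingHom.injective _)]; exact hQ0
    · intro i
      rw [coeff_map]
      have hi : ((Q.coeff i : E₀) : L) ∈ M'.F N' := hS _ (Set.mem_insert_of_mem _ ⟨i, rfl⟩)
      exact (hE₀ h hi).2 (Q.coeff i).2
    · rw [eval_map]; exact hQ
  · obtain ⟨N', E, h, -⟩ := hex ∅ Set.countable_empty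
    obtain ⟨y0, hy0, hy0N⟩ := h.ne
    refine ⟨y0, (hE₀ h (h.leF hy0)).1 hy0, fun hc => hy0N ?_⟩
    exact M'.mem_of_mem_F h.sub hc (h.leF hy0)
  · intro y0 hy0 hy0k x hx
    obtain ⟨N', E, h, h1, h2⟩ := hpair y0 x
    have h3 := h.deg y0 ((hE₀ h h1).2 hy0) (fun hc => hy0k (h.sub.le hc)) x ((hE₀ h h2).2 hx)
    exact isAlgebraic_mono (adj_mono h.sub.le y0) h3
  · intro v
    obtain ⟨g, hg0, hgv⟩ := cl_surj ℓ (Θ v)
    constructor
    · intro hv
      obtain ⟨N', E, h, h1, -⟩ := hpair g g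
      have h2 : Θ.symm (cl ℓ g) ∈ VS ℓ (adj M.k t) := by
        rw [hgv, LinearEquiv.symm_apply_apply]; exact hv
      rw [h.iff _ (cl_mem_VS h1), hgv] at h2
      obtain ⟨e, he, he0, hev⟩ := h2
      rw [hev]
      exact cl_mem_VS ((hE₀ h (h.leF he)).1 he)
    · rintro ⟨e, he, he0, hev⟩
      obtain ⟨N', E, h, h1, -⟩ := hpair e e
      have h2 := (h.iff _ (cl_mem_VS h1)).2 (cl_mem_VS ((hE₀ h h1).2 he))
      rwa [← hev, LinearEquiv.symm_apply_apply] at h2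

/-- **A10.** Transferred valuations are trivial on constants. -/
theorem const_trivial (hΘ : Compatible Θ) (hk : ¬ (M.k : Set K).Countable)
    (hl : ¬ (M'.k : Set L).Countable) (U : Submodule (ZMod ℓ) (V ℓ K)) {x : K} (hx : Good M.k x)
    (hfin : ((U ⊓ VS ℓ (adj M.k x) : Submodule (ZMod ℓ) (V ℓ K)) : Set (V ℓ K)).Finite)
    (w : ValuationSubring L) (hw : ∀ z, w.valuation z < 1 → Θ.symm (cl ℓ (1 + z)) ∈ U) :
    ∀ c ∈ M'.k, c ≠ 0 → w.valuation c = 1 := by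
  obtain ⟨E, hkE, -, ⟨y0, hy0, hy0k⟩, -, hE⟩ := step_A (M' := M') hΘ hk hl hx
  obtain ⟨s, hs, hsk, hsw⟩ : ∃ s ∈ E, s ∉ M'.k ∧ w.valuation s ≤ 1 := by
    rcases le_or_gt (w.valuation y0) 1 with h1 | h1
    · exact ⟨y0, hy0, hy0k, h1⟩
    · refine ⟨y0⁻¹, E.inv_mem hy0, fun h => hy0k ?_, ?_⟩
      · have := M'.k.inv_mem h
        rwa [inv_inv] at this
      · rw [map_inv₀]
        exact (inv_lt_one_of_one_lt₀ h1).le
  suffices H : ∀ c ∈ M'.k, c ≠ 0 → ¬ w.valuation c < 1 by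
    intro z hz hz0
    apply le_antisymm
    · by_contra hcon
      push Not at hcon
      refine H z⁻¹ (M'.k.inv_mem hz) (inv_ne_zero hz0) ?_
      rw [map_inv₀]
      exact inv_lt_one_of_one_lt₀ hcon
    · exact not_lt.1 (H z hz hz0)
  intro c hc hc0 hcw
  have hfin2 : (⋃ v ∈ ((U ⊓ VS ℓ (adj M.k x) : Submodule (ZMod ℓ) (V ℓ K)) : Set (V ℓ K)),
      {d : L | d ∈ M'.k ∧ cl ℓ (s - d) = Θ v}).Finite :=
    hfin.biUnion (fun v _ => dist_top ℓ M'.ack M'.fg_top hsk (Θ v))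
  have hinf2 : (Set.range (fun j : ℕ => (-(c ^ (j + 1))⁻¹))).Infinite := by
    refine Set.infinite_range_of_injective ?_
    intro i j hij
    have h1 : c ^ (i + 1) = c ^ (j + 1) := inv_injective (neg_injective hij)
    have h2 : ∀ m n : ℕ, m < n → c ^ (m + 1) ≠ c ^ (n + 1) := by
      intro m n hmn h
      have h3 := congrArg w.valuation h
      rw [map_pow, map_pow] at h3
      have h0 : 0 < w.valuation c := by rw [Valuation.pos_iff]; exact hc0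
      have h4 := pow_lt_pow_right_of_lt_one₀ h0 hcw (Nat.succ_lt_succ hmn)
      exact h4.ne h3.symm
    rcases lt_trichotomy i j with h | h | h
    · exact absurd h1 (h2 i j h)
    · exact h
    · exact absurd h1.symm (h2 j i h)
  refine hinf2 (hfin2.subset ?_)
  rintro _ ⟨j, rfl⟩
  have hcj : c ^ (j + 1) ∈ M'.k := M'.k.pow_mem hc _
  have hcj0 : c ^ (j + 1) ≠ 0 := pow_ne_zero _ hc0
  have hdk : -(c ^ (j + 1))⁻¹ ∈ M'.k := M'.k.neg_mem (M'.k.inv_mem hcj)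
  have hsd : s - (-(c ^ (j + 1))⁻¹) ≠ 0 := by
    intro h
    rw [sub_eq_zero] at h
    exact hsk (h ▸ hdk)
  have e1 : cl ℓ (1 + c ^ (j + 1) * s) = cl ℓ (s - (-(c ^ (j + 1))⁻¹)) := by
    have e : 1 + c ^ (j + 1) * s = c ^ (j + 1) * (s - (-(c ^ (j + 1))⁻¹)) := by
      field_simp; ring
    rw [e, cl_const_mul M'.ack hcj hcj0 hsd]
  have hmem1 : Θ.symm (cl ℓ (s - (-(c ^ (j + 1))⁻¹))) ∈ U := by
    rw [← e1]
    apply hw
    rw [map_mul, map_pow]
    have h4 : w.valuation c ^ (j + 1) < 1 := pow_lt_one₀ zero_le hcw (Nat.succ_ne_zero j)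
    exact mul_lt_one_of_nonneg_of_lt_one_left zero_le h4 hsw
  have hmem2 : Θ.symm (cl ℓ (s - (-(c ^ (j + 1))⁻¹))) ∈ VS ℓ (adj M.k x) := by
    rw [hE, LinearEquiv.apply_symm_apply]
    exact cl_mem_VS (E.sub_mem hs (hkE hdk))
  simp only [Set.mem_iUnion]
  exact ⟨_, ⟨hmem1, hmem2⟩, hdk, (LinearEquiv.apply_symm_apply _ _).symm⟩

end glob

end Vale.Agent.P019P
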