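import Vale.Agent.P019.ExMdl
import Vale.Agent.P019P.Sp

/-!
# Existence of models
-/

namespace Vale.Agent.P019P

open Vale.Agent.P019

set_option linter.style.haveILetI false

open Polynomial

/-- S71 existence of models. -/
theorem exists_mdl {K : Type*} [Field K] [PerfectField K] (k : Subfield K) (hk : IsAlgClosed k)
    (hfg : FG k (⊤ : Subfield K)) (htr : ∃ x y : K, x ∉ k ∧ ¬ IsAlgebraic (adj k x) y) :
    ∃ M : Mdl K, M.k = k := by
  classical
  obtain ⟨S, hS⟩ := hfg
  obtain ⟨x, y, hx, hy⟩ := htr
  set S' : Finset K := insert x (insert y S) with hS'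
  obtain ⟨C, hC, hfree⟩ := exists_finite_free k S'
  set k0 : Subfield K := rac (Subfield.closure (C : Set K)) with hk0
  have hCk : Subfield.closure (C : Set K) ≤ k := Subfield.closure_le.2 hC
  have hk0k : k0 ≤ k := (RAC_of_isAlgClosed k hk).le hCk
  have hCk0 : (C : Set K) ⊆ (k0 : Set K) :=
    subset_trans Subfield.subset_closure (le_rac (Subfield.closure (C : Set K)))
  have hk0c : (k0 : Set K).Countable := countable_rac (countable_closure C.countable_toSet)
  have hsup : ∀ N : Subfield K, RAC N → k0 ≤ N →
      pf (k0 ⊔ Subfield.closure (S' : Set K)) ⊔ N = pf (N ⊔ Subfield.closure (S' : Set K)) := by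
    intro N hNR hN
    haveI : PerfectField N := perfect_of_RAC hNR
    apply le_antisymm
    · exact sup_le (pf_mono (sup_le_sup_right hN _)) (le_sup_left.trans (le_pf _))
    · exact pf_le (sup_le le_sup_right ((le_sup_right.trans (le_pf _)).trans le_sup_left))
  have hkR : RAC k := RAC_of_isAlgClosed k hk
  refine ⟨{ k := k, k0 := k0, K0 := pf (k0 ⊔ Subfield.closure (S' : Set K)), le_k := hk0k
            le_K0 := le_sup_left.trans (le_pf _), ack := hk
            ack0 := isAlgClosed_of_RAC hk (RAC_rac _) hk0k
            pfK0 := inferInstance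
            sup := ?_, ctb := ?_, fg := ⟨S', rfl⟩, free := ?_, x := x, y := y
            hx := ?_, hy := ?_, hxk := hx, hyx := hy }, rfl⟩
  · rw [hsup k hkR hk0k, eq_top_iff, hS]
    refine pf_mono (sup_le_sup_left (Subfield.closure_mono ?_) _)
    intro s hs
    simp only [hS', Finset.coe_insert]
    exact Set.mem_insert_of_mem _ (Set.mem_insert_of_mem _ hs)
  · refine (countable_rac ?_).mono (pf_le_rac _)
    have h1 : k0 ⊔ Subfield.closure (S' : Set K) =
        Subfield.closure ((k0 : Set K) ∪ (S' : Set K)) := by
      rw [Subfield.closure_union, Subfield.closure_eq]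
    rw [h1]
    exact countable_closure (hk0c.union S'.countable_toSet)
  · intro N hN hk0N hNk a hak ha
    rw [hsup N hN hk0N, isAlgebraic_pf] at ha
    exact hN a (hfree N (hCk0.trans hk0N) hNk a hak ha)
  · exact (le_sup_right.trans (le_pf _) : Subfield.closure (S' : Set K) ≤ _)
      (Subfield.subset_closure (by simp [hS']))
  · exact (le_sup_right.trans (le_pf _) : Subfield.closure (S' : Set K) ≤ _)
      (Subfield.subset_closure (by simp [hS']))

end Vale.Agent.P019P
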