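import Vale.Agent.P019.HypOf
import Vale.Agent.P019P.DefB
import Vale.Agent.P019P.Asm4
import Vale.Agent.P019P.ExMdl
import Vale.Agent.P019P.Bert

/-!
# The hypotheses of the reconstruction step hold
-/

namespace Vale.Agent.P019P

open Vale.Agent.P019

set_option linter.style.haveILetI false
set_option linter.unusedSectionVars false

open Filter

section

variable {ℓ : ℕ} [Fact ℓ.Prime] {K L : Type*} [Field K] [Field L] [PerfectField K] [PerfectField L]
  [NeZero (ℓ : K)] [NeZero (ℓ : L)]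

theorem stepA_crv {M : Mdl K} {M' : Mdl L} {Θ : V ℓ K ≃ₗ[ZMod ℓ] V ℓ L} (hΘ : Compatible Θ)
    (hk : ¬ (M.k : Set K).Countable) (hl : ¬ (M'.k : Set L).Countable) {t : K}
    (hg : Good M.k t) :
    ∃ E : Subfield L, Crv M'.k E ∧ ∀ v, Θ v ∈ VS ℓ E ↔ v ∈ VS ℓ (adj M.k t) := by
  obtain ⟨E, h1, h2, ⟨y, hy, hyk⟩, h4, h5⟩ := step_A (M' := M') hΘ hk hl hg
  exact ⟨E, ⟨h1, h2, ⟨y, hy, hyk, h4 y hy hyk⟩⟩, fun v => (h5 v).symm⟩

theorem trivOn_of_val {O : ValuationSubring L} {l : Subfield L}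
    (h : ∀ c ∈ l, c ≠ 0 → O.valuation c = 1) : TrivOn O l := by
  intro c hc
  by_cases hc0 : c = 0
  · rw [hc0]; exact O.zero_mem
  · exact (O.valuation_le_one_iff c).1 (h c hc hc0).le

theorem hyp_of {k : Subfield K} {l : Subfield L} {Θ : V ℓ K ≃ₗ[ZMod ℓ] V ℓ L}
    (ack : IsAlgClosed k) (acl : IsAlgClosed l) (fgk : FG k (⊤ : Subfield K))
    (fgl : FG l (⊤ : Subfield L)) (uk : ¬ (k : Set K).Countable)
    (trk : ∃ x y : K, x ∉ k ∧ ¬ IsAlgebraic (adj k x) y)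
    (trl : ∃ x y : L, x ∉ l ∧ ¬ IsAlgebraic (adj l x) y) (hΘ : Compatible Θ) :
    Hyp ℓ k l Θ := by
  obtain ⟨M, rfl⟩ := exists_mdl k ack fgk trk
  obtain ⟨M', rfl⟩ := exists_mdl l acl fgl trl
  have ul : ¬ (M'.k : Set L).Countable := uncountable_transport M M' Θ uk
  refine ⟨ack, acl, fgk, fgl, trk, trl, hΘ, ?_, ?_, ?_, ?_, ?_, ?_⟩
  · intro t ht
    exact stepA_crv hΘ uk ul ht
  · intro t ht
    exact stepA_crv hΘ.symm ul uk ht
  · intro U x hx hfin O hO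
    exact trivOn_of_val (const_trivial (M := M) (M' := M') hΘ uk ul U hx hfin O hO)
  · intro U x hx hfin O hO
    exact trivOn_of_val (const_trivial (M := M') (M' := M) hΘ.symm ul uk U hx hfin O hO)
  · intro x y hx hy
    exact ae_iff.2 (bertini ack fgk hx hy)
  · intro x y hx hy
    exact ae_iff.2 (bertini acl fgl hx hy)

end

end Vale.Agent.P019P
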