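import Vale.Agent.P019.Meet
import Vale.Agent.P019P.DefB
import Vale.Agent.P019P.Im
import Vale.Agent.P019P.Line
import Vale.Agent.P019P.FinK
import Vale.Agent.P019P.Gal

/-!
# Intersections of line subspaces
-/

namespace Vale.Agent.P019P

open Vale.Agent.P019

set_option linter.style.haveILetI false
set_option linter.unusedSectionVars false

open Filter Polynomial

section meet

variable {K : Type*} [Field K] [PerfectField K]

/-- a valuation trivial on `k(t)` is trivial on `k(x)` if `x` is congruent to `α + β t`. -/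
theorem triv_of_congr {k : Subfield K} (hk : RAC k) {t : K} (ht : t ∉ k)
    {W : ValuationSubring K} (hW : TrivOn W (adj k t)) {x α β : K} (hα : α ∈ k) (hβ : β ∈ k)
    (hβ0 : β ≠ 0) (hx : W.valuation (x - (α + β * t)) < 1) : TrivOn W (adj k x) := by
  set P := plOf W with hP
  have hA : ∀ y ∈ adj k t, y ∈ P.O := hW
  have hkk : ∀ y ∈ k, y ∈ P.O := fun y hy => hA y (le_adj k t hy)
  have hmem : α + β * t ∈ adj k t :=
    Subfield.add_mem _ (le_adj k t hα) (Subfield.mul_mem _ (le_adj k t hβ) (mem_adj k t))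
  have hxO : x ∈ P.O := by
    have e : x = (x - (α + β * t)) + (α + β * t) := by ring
    rw [e]
    exact P.O.add_mem _ _ (P.mem_of_lt hx) (hA _ hmem)
  have hev : P.ev x = P.ev (α + β * t) := by
    have h1 : P.ev (x - (α + β * t)) = 0 := P.ev_of_lt hx
    rwa [P.ev_sub hxO (hA _ hmem), sub_eq_zero] at h1
  refine Pl.mem_adj_of_transcendental P k hkk hxO ?_
  rw [hev]
  intro h
  have h1 := P.isAlgebraic_of_im hA (le_adj k t) hmem h
  have h2 := hk _ h1
  apply ht
  have e : t = ((α + β * t) - α) / β := by field_simp; ring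
  rw [e]
  exact k.div_mem (k.sub_mem h2 hα) hβ

/-- lines in a pencil meet trivially. -/
theorem meet_ae {ℓ : ℕ} [Fact ℓ.Prime] [NeZero (ℓ : K)] {k : Subfield K} (hk : IsAlgClosed k)
    (hfg : FG k (⊤ : Subfield K)) {h t : K} (hh : h ∉ k) (ht : ¬ IsAlgebraic (adj k h) t) :
    ∀ᶠ c in ae k, VS ℓ (adj k (h + c * t)) ⊓ (VS ℓ (adj k h) ⊔ VS ℓ (adj k t)) = ⊥ := by
  classical
  have hℓ : ℓ.Prime := Fact.out
  have hrac := RAC_of_isAlgClosed k hk
  have htk : t ∉ k := fun h' => ht (isAlgebraic_of_mem (le_adj _ _ h'))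
  have hht : ¬ IsAlgebraic (adj k t) h := by
    intro h'
    exact ht (exchange (fun h1 => hh (hrac _ h1)) h')
  rw [ae_iff]
  by_contra hinf
  have hinf' : ({a : K | a ∈ k ∧ ¬ VS ℓ (adj k (h + a * t)) ⊓ (VS ℓ (adj k h) ⊔ VS ℓ (adj k t)) = ⊥}
      \ {0}).Infinite := Set.Infinite.sdiff hinf (Set.finite_singleton 0)
  let c : ℕ → K := fun n => (hinf'.natEmbedding _ n : K)
  have hcinj : Function.Injective c := fun i j hij =>
    (hinf'.natEmbedding _).injective (Subtype.ext hij)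
  have hck : ∀ n, c n ∈ k := fun n => (hinf'.natEmbedding _ n).2.1.1
  have hc0 : ∀ n, c n ≠ 0 := fun n => (hinf'.natEmbedding _ n).2.2
  have hxk : ∀ n, h + c n * t ∉ k := by
    intro n hn
    apply hht
    have e : h = (h + c n * t) - c n * t := by ring
    rw [e]
    exact isAlgebraic_of_mem (Subfield.sub_mem _ (le_adj _ _ hn)
      (Subfield.mul_mem _ (le_adj _ _ (hck n)) (mem_adj _ _)))
  have hdata : ∀ n, ∃ (s : Finset K) (m : K → ZMod ℓ) (g g' : K), (∀ e ∈ s, e ∈ k) ∧
      (∃ e ∈ s, m e ≠ 0) ∧ g ∈ adj k h ∧ g ≠ 0 ∧ g' ∈ adj k t ∧ g' ≠ 0 ∧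
      cl ℓ (g * g') = ∑ e ∈ s, m e • cl ℓ (h + c n * t - e) := by
    intro n
    have h1 := (hinf'.natEmbedding _ n).2.1.2
    rw [Submodule.eq_bot_iff] at h1
    push Not at h1
    obtain ⟨v, ⟨hv1, hv2⟩, hv0⟩ := h1
    obtain ⟨s, m, hs, hv⟩ := adj_factor hk (hxk n) hv1
    obtain ⟨u, ⟨g, hg, hg0, rfl⟩, u', ⟨g', hg', hg'0, rfl⟩, huv⟩ := Submodule.mem_sup.1 hv2
    refine ⟨s, m, g, g', hs, ?_, hg, hg0, hg', hg'0, ?_⟩
    · by_contra hcon
      push Not at hcon
      apply hv0
      rw [hv]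
      exact Finset.sum_eq_zero (fun e he => by rw [hcon e he, zero_smul])
    · rw [cl_mul ℓ hg0 hg'0, huv, hv]
  choose s m g g' hs hm hg hg0 hg' hg'0 hcl using hdata
  -- representatives
  let f : ℕ → K := fun n => ∏ e ∈ s n, (h + c n * t - e) ^ (m n e).val
  have hfac0 : ∀ n, ∀ e ∈ s n, h + c n * t - e ≠ 0 := by
    intro n e he h0
    rw [sub_eq_zero] at h0
    exact hxk n (h0 ▸ hs n e he)
  have hf0 : ∀ n, f n ≠ 0 := fun n =>
    Finset.prod_ne_zero_iff.2 (fun e he => pow_ne_zero _ (hfac0 n e he))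
  have hclf : ∀ n, cl ℓ (f n) = ∑ e ∈ s n, m n e • cl ℓ (h + c n * t - e) := by
    intro n
    have key : ∀ T : Finset K, T ⊆ s n →
        cl ℓ (∏ e ∈ T, (h + c n * t - e) ^ (m n e).val) =
          ∑ e ∈ T, m n e • cl ℓ (h + c n * t - e) := by
      intro T
      induction T using Finset.induction_on with
      | empty => intro _; simp [cl_one]
      | insert a T ha ih =>
        intro hT
        rw [Finset.prod_insert ha, Finset.sum_insert ha, cl_mul ℓ
          (pow_ne_zero _ (hfac0 n a (hT (Finset.mem_insert_self a T))))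
          (Finset.prod_ne_zero_iff.2 (fun e he => pow_ne_zero _
            (hfac0 n e (hT (Finset.mem_insert_of_mem he))))),
          ih (fun e he => hT (Finset.mem_insert_of_mem he)), cl_pow]
        congr 1
        rw [← Nat.cast_smul_eq_nsmul (ZMod ℓ), ZMod.natCast_zmod_val]
    exact key (s n) (Finset.Subset.refl _)
  set F : Subfield K := adj (adj k h) t with hF
  have htF : t ∈ F := mem_adj _ _
  have hhF : h ∈ F := le_adj _ _ (mem_adj _ _)
  have hkF : k ≤ F := (le_adj k h).trans (le_adj _ t)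
  have hkhF : adj k h ≤ F := le_adj _ _
  have hktF : adj k t ≤ F := adj_le hkF htF
  have hxF : ∀ n, h + c n * t ∈ F := fun n =>
    Subfield.add_mem _ hhF (Subfield.mul_mem _ (hkF (hck n)) htF)
  have hfF : ∀ n, f n ∈ F := by
    intro n
    refine Subfield.prod_mem _ (fun e he => ?_)
    exact Subfield.pow_mem _ (Subfield.sub_mem _ (hxF n) (hkF (hs n e he))) _
  obtain ⟨ζ, hζk, hζ'⟩ := finK_prim hk ℓ
  have hFG : FG F (⊤ : Subfield K) := hfg.mono hkF le_top
  obtain ⟨n₀, hn₀⟩ := fk ℓ hFG (hkF hζk) hζ'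
  obtain ⟨i, j, hij, y, hy, hy0, hxy⟩ := hn₀ (fun i => f i / (g i * g' i)) (by
    intro i
    refine ⟨Subfield.div_mem _ (hfF i) (Subfield.mul_mem _ (hkhF (hg i)) (hktF (hg' i))), ?_, ?_⟩
    · exact div_ne_zero (hf0 i) (mul_ne_zero (hg0 i) (hg'0 i))
    · have h1 : cl ℓ (f i / (g i * g' i)) = 0 := by
        rw [cl_div ℓ (hf0 i) (mul_ne_zero (hg0 i) (hg'0 i)), hcl, hclf, sub_self]
      obtain ⟨w, -, hw⟩ := (cl_eq_zero_iff ℓ
        (div_ne_zero (hf0 i) (mul_ne_zero (hg0 i) (hg'0 i)))).1 h1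
      exact ⟨w, trivial, hw⟩)
  -- the valuation
  obtain ⟨e, he, hme⟩ := hm i
  set π : K := h + c i * t - e with hπdef
  have hπt : Transcendental (adj k t) π := by
    intro h'
    apply hht
    have h1 : h ∈ rac (adj k t) := by
      have e1 : h = (h + c i * t - e) + (e - c i * t) := by ring
      rw [e1]
      refine Subfield.add_mem _ (mem_rac.2 h') (le_rac _ ?_)
      exact Subfield.sub_mem _ (le_adj _ _ (hs i e he))
        (Subfield.mul_mem _ (le_adj _ _ (hck i)) (mem_adj _ _))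
    exact mem_rac.1 h1
  obtain ⟨W, hW, hWπ⟩ := exists_triv (adj k t) π hπt
  have hπ0 : π ≠ 0 := hfac0 i e he
  have hWπ0 : W.valuation π ≠ 0 := (Valuation.ne_zero_iff _).2 hπ0
  have hek : e ∈ k := hs i e he
  have hcij : c j - c i ≠ 0 := sub_ne_zero.2 (fun h' => hij (Fin.ext (hcinj h').symm))
  have hWj : TrivOn W (adj k (h + c j * t)) := by
    refine triv_of_congr hrac htk hW hek (k.sub_mem (hck j) (hck i)) hcij ?_
    have e1 : h + c j * t - (e + (c j - c i) * t) = π := by rw [hπdef]; ring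
    rw [e1]; exact hWπ
  have hWh : TrivOn W (adj k h) := by
    refine triv_of_congr hrac htk hW hek (k.neg_mem (hck i)) (neg_ne_zero.2 (hc0 i)) ?_
    have e1 : h - (e + (-c i) * t) = π := by rw [hπdef]; ring
    rw [e1]; exact hWπ
  have hfj : f j ∈ adj k (h + c j * t) := by
    refine Subfield.prod_mem _ (fun e he => ?_)
    exact Subfield.pow_mem _ (Subfield.sub_mem _ (mem_adj _ _) (le_adj _ _ (hs j e he))) _
  have hvj : W.valuation (f j) = 1 := hWj.eq_one hfj (hf0 j)
  have hvg : ∀ n, W.valuation (g n * g' n) = 1 := by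
    intro n
    rw [map_mul, hWh.eq_one (hg n) (hg0 n), hW.eq_one (hg' n) (hg'0 n), one_mul]
  have hvf : W.valuation (f i) = W.valuation π ^ (m i e).val := by
    change W.valuation (∏ e' ∈ s i, (h + c i * t - e') ^ (m i e').val) = _
    rw [map_prod, Finset.prod_eq_single e]
    · rw [map_pow]
    · intro e' he' hne
      have h1 : W.valuation (e - e') = 1 :=
        hW.eq_one (le_adj _ _ (k.sub_mem hek (hs i e' he'))) (sub_ne_zero.2 hne.symm)
      have h2 : W.valuation (h + c i * t - e') = 1 := by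
        have e1 : h + c i * t - e' = (e - e') + π := by rw [hπdef]; ring
        rw [e1, Valuation.map_add_eq_of_lt_left, h1]
        rw [h1]; exact hWπ
      rw [map_pow, h2, one_pow]
    · intro h'; exact absurd he h'
  have hvy : W.valuation π ^ (m i e).val = W.valuation y ^ ℓ := by
    have h1 : f i = (f j / (g j * g' j)) * y ^ ℓ * (g i * g' i) := by
      rw [← hxy, div_mul_cancel₀ _ (mul_ne_zero (hg0 i) (hg'0 i))]
    rw [← hvf, h1, map_mul, map_mul, map_div₀, hvj, hvg, hvg, map_pow, div_one, one_mul, mul_one]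
  obtain ⟨N, hyπ⟩ : ∃ N : ℕ, y ^ ringExpChar K ^ N ∈ IntermediateField.adjoin (adj k t) {π} := by
    have h1 : F ≤ pf (IntermediateField.adjoin (adj k t) {π}).toSubfield := by
      have hb : ∀ z ∈ adj k t, z ∈ pf (IntermediateField.adjoin (adj k t) {π}).toSubfield := by
        intro z hz
        exact le_pf _ ((IntermediateField.adjoin (adj k t) {π}).algebraMap_mem ⟨z, hz⟩)
      refine adj_le (adj_le ?_ ?_) (hb t (mem_adj _ _))
      · intro z hz
        exact hb z (le_adj _ _ hz)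
      · have e1 : h = (h + c i * t - e) + (e - c i * t) := by ring
        rw [e1]
        refine Subfield.add_mem _ (le_pf _ (IntermediateField.mem_adjoin_simple_self _ π))
          (hb _ ?_)
        exact Subfield.sub_mem _ (le_adj _ _ hek)
          (Subfield.mul_mem _ (le_adj _ _ (hck i)) (mem_adj _ _))
    obtain ⟨N, hN⟩ := mem_pf.1 (h1 hy)
    exact ⟨N, hN⟩
  obtain ⟨n, c', hc', hc'0, hval⟩ := exists_residue hW hWπ hπ0 hyπ (pow_ne_zero _ hy0)
  have hvu : W.valuation (y ^ ringExpChar K ^ N * π ^ n) = 1 :=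
    val_of_sub (hW.eq_one hc' hc'0) hval
  have hyv : W.valuation y ^ ringExpChar K ^ N = W.valuation π ^ (-n) := by
    rw [map_mul, map_zpow₀, map_pow] at hvu
    rw [zpow_neg]
    exact eq_inv_of_mul_eq_one_left hvu
  have hvy' : W.valuation π ^ ((m i e).val * ringExpChar K ^ N) =
      (W.valuation π ^ (-n)) ^ ℓ := by
    rw [pow_mul, hvy, ← pow_mul, mul_comm ℓ, pow_mul, hyv]
  have h1 : W.valuation π ^ ((((m i e).val * ringExpChar K ^ N : ℕ) : ℤ) + n * ℓ) = 1 := by
    rw [zpow_add₀ hWπ0, zpow_natCast, hvy', ← zpow_natCast, ← zpow_mul, ← zpow_add₀ hWπ0]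
    have : -n * (ℓ : ℤ) + n * ℓ = 0 := by ring
    rw [this, zpow_zero]
  have h2 : (((m i e).val * ringExpChar K ^ N : ℕ) : ℤ) + n * ℓ = 0 := by
    have hunif : ∀ r : ℤ, W.valuation π ^ r = 1 → r = 0 := by
      intro r hr
      by_contra hr0
      rcases lt_or_gt_of_ne hr0 with h3 | h3
      · have h4 : W.valuation π ^ (-r) = 1 := by rw [zpow_neg, hr, inv_one]
        obtain ⟨q, hq⟩ := Int.eq_ofNat_of_zero_le (a := -r) (by omega)
        rw [hq, zpow_natCast] at h4
        exact (pow_lt_one₀ zero_le hWπ (by omega)).ne h4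
      · obtain ⟨q, hq⟩ := Int.eq_ofNat_of_zero_le (a := r) (by omega)
        rw [hq, zpow_natCast] at hr
        exact (pow_lt_one₀ zero_le hWπ (by omega)).ne hr
    exact hunif _ h1
  have h3' : (ℓ : ℤ) ∣ ((m i e).val * ringExpChar K ^ N : ℕ) := ⟨-n, by linear_combination h2⟩
  have h3'' : ℓ ∣ (m i e).val * ringExpChar K ^ N := Int.natCast_dvd_natCast.1 h3'
  have h3 : (ℓ : ℤ) ∣ (m i e).val := by
    rcases hℓ.dvd_mul.1 h3'' with h3 | h3
    · exact Int.natCast_dvd_natCast.2 h3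
    · exact absurd ((ZMod.natCast_eq_zero_iff _ _).2 h3) (q_pow_ne_zero ℓ K N)
  have h4 : ℓ ∣ (m i e).val := Int.natCast_dvd_natCast.1 h3
  haveI : NeZero ℓ := ⟨hℓ.ne_zero⟩
  have h5 : (m i e).val = 0 := Nat.eq_zero_of_dvd_of_lt h4 (ZMod.val_lt _)
  exact hme ((ZMod.val_eq_zero _).1 h5)

end meet

end Vale.Agent.P019P
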