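import Vale.Agent.P019.Iface
import Vale.Agent.P019.Vmap
import Vale.Agent.P019P.HypOf

/-!
# From function fields to their perfect closures
-/

namespace Vale.Agent.P019P

open Vale.Agent.P019

open scoped TensorProduct

section perf

variable {K K' : Type*} [Field K] [Field K'] [Algebra K K'] [IsPurelyInseparable K K']

theorem exists_pow_mem (x : K') : ∃ (n : ℕ) (y : K),
    algebraMap K K' y = x ^ ringExpChar K ^ n := by
  obtain ⟨n, y, hy⟩ := IsPurelyInseparable.pow_mem K (ringExpChar K) x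
  exact ⟨n, y, hy⟩

variable (K K') in
theorem Vmap_bij (ℓ : ℕ) [Fact ℓ.Prime] [NeZero (ℓ : K)] :
    Function.Bijective (Vmap ℓ (algebraMap K K')) := by
  have hℓ : ℓ.Prime := Fact.out
  constructor
  · rw [← LinearMap.ker_eq_bot, LinearMap.ker_eq_bot']
    intro v hv
    obtain ⟨x, hx0, rfl⟩ := cl_surj ℓ v
    rw [Vmap_cl] at hv
    have hx0' : algebraMap K K' x ≠ 0 := (map_ne_zero _).2 hx0
    obtain ⟨w, hw0, hw⟩ := (cl_eq_zero_iff ℓ hx0').1 hv
    obtain ⟨n, y, hy⟩ := exists_pow_mem (K := K) w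
    have h1 : y ^ ℓ = x ^ ringExpChar K ^ n := by
      apply (algebraMap K K').injective
      rw [map_pow, map_pow, hy, ← pow_mul, mul_comm, pow_mul, hw]
    have h2 : ((ringExpChar K ^ n : ℕ) : ZMod ℓ) • cl ℓ x = 0 := by
      rw [Nat.cast_smul_eq_nsmul, ← cl_pow, ← h1, cl_pow_self]
    exact (smul_eq_zero.1 h2).resolve_left (q_pow_ne_zero ℓ K n)
  · intro v
    obtain ⟨x, hx0, rfl⟩ := cl_surj ℓ v
    obtain ⟨n, y, hy⟩ := exists_pow_mem (K := K) x
    refine ⟨((ringExpChar K ^ n : ℕ) : ZMod ℓ)⁻¹ • cl ℓ y, ?_⟩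
    rw [map_smul, Vmap_cl, hy, cl_pow, ← Nat.cast_smul_eq_nsmul (ZMod ℓ), smul_smul,
      inv_mul_cancel₀ (q_pow_ne_zero ℓ K n), one_smul]

/-- the identification `V_K = V_{K'}` for a purely inseparable extension. -/
noncomputable def perfV (ℓ : ℕ) [Fact ℓ.Prime] (K K' : Type*) [Field K] [Field K'] [Algebra K K']
    [IsPurelyInseparable K K'] [NeZero (ℓ : K)] : V ℓ K ≃ₗ[ZMod ℓ] V ℓ K' :=
  LinearEquiv.ofBijective (Vmap ℓ (algebraMap K K')) (Vmap_bij K K' ℓ)

theorem perfV_apply {ℓ : ℕ} [Fact ℓ.Prime] [NeZero (ℓ : K)] (v : V ℓ K) :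
    perfV ℓ K K' v = Vmap ℓ (algebraMap K K') v := rfl

theorem perfV_compatible {ℓ : ℕ} [Fact ℓ.Prime] [NeZero (ℓ : K)] :
    Compatible (perfV ℓ K K') := by
  have hcoe : (perfV ℓ K K').toLinearMap = Vmap ℓ (algebraMap K K') := rfl
  unfold Compatible
  rw [hcoe]
  apply le_antisymm
  · rw [Submodule.map_le_iff_le_comap]
    exact Vmap_R ℓ _
  · conv_lhs => unfold R
    rw [Submodule.span_le]
    rintro _ ⟨x, y, hxy, rfl⟩
    obtain ⟨n, a, ha⟩ := exists_pow_mem (K := K) (x : K')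
    obtain ⟨m, b, hb⟩ := exists_pow_mem (K := K) (y : K')
    have hq : ringExpChar K = ringExpChar K' := ringExpChar_eq_of_hom (algebraMap K K')
    have ha' : algebraMap K K' (a ^ ringExpChar K ^ m) = (x : K') ^ ringExpChar K ^ (n + m) := by
      rw [map_pow, ha, ← pow_mul, ← pow_add]
    have hb' : algebraMap K K' (b ^ ringExpChar K ^ n) = (y : K') ^ ringExpChar K ^ (n + m) := by
      rw [map_pow, hb, ← pow_mul, ← pow_add, add_comm m]
    have hab : a ^ ringExpChar K ^ m + b ^ ringExpChar K ^ n = 1 := by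
      apply (algebraMap K K').injective
      rw [map_add, ha', hb', map_one, hq, ← add_pow_q, hxy, one_pow]
    have ha0 : a ^ ringExpChar K ^ m ≠ 0 := by
      intro h
      rw [h, map_zero] at ha'
      exact pow_ne_zero _ x.ne_zero ha'.symm
    have hb0 : b ^ ringExpChar K ^ n ≠ 0 := by
      intro h
      rw [h, map_zero] at hb'
      exact pow_ne_zero _ y.ne_zero hb'.symm
    have hmem : V.mk ℓ (Units.mk0 _ ha0) ⊗ₜ[ZMod ℓ] V.mk ℓ (Units.mk0 _ hb0) ∈ R ℓ K :=
      Submodule.subset_span ⟨_, _, hab, rfl⟩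
    have h1 : ∀ (z : K) (u : K'ˣ), algebraMap K K' z = (u : K') ^ ringExpChar K ^ (n + m) →
        V.mk ℓ u = ((ringExpChar K ^ (n + m) : ℕ) : ZMod ℓ)⁻¹ •
          Vmap ℓ (algebraMap K K') (cl ℓ z) := by
      intro z u h
      rw [Vmap_cl, h, cl_pow, ← Nat.cast_smul_eq_nsmul (ZMod ℓ), smul_smul,
        inv_mul_cancel₀ (q_pow_ne_zero ℓ K _), one_smul, cl_unit]
    have h2 := h1 _ x ha'
    have h3 := h1 _ y hb'
    rw [cl_of_ne ℓ ha0] at h2
    rw [cl_of_ne ℓ hb0] at h3
    rw [SetLike.mem_coe, h2, h3, TensorProduct.smul_tmul_smul]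
    refine Submodule.smul_mem _ _ ⟨_, hmem, ?_⟩
    rw [TensorProduct.map_tmul]

theorem Compatible.trans {ℓ : ℕ} {K L M : Type*} [Field K] [Field L] [Field M]
    {Θ : V ℓ K ≃ₗ[ZMod ℓ] V ℓ L} {Φ : V ℓ L ≃ₗ[ZMod ℓ] V ℓ M} (h : Compatible Θ)
    (h' : Compatible Φ) : Compatible (Θ.trans Φ) := by
  unfold Compatible at *
  rw [← h', ← h, ← Submodule.map_comp, ← TensorProduct.map_comp]
  rfl

end perf

section iface

variable {k K K' : Type*} [Field k] [Field K] [Field K'] [Algebra k K] [Algebra K K']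

/-- the image of the constants in the perfect closure. -/
def cst' (k K K' : Type*) [Field k] [Field K] [Field K'] [Algebra k K] [Algebra K K'] :
    Subfield K' := (cst k K).map (algebraMap K K')

theorem mem_cst' {x : K'} : x ∈ cst' k K K' ↔
    ∃ c : k, algebraMap K K' (algebraMap k K c) = x := by
  constructor
  · rintro ⟨y, hy, rfl⟩
    obtain ⟨c, rfl⟩ := mem_cst.1 hy
    exact ⟨c, rfl⟩
  · rintro ⟨c, rfl⟩
    exact ⟨_, algebraMap_mem_cst c, rfl⟩

theorem isAlgClosed_cst' [IsAlgClosed k] : IsAlgClosed (cst' k K K') := by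
  letI : Algebra k K' := ((algebraMap K K').comp (algebraMap k K)).toAlgebra
  have h : cst' k K K' = cst k K' := by
    ext x
    rw [mem_cst', mem_cst]
    exact Iff.rfl
  rw [h]
  exact isAlgClosed_cst

theorem countable_cst'_iff : ((cst' k K K' : Subfield K') : Set K').Countable ↔ Countable k := by
  letI : Algebra k K' := ((algebraMap K K').comp (algebraMap k K)).toAlgebra
  have h : cst' k K K' = cst k K' := by
    ext x
    rw [mem_cst', mem_cst]
    exact Iff.rfl
  rw [h]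
  exact countable_cst_iff

theorem fg_cst' [Algebra.EssFiniteType k K] [IsPurelyInseparable K K'] :
    FG (cst' k K K') (⊤ : Subfield K') := by
  classical
  obtain ⟨S, hS⟩ := fg_cst (k := k) (K := K)
  refine ⟨S.image (algebraMap K K'), ?_⟩
  symm
  rw [eq_top_iff]
  intro x _
  obtain ⟨n, y, hy⟩ := exists_pow_mem (K := K) x
  refine mem_pf.2 ⟨n, ?_⟩
  rw [← ringExpChar_eq_of_hom (algebraMap K K'), ← hy]
  have h1 : y ∈ cst k K ⊔ Subfield.closure (S : Set K) := by
    rw [← hS]; trivial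
  have h2 : cst k K ⊔ Subfield.closure (S : Set K) ≤
      (cst' k K K' ⊔ Subfield.closure ((S.image (algebraMap K K') : Finset K') : Set K')).comap
        (algebraMap K K') := by
    refine sup_le ?_ ?_
    · intro z hz
      exact (le_sup_left : cst' k K K' ≤ _) ⟨z, hz, rfl⟩
    · rw [Subfield.closure_le]
      intro z hz
      refine (le_sup_right : Subfield.closure _ ≤ _) (Subfield.subset_closure ?_)
      exact Finset.mem_coe.2 (Finset.mem_image_of_mem _ hz)
  exact h2 h1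

theorem exists_two' (h : 2 ≤ Algebra.trdeg k K) :
    ∃ x y : K', x ∉ cst' k K K' ∧ ¬ IsAlgebraic (adj (cst' k K K') x) y := by
  obtain ⟨x, y, hx, hy⟩ := Vale.Agent.P019.exists_two_of_trdeg (k := k) (K := K) h
  refine ⟨algebraMap K K' x, algebraMap K K' y, ?_, ?_⟩
  · rintro ⟨z, hz, hzx⟩
    exact hx ((algebraMap K K').injective hzx ▸ hz)
  · intro h'
    rw [isAlgebraic_adj] at h'
    apply hy
    apply Vale.Agent.P019.Gn.isAlgebraic_of_map (Ω := K')
    have h1 : Vale.Agent.P019.adj (cst' k K K') (algebraMap K K' x) ≤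
        (Vale.Agent.P019.adj (cst k K) x).map (algebraMap K K') := by
      refine Vale.Agent.P019.adj_le ?_ ⟨x, Vale.Agent.P019.mem_adj _ _, rfl⟩
      rintro _ ⟨z, hz, rfl⟩
      exact ⟨z, Vale.Agent.P019.le_adj _ _ hz, rfl⟩
    exact isAlgebraic_mono h1 h'

end iface

end Vale.Agent.P019P
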