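import Vale.Agent.P019.Transfer
import Vale.Agent.P019.Local
import Vale.Agent.P019P.Prime

/-!
# Transfer of rank one valuations through compatible isomorphisms
-/

namespace Vale.Agent.P019P

open Vale.Agent.P019

set_option linter.style.haveILetI false

open scoped TensorProduct

variable {ℓ : ℕ} [Fact ℓ.Prime] {K L : Type*} [Field K] [Field L]

/-- if `f` is nonzero on all uniformizers, `U1 ≤ H f`. -/
theorem U1_le_H [PerfectField K] [NeZero (ℓ : K)] {W : ValuationSubring K} {π : K}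
    (hW : IsUnif W π) : U1 ℓ W ≤ H (hW.fn ℓ) := by
  -- first: elements `1 + m` with `fn m ≠ 0`
  have h1 : ∀ m : K, m ≠ 0 → W.valuation m < 1 → hW.fn ℓ (cl ℓ m) ≠ 0 →
      cl ℓ (1 + m) ∈ H (hW.fn ℓ) := by
    intro m hm0 hlt hm g hg
    have h2 := hg (-m)
    have e1 : (1 : K) - -m = 1 + m := by ring
    have hne : (-m) ≠ 0 := neg_ne_zero.2 hm0
    have e2 : (hW.fn ℓ) (cl ℓ (1 + m)) = 0 := hW.fn_unit ℓ _ (val_one_add hlt)
    have e4 : (hW.fn ℓ) (cl ℓ (-m)) = hW.fn ℓ (cl ℓ m) := by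
      have e5 : -m = (-1) * m := by ring
      rw [e5, cl_mul ℓ (by norm_num) hm0, map_add,
        hW.fn_unit ℓ (-1) (by rw [Valuation.map_neg, map_one]), zero_add]
    rw [e1, e2, e4, zero_mul] at h2
    exact (mul_eq_zero.1 h2).resolve_left hm
  rintro _ ⟨m, hm, rfl⟩
  by_cases hm0 : m = 0
  · rw [hm0, add_zero, cl_one]; exact Submodule.zero_mem _
  by_cases hfm : hW.fn ℓ (cl ℓ m) ≠ 0
  · exact h1 m hm0 hm hfm
  push Not at hfm
  -- an element with value between `m` and `1`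
  obtain ⟨j, n, hjn⟩ := hW.rep m hm0
  haveI : PerfectRing K (ringExpChar K) := PerfectField.toPerfectRing _
  obtain ⟨p, hp⟩ := (bijective_iterateFrobenius K (ringExpChar K) (n := j)).2 π
  rw [iterateFrobenius_def] at hp
  have hp0 : p ≠ 0 := by
    rintro rfl
    rw [zero_pow (qpow_pos K j).ne'] at hp
    exact hW.ne hp.symm
  have hq := q_pow_ne_zero ℓ K j
  have hfp : hW.fn ℓ (cl ℓ p) ≠ 0 := by
    have e : ((ringExpChar K ^ j : ℕ) : ZMod ℓ) * hW.fn ℓ (cl ℓ p) = 1 := by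
      have e6 : cl ℓ (p ^ ringExpChar K ^ j) = cl ℓ π := congrArg (cl ℓ) hp
      rw [← hW.fn_self ℓ, ← e6, cl_pow, ← smul_eq_mul, ← map_smul, Nat.cast_smul_eq_nsmul]
    intro h0
    rw [h0, mul_zero] at e
    exact zero_ne_one e
  have hp1 : W.valuation p < 1 := by
    by_contra hcon
    push Not at hcon
    have h2 : (1 : W.ValueGroup) ≤ W.valuation (p ^ ringExpChar K ^ j) := by
      rw [map_pow]
      exact one_le_pow₀ hcon
    rw [hp] at h2
    exact absurd hW.lt (not_lt.2 h2)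
  have hmp : W.valuation m < W.valuation p := by
    have hπ := hW.ne
    have hv : W.valuation m ^ (ringExpChar K ^ j) = W.valuation π ^ (-n) := by
      have e : m ^ ringExpChar K ^ j = (m ^ ringExpChar K ^ j * π ^ n) * π ^ (-n) := by
        rw [mul_assoc, ← zpow_add₀ hπ]
        simp
      rw [← map_pow, e, map_mul, hjn, one_mul, map_zpow₀]
    have hvp : W.valuation p ^ (ringExpChar K ^ j) = W.valuation π := by
      rw [← map_pow, hp]
    have hpos : 0 < W.valuation π := zero_lt_iff.2 ((Valuation.ne_zero_iff _).2 hπ)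
    have hn1 : 0 < -n := by
      by_contra hcon
      push Not at hcon
      have h2 : 1 ≤ W.valuation π ^ (-n) := by
        have := zpow_le_zpow_right_of_le_one₀ hpos hW.lt.le hcon
        rwa [zpow_zero] at this
      rw [← hv] at h2
      exact absurd (pow_lt_one₀ zero_le hm (qpow_pos K j).ne') (not_lt.2 h2)
    have hn2 : -n ≠ 1 := by
      intro h2
      have h3 := hW.fn_eq ℓ hjn
      rw [hfm] at h3
      have h4 : (n : ZMod ℓ) = -1 := by
        have : n = -1 := by omega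
        rw [this]
        simp
      rw [h4, neg_neg, one_mul] at h3
      exact inv_ne_zero hq h3.symm
    refine lt_of_pow_lt_pow_left₀ (ringExpChar K ^ j) zero_le ?_
    rw [hv, hvp]
    have := zpow_lt_zpow_right_of_lt_one₀ hpos hW.lt (show (1 : ℤ) < -n by omega)
    rwa [zpow_one] at this
  have hmp1 : W.valuation (m / p) < 1 := by
    rw [map_div₀]
    exact (div_lt_one₀ (zero_lt_iff.2 ((Valuation.ne_zero_iff _).2 hp0))).2 hmp
  have hne1 : 1 + p ≠ 0 := one_add_ne_zero hp1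
  set m' := (m - p) / (1 + p) with hm'
  have e : 1 + m = (1 + p) * (1 + m') := by
    rw [hm']; field_simp; ring
  have hval : W.valuation (m / p - 1) = 1 := by
    have : m / p - 1 = -(1 + -(m / p)) := by ring
    rw [this, Valuation.map_neg]
    exact val_one_add (by rwa [Valuation.map_neg])
  have hne3 : m / p - 1 ≠ 0 := by
    intro h; rw [h, map_zero] at hval; exact zero_ne_one hval
  have e2 : m' = (m / p - 1) * p / (1 + p) := by
    rw [hm']; field_simp [hp0]
  have hm'0 : m' ≠ 0 := by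
    rw [e2]
    exact div_ne_zero (mul_ne_zero hne3 hp0) hne1
  have hvm' : W.valuation m' = W.valuation p := by
    rw [e2, map_div₀, map_mul, hval, one_mul, val_one_add hp1, div_one]
  have hfm' : hW.fn ℓ (cl ℓ m') ≠ 0 := by
    rw [e2, div_eq_mul_inv, cl_mul ℓ (mul_ne_zero hne3 hp0) (inv_ne_zero hne1),
      cl_mul ℓ hne3 hp0, map_add, map_add, hW.fn_unit ℓ _ hval, zero_add,
      hW.fn_unit ℓ (1 + p)⁻¹ (by rw [map_inv₀, val_one_add hp1, inv_one]), add_zero]
    exact hfp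
  have hlt' : W.valuation m' < 1 := by rw [hvm']; exact hp1
  rw [e, cl_mul ℓ hne1 (one_add_ne_zero hlt')]
  exact Submodule.add_mem _ (h1 p hp0 hp1 hfp) (h1 m' hm'0 hlt' hfm')

theorem H_fn_eq [PerfectField K] [NeZero (ℓ : K)] (hneg : ∃ i : K, i ^ ℓ = -1)
    {W : ValuationSubring K} {π : K}
    (hW : IsUnif W π) : H (hW.fn ℓ) = U1 ℓ W :=
  le_antisymm (H_le_U1 hneg W _ (fun z hz => hW.fn_unit ℓ z hz)) (U1_le_H hW)

/-- transfer of a discrete valuation ring through a compatible isomorphism. -/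
theorem transfer [PerfectField K] [NeZero (ℓ : K)]
    {Θ : V ℓ K ≃ₗ[ZMod ℓ] V ℓ L} (hΘ : Compatible Θ)
    (hnegK : ∃ i : K, i ^ ℓ = -1) (hnegL : ∃ i : L, i ^ ℓ = -1) {W : ValuationSubring K} {π : K}
    (hW : IsUnif W π) (g₀ : K)
    (h₀ : ∀ i j : ZMod ℓ, i • cl ℓ g₀ + j • cl ℓ (1 - g₀) ∈ U1 ℓ W → i = 0 ∧ j = 0) :
    ∃ O : ValuationSubring L, (∀ z, O.valuation z = 1 → hW.fn ℓ (Θ.symm (cl ℓ z)) = 0) ∧
      (∀ v, Θ v ∈ U1 ℓ O ↔ v ∈ U1 ℓ W) := by
  have hH := H_fn_eq hnegK hW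
  obtain ⟨O, h1, h2⟩ := exists_transfer hΘ hnegL (hW.fn ℓ) g₀ (by rw [hH]; exact h₀)
  refine ⟨O, h1, fun v => ⟨?_, ?_⟩⟩
  · rintro ⟨m, hm, hv⟩
    have := h2 m hm
    rw [← hv, LinearEquiv.symm_apply_apply, hH] at this
    exact this
  · intro hv
    have h3 : H ((hW.fn ℓ) ∘ₗ Θ.symm.toLinearMap) ≤ U1 ℓ O :=
      H_le_U1 hnegL O _ (fun z hz => h1 z hz)
    apply h3
    rw [← hH] at hv
    have := (hΘ.symm.mem_H (f := hW.fn ℓ) (v := Θ v))
    rw [LinearEquiv.symm_apply_apply] at this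
    exact this.1 hv

end Vale.Agent.P019P
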