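import Vale.Agent.P019P.Fld
import Vale.Agent.P019P.Prime
import Vale.Agent.P019P.Transfer
import Vale.Agent.P019.Local

/-!
# Valuations which are discrete up to roots of order `q`: more lemmas
-/

namespace Vale.Agent.P019P

open Vale.Agent.P019

set_option linter.style.haveILetI false
set_option linter.unusedSectionVars false

variable {K : Type*} [Field K]

theorem qn_ne_zero (K : Type*) [Field K] (n : ℕ) : (ringExpChar K) ^ n ≠ 0 :=
  pow_ne_zero _ (expChar_ne_zero K (ringExpChar K))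

theorem cl_pow_q {ℓ : ℕ} (z : K) (n : ℕ) :
    cl ℓ (z ^ (ringExpChar K) ^ n) = (((ringExpChar K) ^ n : ℕ) : ZMod ℓ) • cl ℓ z := by
  rw [cl_pow, Nat.cast_smul_eq_nsmul]

/-- roots in a perfect field. -/
theorem exists_root [PerfectField K] (z : K) (n : ℕ) : ∃ y : K, y ^ (ringExpChar K) ^ n = z := by
  obtain ⟨y, hy⟩ := (bijective_iterateFrobenius K (ringExpChar K) (n := n)).2 z
  exact ⟨y, by rw [← hy, iterateFrobenius_def]⟩

theorem IsUnif.of_old {O : ValuationSubring K} {π : K} (h : Vale.Agent.P019.IsUnif O π) :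
    IsUnif O π := ⟨h.ne, h.lt, fun z hz => by
  obtain ⟨n, hn⟩ := h.rep z hz
  exact ⟨0, n, by simpa using hn⟩⟩

section fn

variable {ℓ : ℕ} [Fact ℓ.Prime] [NeZero (ℓ : K)]

/-- the value of a functional killing the units. -/
theorem IsUnif.fn_rep {O : ValuationSubring K} {π : K}
    (f : V ℓ K →ₗ[ZMod ℓ] ZMod ℓ) (hf : ∀ z, O.valuation z = 1 → f (cl ℓ z) = 0) (h : IsUnif O π)
    {z : K} {m : ℕ} {n : ℤ} (hn : O.valuation (z ^ (ringExpChar K) ^ m * π ^ n) = 1) :
    (((ringExpChar K) ^ m : ℕ) : ZMod ℓ) * f (cl ℓ z) = -(n : ZMod ℓ) * f (cl ℓ π) := by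
  have hz : z ≠ 0 := by
    rintro rfl
    rw [zero_pow (qn_ne_zero K m), zero_mul, map_zero] at hn
    exact zero_ne_one hn
  have h1 := hf _ hn
  rw [cl_mul ℓ (pow_ne_zero _ hz) (zpow_ne_zero _ h.ne), cl_pow_q, cl_zpow, map_add, map_smul,
    map_zsmul, smul_eq_mul, zsmul_eq_mul] at h1
  linear_combination h1

/-- elements with nonzero functional in the kernel of the residue. -/
theorem mem_H_of_ne {O : ValuationSubring K} {π : K} (h : IsUnif O π) {m : K}
    (hm : O.valuation m < 1) (hne : h.fn ℓ (cl ℓ (-m)) ≠ 0) : cl ℓ (1 + m) ∈ H (h.fn ℓ) := by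
  intro g hg
  have h2 := hg (-m)
  have e1 : (1 : K) - -m = 1 + m := by ring
  have e2 : (h.fn ℓ) (cl ℓ (1 + m)) = 0 := h.fn_unit ℓ _ (val_one_add hm)
  rw [e1, e2, zero_mul] at h2
  exact (mul_eq_zero.1 h2).resolve_left hne

theorem IsUnif.fn_neg {O : ValuationSubring K} {π : K} (h : IsUnif O π) (m : K) :
    h.fn ℓ (cl ℓ (-m)) = h.fn ℓ (cl ℓ m) := by
  by_cases hm : m = 0
  · rw [hm, neg_zero]
  have e : -m = (-1) * m := by ring
  rw [e, cl_mul ℓ (by norm_num) hm, map_add, h.fn_unit ℓ (-1) (by rw [Valuation.map_neg, map_one]),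
    zero_add]

/-- there is an element of small positive value on which the functional does not vanish. -/
theorem IsUnif.exists_small [PerfectField K] {O : ValuationSubring K} {π : K} (h : IsUnif O π)
    {m : K} (hm0 : m ≠ 0) (hm : O.valuation m < 1) (hfn : h.fn ℓ (cl ℓ m) = 0) :
    ∃ y : K, y ≠ 0 ∧ O.valuation m < O.valuation y ∧ O.valuation y < 1 ∧
      h.fn ℓ (cl ℓ y) ≠ 0 := by
  obtain ⟨i, n, hn⟩ := h.rep m hm0
  have hπ : 0 < O.valuation π := zero_lt_iff.2 ((Valuation.ne_zero_iff _).2 h.ne)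
  have hm' : 0 < O.valuation m := zero_lt_iff.2 ((Valuation.ne_zero_iff _).2 hm0)
  have hval : O.valuation m ^ (ringExpChar K) ^ i = O.valuation π ^ (-n) := by
    rw [map_mul, map_pow, map_zpow₀] at hn
    rw [zpow_neg, eq_inv_of_mul_eq_one_left hn]
  have hneg : n < 0 := by
    by_contra hcon
    have h1 : O.valuation m ^ (ringExpChar K) ^ i < 1 := pow_lt_one₀ zero_le hm (qn_ne_zero K i)
    rw [hval, zpow_neg] at h1
    have h2 : O.valuation π ^ n ≤ 1 := by
      obtain ⟨a, rfl⟩ := Int.eq_ofNat_of_zero_le (not_lt.1 hcon)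
      rw [zpow_natCast]
      exact pow_le_one₀ zero_le h.lt.le
    exact absurd h1 (not_lt.2 ((one_le_inv₀ (zpow_pos hπ _)).2 h2))
  -- value of the functional
  have hfnn := h.fn_rep (h.fn ℓ) (h.fn_unit ℓ) hn
  rw [hfn, mul_zero, h.fn_self ℓ, mul_one] at hfnn
  have hdvd : (ℓ : ℤ) ∣ n := by
    rw [← ZMod.intCast_zmod_eq_zero_iff_dvd]
    linear_combination hfnn
  have hℓ2 : 2 ≤ ℓ := (Fact.out : ℓ.Prime).two_le
  have hn2 : n ≤ -2 := by
    obtain ⟨c, rfl⟩ := hdvd
    have hc : c < 0 := by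
      by_contra hc
      have : (0 : ℤ) ≤ (ℓ : ℤ) * c := mul_nonneg (by positivity) (not_lt.1 hc)
      omega
    nlinarith
  obtain ⟨y, hy⟩ := exists_root π i
  have hy0 : y ≠ 0 := by
    rintro rfl
    rw [zero_pow (qn_ne_zero K i)] at hy
    exact h.ne hy.symm
  have hyv : O.valuation y ^ (ringExpChar K) ^ i = O.valuation π := by rw [← map_pow, hy]
  refine ⟨y, hy0, ?_, ?_, ?_⟩
  · refine lt_of_pow_lt_pow_left₀ ((ringExpChar K) ^ i) zero_le ?_
    rw [hval, hyv]
    have h1 : O.valuation π ^ (-n) ≤ O.valuation π ^ (2 : ℤ) :=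
      zpow_le_zpow_right_of_le_one₀ hπ h.lt.le (by omega)
    refine lt_of_le_of_lt h1 ?_
    have h2 : O.valuation π ^ (2 : ℤ) = O.valuation π * O.valuation π := by
      rw [zpow_ofNat, sq]
    rw [h2]
    exact mul_lt_of_lt_one_right hπ h.lt
  · by_contra hcon
    have h1 := one_le_pow₀ (n := (ringExpChar K) ^ i) (not_lt.1 hcon)
    rw [hyv] at h1
    exact absurd h.lt (not_lt.2 h1)
  · intro h0
    have h1 := congrArg (h.fn ℓ) (cl_pow_q (ℓ := ℓ) y i)
    rw [hy, h.fn_self ℓ, map_smul, h0, smul_zero] at h1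
    exact one_ne_zero h1

end fn

end Vale.Agent.P019P
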